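import Vale.Agent.P165.FQ.Insert

/-!
# Short open paths with weights: the union bound and insertion

The points carry different lower bounds on their chance of reaching the target, and the weight by
which an explored ball succeeds may be any function of the configuration. Only the event itself has
to be increasing and determined by the ball.
-/

namespace Vale.Agent.P165.TR

open Finset FF FQ

variable {V : Type} [DecidableEq V]

open Classical in
/-- Points with short open paths to `T` of chances at least `β z`: one of them has one with a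
probability comparable to the sum of the chances. -/
theorem union_weight (E : Finset (Sym2 V)) {p : ℝ} (h0 : 0 ≤ p) (h1 : p ≤ 1) (T : Set V) (l : ℕ)
    (Z : Finset V) {β : V → ℝ} {B : ℝ}
    (hβ : ∀ z ∈ Z, β z ≤ avg E p (fun η => ind (HitN T l z η)))
    (hB : ∀ u, ∑ z ∈ Z, avg E p (fun η => ind (Within u l η z)) ≤ B) :
    ∑ z ∈ Z, β z ≤ avg E p (fun η => ind (∃ z ∈ Z, HitN T l z η))
      * (∑ z ∈ Z, β z + ((l : ℝ) + 1) * B) := by
  set N : Finset (Sym2 V) → ℝ := fun η => ∑ z ∈ Z, ind (HitN T l z η) with hN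
  rcases Z.eq_empty_or_nonempty with rfl | ⟨z₁, hz₁⟩
  · simp [ind, avg]
  have hB0 : 0 ≤ B :=
    (sum_nonneg fun _ _ => avg_nonneg _ h0 h1 fun _ _ => ind_nonneg _).trans (hB z₁)
  set P := E.powerset.filter fun π : Finset (Sym2 V) => ∃ z ∈ Z, ∃ t ∈ T,
    ∃ w : (SimpleGraph.fromEdgeSet (π : Set (Sym2 V))).Walk z t,
      w.length ≤ l ∧ w.edges.toFinset = π with hP
  set U := avg E p (fun η => ind (∃ z ∈ Z, HitN T l z η)) with hU
  have hev : ∀ η, η ⊆ E → ((∃ π ∈ P, π ⊆ η) ↔ ∃ z ∈ Z, HitN T l z η) := by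
    intro η hη
    constructor
    · rintro ⟨π, hπ, hle⟩
      obtain ⟨-, z, hz, t, ht, w, hw, -⟩ := mem_filter.1 hπ
      exact ⟨z, hz, t, ht, within_mono le_rfl hle ⟨w, hw⟩⟩
    · rintro ⟨z, hz, t, ht, w, hw⟩
      have hsub : w.edges.toFinset ⊆ η := fun e he => by
        have h2 := w.edges_subset_edgeSet (List.mem_toFinset.1 he)
        rw [SimpleGraph.edgeSet_fromEdgeSet] at h2
        exact h2.1
      refine ⟨_, mem_filter.2 ⟨mem_powerset.2 (hsub.trans hη), z, hz, t, ht,
        w.transfer _ fun e he => ?_, ?_, ?_⟩, hsub⟩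
      · rw [SimpleGraph.edgeSet_fromEdgeSet]
        exact ⟨mem_coe.2 (List.mem_toFinset.2 he),
          (SimpleGraph.fromEdgeSet _).not_isDiag_of_mem_edgeSet (w.edges_subset_edgeSet he)⟩
      · rw [SimpleGraph.Walk.length_transfer]; exact hw
      · rw [SimpleGraph.Walk.edges_transfer]
  have hmono : Monotone N := fun η η' h =>
    sum_le_sum fun z _ => ind_mono (inc_hitN T l z η η' h)
  have hcond : ∀ π ∈ P, avg (E \ π) p (fun ξ => N (ξ ∪ π)) ≤ avg E p N + ((l : ℝ) + 1) * B := by
    intro π hπ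
    obtain ⟨-, z₀, -, t₀, -, w₀, hw₀, hedges⟩ := mem_filter.1 hπ
    set W := w₀.support.toFinset with hW
    have hends : ∀ u, (∃ e ∈ π, u ∈ e) → u ∈ W := by
      rintro u ⟨e, he, hu⟩
      rw [← hedges, List.mem_toFinset] at he
      exact List.mem_toFinset.2 (SimpleGraph.Walk.mem_support_of_mem_edges he hu)
    have hWc : (W.card : ℝ) ≤ (l : ℝ) + 1 := by
      have := List.toFinset_card_le w₀.support
      rw [SimpleGraph.Walk.length_support] at this
      exact_mod_cast (this.trans (Nat.add_le_add_right hw₀ 1))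
    have hpt : ∀ ξ, N (ξ ∪ π) ≤ N ξ + ∑ u ∈ W, ∑ z ∈ Z, ind (Within u l ξ z) := by
      intro ξ
      rw [hN, sum_comm (s := W)]
      beta_reduce
      rw [← sum_add_distrib]
      refine sum_le_sum fun z _ => ?_
      have hnn : ∀ u ∈ W, 0 ≤ ind (Within u l ξ z) := fun _ _ => ind_nonneg _
      by_cases hh : HitN T l z (ξ ∪ π)
      swap
      · rw [show ind (HitN T l z (ξ ∪ π)) = 0 from if_neg hh]
        exact add_nonneg (ind_nonneg _) (sum_nonneg hnn)
      rw [show ind (HitN T l z (ξ ∪ π)) = 1 from if_pos hh]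
      obtain ⟨t, ht, w, hw⟩ := hh
      have hmem : ∀ e ∈ w.edges, e ∈ ξ ∪ π := fun e he => by
        have h2 := w.edges_subset_edgeSet he
        rw [SimpleGraph.edgeSet_fromEdgeSet] at h2
        exact h2.1
      by_cases huse : ∃ e ∈ w.edges, e ∈ π
      · obtain ⟨u, hu, w', hlen, hw'⟩ := first_use w huse
        have h3 : Within u l ξ z := within_symm (within_of_walk w' (by omega) fun e he =>
          (mem_union.1 (hmem e (hw' e he).1)).resolve_right (hw' e he).2)
        refine le_trans ?_ (le_add_of_nonneg_left (ind_nonneg _))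
        exact le_trans (if_pos h3).ge (single_le_sum hnn (hends u hu))
      · push Not at huse
        refine le_trans ?_ (le_add_of_nonneg_right (sum_nonneg hnn))
        exact le_of_eq (if_pos ⟨t, ht, within_of_walk w hw fun e he =>
          (mem_union.1 (hmem e he)).resolve_right (huse e he)⟩).symm
    refine (avg_mono _ h0 h1 fun ξ _ => hpt ξ).trans ?_
    rw [avg_add]
    refine add_le_add (avg_mono_set sdiff_subset h0 h1 hmono) ?_
    rw [avg_sum]
    calc ∑ u ∈ W, avg (E \ π) p (fun ξ => ∑ z ∈ Z, ind (Within u l ξ z)) ≤ ∑ _u ∈ W, B := by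
          refine sum_le_sum fun u _ => le_trans ?_ (hB u)
          rw [avg_sum]
          exact sum_le_sum fun z _ =>
            avg_mono_set sdiff_subset h0 h1 (monotone_ind (inc_within u z l))
      _ = (W.card : ℝ) * B := by rw [sum_const, nsmul_eq_mul]
      _ ≤ ((l : ℝ) + 1) * B := mul_le_mul_of_nonneg_right hWc hB0
  have h := cover_le E h0 h1 N hmono P (fun π hπ => mem_powerset.1 (mem_filter.1 hπ).1) hcond
  have e1 : avg E p (fun η => ind (∃ π ∈ P, π ⊆ η)) = U :=
    avg_congr _ _ fun η hη => congrArg ind (propext (hev η hη))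
  have e2 : avg E p (fun η => ind (∃ π ∈ P, π ⊆ η) * N η) = avg E p N := by
    refine avg_congr _ _ fun η hη => ?_
    by_cases hex : ∃ π ∈ P, π ⊆ η
    · rw [show ind (∃ π ∈ P, π ⊆ η) = 1 from if_pos hex, one_mul]
    · rw [show ind (∃ π ∈ P, π ⊆ η) = 0 from if_neg hex, zero_mul]
      exact (sum_eq_zero fun z hz => if_neg fun hc => hex ((hev η hη).2 ⟨z, hz, hc⟩)).symm
  rw [e1, e2] at h
  have hlow : ∑ z ∈ Z, β z ≤ avg E p N := by
    rw [hN, avg_sum]
    exact sum_le_sum hβ
  have hU1 : U ≤ 1 := (avg_mono _ h0 h1 fun _ _ => ind_le_one _).trans (avg_one _ _).le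
  nlinarith [mul_le_mul_of_nonneg_right hlow (sub_nonneg.2 hU1)]

open Classical in
/-- Insertion with a weight: if from an explored ball trials succeed with probability at least
`c`, then on an increasing event of the balls the weight is mostly a visit to the target within
`K + l` steps. -/
theorem insertion_weight {E D : Finset (Sym2 V)} (hD : D ⊆ E) {p : ℝ} (h0 : 0 < p) (h1 : p ≤ 1)
    (a : V) (T : Set V) (K l : ℕ) (Z : Finset V) (A : Finset (Sym2 V) → Prop) (hInc : Inc A)
    (hdet : ∀ η η', η ⊆ E → η' ⊆ E →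
      (∀ j, j ≤ K → ∀ y, Within a j (η' ∩ D) y ↔ Within a j (η ∩ D) y) → A η → A η')
    (c : Finset (Sym2 V) → ℝ)
    (htrial : ∀ η, η ⊆ E → A η →
      c η ≤ avg E p (fun ω => ind (∃ z ∈ Z, Within a K (η ∩ D) z ∧ HitN T l z ω))) :
    avg E p (fun η => ind (A η) * c η)
      ≤ (1 + (1 - p) / p * l) * avg E p (fun η => ind (A η ∧ HitN T (K + l) a η)) := by
  have hp0 : 0 ≤ p := h0.le
  let Ks : Finset (Sym2 V) → Finset (Sym2 V) := seenK D a K
  let obs : Finset (Sym2 V) → Finset (Sym2 V) := fun η => η ∩ Ks η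
  let Succ : Finset (Sym2 V) → Finset (Sym2 V) → Prop := fun q ω =>
    ∃ z ∈ Z, Within a K (q ∩ D) z ∧ HitN T l z ω
  have hself : ∀ η, Ks (obs η) = Ks η := fun η => seenK_congr (seenK_inter D a K η)
  have hKs : ∀ η, η ⊆ E → Ks (obs η) ⊆ E := fun η _ => (filter_subset _ _).trans hD
  have hobsE : ∀ η, η ⊆ E → obs η ⊆ E := fun η hη => inter_subset_left.trans hη
  have hloc : ∀ η η', η ⊆ E → η' ⊆ E → η' ∩ Ks (obs η) = η ∩ Ks (obs η) → obs η' = obs η := by
    intro η η' _ _ h
    rw [hself] at h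
    simp only [obs]
    rw [show Ks η' = Ks η from seenK_congr h, h]
  have hball : ∀ η j, j ≤ K → ∀ y, Within a j (obs η ∩ D) y ↔ Within a j (η ∩ D) y :=
    fun η => within_congr (seenK_inter D a K η)
  have hA : ∀ η, η ⊆ E → ind (A η) = ind (A (obs η)) := fun η hη => congrArg ind (propext
    ⟨hdet η (obs η) hη (hobsE η hη) (hball η),
      hdet (obs η) η (hobsE η hη) hη fun j hj y => (hball η j hj y).symm⟩)
  set C := E.powerset.image obs with hC
  have hexp : ∀ (F : Finset (Sym2 V) → ℝ), ∀ η, η ⊆ E →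
      F (obs η) = ∑ q ∈ C, ind (obs η = q) * F q := by
    intro F η hη
    rw [sum_eq_single_of_mem (obs η) (mem_image_of_mem _ (mem_powerset.2 hη))]
    · rw [show ind (obs η = obs η) = 1 from if_pos rfl, one_mul]
    · intro q _ hq
      rw [show ind (obs η = q) = 0 from if_neg (Ne.symm hq), zero_mul]
  set L := avg E p (fun η => ind (A η) *
    avg (Ks (obs η)) p fun ξ => ind (Succ (obs η) ((η \ Ks (obs η)) ∪ ξ))) with hL
  have hfresh : L = avg E p (fun η => ind (A η) * avg E p fun ω => ind (Succ (obs η) ω)) := by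
    have e1 : ∀ q, avg E p (fun η => ind (obs η = q) * ind (A q) *
          avg (Ks (obs η)) p fun ξ => ind (Succ q ((η \ Ks (obs η)) ∪ ξ)))
        = avg E p (fun η => ind (obs η = q) * ind (A q)) * avg E p fun ω => ind (Succ q ω) :=
      fun q => FXZ.resample E p obs Ks hKs hloc (fun q' => ind (q' = q) * ind (A q))
        fun ω => ind (Succ q ω)
    calc L = ∑ q ∈ C, avg E p (fun η => ind (obs η = q) * ind (A q) *
          avg (Ks (obs η)) p fun ξ => ind (Succ q ((η \ Ks (obs η)) ∪ ξ))) := by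
          rw [← avg_sum, hL]
          refine avg_congr _ _ fun η hη => ?_
          rw [hA η hη, hexp (fun q => ind (A q) * avg (Ks (obs η)) p fun ξ =>
            ind (Succ q ((η \ Ks (obs η)) ∪ ξ))) η hη]
          exact sum_congr rfl fun q _ => (mul_assoc _ _ _).symm
      _ = ∑ q ∈ C, avg E p (fun η => ind (obs η = q) * ind (A q) *
          avg E p fun ω => ind (Succ q ω)) := by
          refine sum_congr rfl fun q _ => ?_
          rw [e1 q, mul_comm, ← avg_mul]
          exact avg_congr _ _ fun η _ => mul_comm _ _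
      _ = _ := by
          rw [← avg_sum]
          refine avg_congr _ _ fun η hη => ?_
          rw [hA η hη, hexp (fun q => ind (A q) * avg E p fun ω => ind (Succ q ω)) η hη]
          exact sum_congr rfl fun q _ => mul_assoc _ _ _
  have hlow : avg E p (fun η => ind (A η) * c η) ≤ L := by
    rw [hfresh]
    refine avg_mono _ hp0 h1 fun η hη => ?_
    by_cases h : A η
    · rw [show ind (A η) = 1 from if_pos h, one_mul, one_mul]
      refine (htrial η hη h).trans (avg_mono _ hp0 h1 fun ω _ => ind_mono ?_)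
      exact fun ⟨z, hz, hw, hh⟩ => ⟨z, hz, (hball η K le_rfl z).2 hw, hh⟩
    · rw [show ind (A η) = 0 from if_neg h, zero_mul, zero_mul]
  -- a success needs at most one edge
  have hopen : L ≤ avg E p (fun η => ind (A η ∧ HitN T (K + l) a η)) + avg E p (fun η =>
      ∑ e ∈ E \ η, ind (A η ∧ Exit D a K l T η e)) := by
    rw [hL, ← avg_add]
    refine avg_mono E hp0 h1 fun η hη => ?_
    set R := ind (A η ∧ HitN T (K + l) a η) + ∑ e ∈ E \ η, ind (A η ∧ Exit D a K l T η e)
    have hR : 0 ≤ R := add_nonneg (ind_nonneg _) (sum_nonneg fun _ _ => ind_nonneg _)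
    by_cases hA : A η
    swap
    · rw [show ind (A η) = 0 from if_neg hA, zero_mul]
      exact hR
    rw [show ind (A η) = 1 from if_pos hA, one_mul]
    refine le_trans (avg_mono _ hp0 h1 (g := fun _ => R * 1) fun ξ hξ => ?_)
      (by rw [avg_mul, avg_one, mul_one])
    rw [mul_one]
    by_cases hS : Succ (obs η) ((η \ Ks (obs η)) ∪ ξ)
    swap
    · rw [show ind (Succ (obs η) ((η \ Ks (obs η)) ∪ ξ)) = 0 from if_neg hS]
      exact hR
    rw [show ind (Succ (obs η) ((η \ Ks (obs η)) ∪ ξ)) = 1 from if_pos hS]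
    by_cases hH : HitN T (K + l) a η
    · exact le_trans (le_of_eq (if_pos ⟨hA, hH⟩).symm)
        (le_add_of_nonneg_right (sum_nonneg fun _ _ => ind_nonneg _))
    obtain ⟨z, -, hz, t, ht, w, hw⟩ := hS
    rw [hball η K le_rfl] at hz
    have ht' : ¬ Within a K (η ∩ D) t := fun h =>
      hH ⟨t, ht, within_mono (Nat.le_add_right K l) inter_subset_left h⟩
    obtain ⟨y, x, hadj, hy, hx, σ, hσ, hout⟩ :=
      last_leave (Within a K (η ∩ D)) w ⟨z, w.start_mem_support, hz⟩ ht'
    obtain ⟨heω, hyx⟩ := (SimpleGraph.fromEdgeSet_adj _).1 hadj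
    have hσe : ∀ e ∈ σ.edges, e ∈ η := by
      intro e he
      have h2 := σ.edges_subset_edgeSet he
      rw [SimpleGraph.edgeSet_fromEdgeSet] at h2
      rcases mem_union.1 (mem_coe.1 h2.1) with h3 | h3
      · exact (mem_sdiff.1 h3).1
      · have h4 := hξ h3
        rw [hself] at h4
        obtain ⟨-, v, hve, j, hj, hv⟩ := mem_filter.1 h4
        induction e using Sym2.ind with
        | _ c d =>
          have hvK := within_mono hj.le subset_rfl hv
          rcases Sym2.mem_iff.1 hve with rfl | rfl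
          · exact absurd hvK (hout _ (σ.fst_mem_support_of_mem_edges he))
          · exact absurd hvK (hout _ (σ.snd_mem_support_of_mem_edges he))
    have he : s(y, x) ∈ E \ η := by
      refine mem_sdiff.2 ⟨?_, fun h => hH ⟨t, ht, within_mono (by omega) subset_rfl (within_trans
        (within_trans (within_mono le_rfl inter_subset_left hy) (within_edge hyx h))
        (within_of_walk σ le_rfl hσe))⟩⟩
      rcases mem_union.1 (mem_coe.1 heω) with h3 | h3
      · exact hη (mem_sdiff.1 h3).1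
      · exact hKs η hη (hξ h3)
    obtain ⟨σ', hσ'⟩ := within_of_walk σ le_rfl hσe
    refine le_trans ?_ (le_add_of_nonneg_left (ind_nonneg _))
    refine le_trans (le_of_eq ?_) (single_le_sum
      (f := fun e => ind (A η ∧ Exit D a K l T η e)) (fun _ _ => ind_nonneg _) he)
    exact (if_pos ⟨hA, hH, y, x, rfl, hyx, hy, hx, t, ht, σ', by omega⟩).symm
  -- opening that edge
  have hq : avg E p (fun η => ∑ e ∈ E \ η, ind (A η ∧ Exit D a K l T η e))
      ≤ (1 - p) / p * ((l : ℝ) * avg E p (fun η => ind (A η ∧ HitN T (K + l) a η))) := by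
    rw [FXZ.avg_open_edge E h0.ne' fun η e => A η ∧ Exit D a K l T η e, ← avg_mul E p (l : ℝ)]
    refine mul_le_mul_of_nonneg_left (avg_mono E hp0 h1 fun η _ => ?_)
      (div_nonneg (sub_nonneg.2 h1) hp0)
    by_cases hA : A η
    · simp only [hA, true_and]
      exact (sum_le_sum fun e _ => ind_mono fun h => h.2).trans (exit_count D a K l T η)
    · refine le_trans (le_of_eq (sum_eq_zero fun e _ => ?_))
        (mul_nonneg (Nat.cast_nonneg _) (ind_nonneg _))
      exact if_neg fun h => hA (hInc _ _ (erase_subset _ _) h.1)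
  refine hlow.trans (hopen.trans ((add_le_add le_rfl hq).trans (le_of_eq ?_)))
  ring

open Classical in
/-- Insertion with the weighted union bound: the seeds `Y η` are chosen from the explored ball. -/
theorem insertion_union_weight {E D : Finset (Sym2 V)} (hD : D ⊆ E) {p : ℝ} (h0 : 0 < p)
    (h1 : p ≤ 1) (a : V) (T : Set V) (K l : ℕ) (Z : Finset V) {β : V → ℝ} {B : ℝ}
    (hβ0 : ∀ z ∈ Z, 0 ≤ β z) (hB0 : 0 ≤ B)
    (hβ : ∀ z ∈ Z, β z ≤ avg E p (fun η => ind (HitN T l z η)))
    (hB : ∀ u, ∑ z ∈ Z, avg E p (fun η => ind (Within u l η z)) ≤ B)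
    (A : Finset (Sym2 V) → Prop) (hInc : Inc A)
    (hdet : ∀ η η', η ⊆ E → η' ⊆ E →
      (∀ j, j ≤ K → ∀ y, Within a j (η' ∩ D) y ↔ Within a j (η ∩ D) y) → A η → A η')
    (Y : Finset (Sym2 V) → Finset V)
    (hY : ∀ η, η ⊆ E → A η → ∀ z ∈ Y η, z ∈ Z ∧ Within a K (η ∩ D) z)
    (hY1 : ∀ η, η ⊆ E → A η → ∑ z ∈ Y η, β z ≤ 1) :
    avg E p (fun η => ind (A η) * ∑ z ∈ Y η, β z)
      ≤ (1 + ((l : ℝ) + 1) * B) * (1 + (1 - p) / p * l)
        * avg E p (fun η => ind (A η ∧ HitN T (K + l) a η)) := by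
  set M := ((l : ℝ) + 1) * B with hMdef
  have hM : 0 ≤ M := by positivity
  have hins := insertion_weight hD h0 h1 a T K l Z A hInc hdet
    (fun η => (1 + M)⁻¹ * ∑ z ∈ Y η, β z) fun η hη hA => by
    rw [inv_mul_le_iff₀ (by linarith)]
    have hU : avg E p (fun ω => ind (∃ z ∈ Y η, HitN T l z ω))
        ≤ avg E p (fun ω => ind (∃ z ∈ Z, Within a K (η ∩ D) z ∧ HitN T l z ω)) :=
      avg_mono _ h0.le h1 fun ω _ => ind_mono fun ⟨z, hz, hh⟩ =>
        ⟨z, (hY η hη hA z hz).1, (hY η hη hA z hz).2, hh⟩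
    have h2 := union_weight E h0.le h1 T l (Y η) (β := β) (B := B)
      (fun z hz => hβ z (hY η hη hA z hz).1) fun u =>
        (sum_le_sum_of_subset_of_nonneg (fun z hz => (hY η hη hA z hz).1) fun _ _ _ =>
          avg_nonneg _ h0.le h1 fun _ _ => ind_nonneg _).trans (hB u)
    refine h2.trans ?_
    rw [mul_comm (1 + M)]
    refine mul_le_mul hU (add_le_add (hY1 η hη hA) le_rfl)
      (add_nonneg (sum_nonneg fun z hz => hβ0 z (hY η hη hA z hz).1) hM)
      (avg_nonneg _ h0.le h1 fun _ _ => ind_nonneg _)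
  have e : avg E p (fun η => ind (A η) * ((1 + M)⁻¹ * ∑ z ∈ Y η, β z))
      = (1 + M)⁻¹ * avg E p (fun η => ind (A η) * ∑ z ∈ Y η, β z) := by
    rw [← avg_mul]
    exact avg_congr _ _ fun η _ => by ring
  rw [e, inv_mul_le_iff₀ (by linarith), ← mul_assoc] at hins
  exact hins

end Vale.Agent.P165.TR
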