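import Vale.Agent.P165.FQ.Entrance

/-!
# The last visit of a short connection to a set
-/

namespace Vale.Agent.P165.TR

open Finset FF Vale.Agent.P165.FP Vale.Agent.P165.FQ

variable {V ι : Type} [DecidableEq V] [Fintype ι] {nb : V → ι → V} {G : SimpleGraph V}

open Classical in
/-- A short connection to a point outside `K` avoids `K` or splits at its last visit. -/
theorem tauW_last_exit (hl : Labelling G nb) (S : Finset V) (K : Set V) (Z : Finset V)
    (S' : V → Finset V) {p : ℝ} (h0 : 0 ≤ p) (h1 : p ≤ 1) {a y : V} (hy : y ∉ K)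
    (hZ : ∀ x z, G.Adj x z → x ∉ K → z ∈ K → z ∈ S → z ∈ Z)
    (hS' : ∀ z ∈ Z, z ∈ S' z ∧ ∀ v ∈ S, v ∉ K → v ∈ S' z) (n : ℕ) :
    tauW nb S p a y n ≤ tauW nb (S.filter fun v => v ∉ K) p a y n
      + ∑ z ∈ Z, tauW nb S p a z n * tauW nb (S' z) p z y n := by
  have hinc : ∀ z, Inc fun η => Within z n (η ∩ inE nb (S' z)) y :=
    fun z η η' h h' => inc_within z y n _ _ (inter_subset_inter h le_rfl) h'
  set S₀ := S.filter fun v => v ∉ K with hS₀
  have hpt : ∀ η, η ⊆ inE nb S → ind (Within a n η y) ≤
      ind (Within a n (η ∩ inE nb S₀) y) + ∑ z ∈ Z, ind (box (fun L => Within a n L z)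
        (fun L => Within z n (L ∩ inE nb (S' z)) y) η) := by
    intro η hη
    by_cases hc : Within a n η y
    swap
    · rw [show ind (Within a n η y) = 0 from if_neg hc]
      exact add_nonneg (ind_nonneg _) (sum_nonneg fun _ _ => ind_nonneg _)
    obtain ⟨w, hw⟩ := within_symm hc
    set π := w.bypass
    have hlen : π.length ≤ n := le_trans w.length_bypass_le_length hw
    have hG : ∀ e ∈ π.edges, e ∈ η := fun e he => by
      have := π.edges_subset_edgeSet he
      rw [SimpleGraph.edgeSet_fromEdgeSet] at this
      exact this.1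
    rcases exit_split Kᶜ π hy with hin | ⟨x, z, w1, hxz, w2, hx, hz, hw1, hed, -⟩
    · refine le_trans ?_ (le_add_of_nonneg_right (sum_nonneg fun _ _ => ind_nonneg _))
      refine ind_mono fun _ => within_symm (within_of_walk π hlen fun e he => ?_)
      refine mem_inter.2 ⟨hG e he, (inE_iff hl).2 ⟨((inE_iff hl).1 (hη (hG e he))).1,
        fun v hv => mem_filter.2 ⟨inE_mem (hη (hG e he)) hv,
          hin v (SimpleGraph.Walk.mem_support_of_mem_edges he hv)⟩⟩⟩
    have hzK : z ∈ K := not_not.1 hz
    have hl2 : w1.length + 1 + w2.length ≤ n := by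
      have := congrArg List.length hed
      simp only [List.length_append, List.length_cons, SimpleGraph.Walk.length_edges] at this
      omega
    have hxzη : s(x, z) ∈ η := hG _ (by simp [hed])
    have hzZ : z ∈ Z := hZ x z ((inE_iff hl).1 (hη hxzη)).1 hx hzK
      (inE_mem (hη hxzη) (Sym2.mem_mk_right x z))
    refine le_trans ?_ (le_add_of_nonneg_left (ind_nonneg _))
    refine le_trans ?_ (single_le_sum (fun _ _ => ind_nonneg _) hzZ)
    refine ind_mono fun _ => ?_
    have hnd := (w.bypass_isPath).isTrail.edges_nodup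
    rw [hed, List.nodup_append] at hnd
    obtain ⟨-, hnd2, hdis⟩ := hnd
    refine ⟨w2.edges.toFinset, insert s(x, z) w1.edges.toFinset, ?_, ?_, ?_, ?_, ?_⟩
    · exact fun e he => hG e (by simp [hed, List.mem_toFinset.1 he])
    · exact insert_subset hxzη fun e he => hG e (by simp [hed, List.mem_toFinset.1 he])
    · refine disjoint_left.2 fun e he he' => ?_
      rw [List.mem_toFinset] at he
      rw [mem_insert, List.mem_toFinset] at he'
      rcases he' with rfl | he'
      · exact (List.nodup_cons.1 hnd2).1 he
      · exact hdis e he' e (List.mem_cons_of_mem _ he) rfl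
    · exact within_symm (within_of_walk w2 (by omega) fun e he => List.mem_toFinset.2 he)
    · obtain ⟨hz', hS''⟩ := hS' z hzZ
      have hmem : ∀ e ∈ insert s(x, z) w1.edges.toFinset, e ∈ inE nb (S' z) := by
        intro e he
        have heη : e ∈ η := by
          rw [mem_insert, List.mem_toFinset] at he
          rcases he with rfl | he
          · exact hxzη
          · exact hG e (by simp [hed, he])
        refine (inE_iff hl).2 ⟨((inE_iff hl).1 (hη heη)).1, fun v hv => ?_⟩
        rw [mem_insert, List.mem_toFinset] at he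
        rcases he with rfl | he
        · rcases Sym2.mem_iff.1 hv with rfl | rfl
          · exact hS'' _ (inE_mem (hη heη) hv) hx
          · exact hz'
        · exact hS'' v (inE_mem (hη heη) hv)
            (hw1 v (SimpleGraph.Walk.mem_support_of_mem_edges he hv))
      rw [inter_eq_left.2 hmem]
      refine within_mono (show 1 + w1.length ≤ n by omega) subset_rfl (within_trans
        (within_edge hxz.ne.symm (by rw [Sym2.eq_swap]; exact mem_insert_self _ _))
        (within_symm (within_of_walk w1 le_rfl fun e he =>
          mem_insert_of_mem (List.mem_toFinset.2 he))))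
  refine (avg_mono _ h0 h1 hpt).trans ?_
  rw [avg_add, avg_sum]
  refine add_le_add (avg_inter_le _ _ h0 h1 (f := fun L => ind (Within a n L y))
    (monotone_ind (inc_within a y n))) (sum_le_sum fun z _ => ?_)
  exact (bk _ h0 h1 _ _ (inc_within a z n) (hinc z)).trans (mul_le_mul le_rfl
    (avg_inter_le _ _ h0 h1 (f := fun L => ind (Within z n L y)) (monotone_ind (inc_within z y n)))
    (avg_nonneg _ h0 h1 fun _ _ => ind_nonneg _) (tauW_nonneg S h0 h1 a z n))

end Vale.Agent.P165.TR
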