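import Vale.Agent.P165.TR.Basic
import Vale.Agent.P165.TR.Insert
import Vale.Agent.P165.FQ.Moment
import Vale.Agent.P165.FQ.Tail

/-!
# The tail

Every point at distance `d` from the segment of an anchor opens three frames, one of which avoids
both directions of the segment, so the targets of all these points form one family of disjoint half
trees for each level. Insertion turns a large count over a point into many such targets.
-/

namespace Vale.Agent.P165.TR

open Finset FF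
open TL (gp pt gp_spec eq_pt_of_between)
open Vale.Agent.P165.FP (hit hit_nonneg hit_le_one hit_mono hit_move hit_map sum_le_rpow)
open Vale.Agent.P165.FQ (hitN HitN Within tauW inc_within within_mono hitN_le_hit hitN_mono hitN_map
  count_le_levels sum_rpow_add_le log_steps_le)

/-- Weights below a probability whose sum is large: the probability is small. -/
theorem rpow_weights {β : Type} (s : Finset β) (Q H : β → ℝ) {θ Λ c P : ℝ} (hθ : 0 < θ)
    (hθ1 : θ ≤ 1) (hΛ : 1 ≤ Λ) (hP : 0 ≤ P) (hQ : ∀ i ∈ s, 0 ≤ Q i) (hQP : ∀ i ∈ s, Q i ≤ P)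
    (hH : ∀ i ∈ s, 0 ≤ H i) (hQH : ∀ i ∈ s, Q i ≤ Λ * H i) (hc : c * P ≤ ∑ i ∈ s, Q i) :
    c * P ^ θ ≤ Λ * ∑ i ∈ s, H i ^ θ := by
  rcases hP.eq_or_lt with h | hpos
  · rw [← h, Real.zero_rpow hθ.ne', mul_zero]
    exact mul_nonneg (by linarith) (sum_nonneg fun i hi => Real.rpow_nonneg (hH i hi) _)
  have hΛθ : Λ ^ θ ≤ Λ :=
    (Real.rpow_le_rpow_of_exponent_le hΛ hθ1).trans_eq (Real.rpow_one Λ)
  have h1 : ∀ i ∈ s, Q i ≤ P ^ (1 - θ) * (Λ * H i ^ θ) := by
    intro i hi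
    calc Q i = Q i ^ (1 - θ) * Q i ^ θ := by
          rw [← Real.rpow_add' (hQ i hi) (by norm_num), sub_add_cancel, Real.rpow_one]
      _ ≤ P ^ (1 - θ) * (Λ * H i ^ θ) := by
          refine mul_le_mul (Real.rpow_le_rpow (hQ i hi) (hQP i hi) (by linarith)) ?_
            (Real.rpow_nonneg (hQ i hi) _) (Real.rpow_nonneg hP _)
          refine (Real.rpow_le_rpow (hQ i hi) (hQH i hi) hθ.le).trans ?_
          rw [Real.mul_rpow (by linarith) (hH i hi)]
          exact mul_le_mul_of_nonneg_right hΛθ (Real.rpow_nonneg (hH i hi) _)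
  have h2 := hc.trans (sum_le_sum h1)
  rw [← mul_sum, ← mul_sum] at h2
  have hPθ : P = P ^ (1 - θ) * P ^ θ := by
    rw [← Real.rpow_add hpos, sub_add_cancel, Real.rpow_one]
  nth_rewrite 1 [hPθ] at h2
  rw [mul_left_comm] at h2
  exact le_of_mul_le_mul_left h2 (Real.rpow_pos_of_pos hpos _)

namespace Env

variable {Γ O ι X : Type} [Group Γ] [Fintype ι] (E : Env Γ O ι X)

/-- A directed edge with head at distance `lv` from `x`, pointing away from it and from both `u`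
and `w`. -/
def Aimed (u w x : X) (lv : ℕ) (f : X × X) : Prop :=
  E.T.Adj f.1 f.2 ∧ E.T.dist x f.2 = lv ∧ E.T.dist x f.1 < E.T.dist x f.2 ∧
    ∀ q ∈ sd E.T f, gp E.T x q u = 0 ∧ gp E.T x q w = 0

/-- On one level such half trees are disjoint, and they determine the point they start from. -/
theorem aimed_unique {u w x x' : X} {lv d : ℕ} {f f' : X × X} (hf : E.Aimed u w x lv f)
    (hf' : E.Aimed u w x' lv f') (hd : gp E.T x u w = d) (hd' : gp E.T x' u w = d) {q : X}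
    (hq : q ∈ sd E.T f) (hq' : q ∈ sd E.T f') : f = f' ∧ x = x' := by
  have hT := E.isTree
  have key : ∀ (x : X) (f : X × X), E.Aimed u w x lv f → gp E.T x u w = d → q ∈ sd E.T f →
      x ∉ sd E.T f ∧ E.T.dist q x = E.T.dist q f.2 + lv ∧ gp E.T q u w = E.T.dist q x + d ∧
        pt E.T q u (E.T.dist q x) = x := by
    rintro x f ⟨hadj, hlv, hlt, haim⟩ hd hq
    have hx : x ∉ sd E.T f := by rw [mem_sd]; omega
    obtain ⟨hu, hw⟩ := haim q hq
    refine ⟨hx, ?_, ?_, ?_⟩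
    · have h1 := dist_across hT hadj hq hx
      have h2 := adj_dist hT hadj x
      rw [E.T.dist_comm (u := f.1)] at h1
      omega
    · rw [gp_branch hT hu hw, hd, E.T.dist_comm]
    · refine eq_pt_of_between hT ?_
      have h1 := (gp_spec hT x q u).2.2.2.2
      rw [hu, E.T.dist_comm (u := x) (v := q)] at h1
      omega
  obtain ⟨hx, h1, h2, h3⟩ := key x f hf hd hq
  obtain ⟨hx', h1', h2', h3'⟩ := key x' f' hf' hd' hq'
  have hqq : E.T.dist q x = E.T.dist q x' := by omega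
  have hxx : x = x' := h3.symm.trans ((congrArg _ hqq).trans h3')
  subst hxx
  obtain ⟨a1, a2, -⟩ := edge_eq_pt hT hf.1 hq hx
  obtain ⟨b1, b2, -⟩ := edge_eq_pt hT hf'.1 hq' hx'
  have ha : E.T.dist q f.2 = E.T.dist q f'.2 := by omega
  rw [ha] at a1 a2
  exact ⟨Prod.ext (a2.trans b2.symm) (a1.trans b1.symm), rfl⟩

/-- A branch away from a point of a half tree stays outside it. -/
theorem notMem_of_branch {e : X × X} (he : E.T.Adj e.1 e.2) {x q u : X} (hx : x ∉ sd E.T e)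
    (hu : u ∈ sd E.T e) (h : gp E.T x q u = 0) : q ∉ sd E.T e := by
  intro hq
  have hT := E.isTree
  have h1 := dist_across hT he hq hx
  have h2 := dist_across hT he hu hx
  have h3 := (gp_spec hT x q u).2.2.2.2
  have h4 := hT.connected.dist_triangle (u := q) (v := e.2) (w := u)
  rw [h, E.T.dist_comm (u := x) (v := q), E.T.dist_comm (u := x) (v := u)] at h3
  rw [E.T.dist_comm (u := e.2) (v := u)] at h4
  omega

theorem pre_mv (γ : Γ) (e : X × X) : tr γ ⁻¹' E.pre (E.mv γ e) = E.pre e := by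
  ext v
  show E.pos (tr γ v) ∈ sd E.T (E.mv γ e) ↔ E.pos v ∈ sd E.T e
  rw [E.pos_tr, E.mem_mv]

theorem near_tr (γ : Γ) {z : Γ × O} {i : Fin 3} {v : Γ × O} (h : E.Near z i v) :
    E.Near (tr γ z) i (tr γ v) := by
  obtain ⟨q, hq, hd⟩ := h
  refine ⟨E.act γ q, ?_, ?_⟩
  · rcases hq with rfl | hq
    · exact Or.inl (E.pos_tr γ z).symm
    · refine Or.inr ?_
      show _ ∈ sd E.T (E.mv (γ * z.1) _)
      rw [E.mv_mul, E.mem_mv]
      exact hq
  · rw [E.pos_tr, E.dist_act]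
    exact hd

variable [DecidableEq Γ] [DecidableEq O]

theorem chainSet_tr (γ : Γ) (z : Γ × O) (i : Fin 3) (n : ℕ) :
    (E.chainSet z i n).image (tr γ) ⊆ E.chainSet (tr γ z) i n := by
  classical
  intro v hv
  obtain ⟨u, hu, rfl⟩ := mem_image.1 hv
  obtain ⟨h1, h2⟩ := mem_filter.1 hu
  exact mem_filter.2 ⟨E.image_ball γ z n ▸ mem_image_of_mem _ h1, E.near_tr γ h2⟩

open Classical in
/-- The bound on disjoint targets seen from a point joined to a translate of the anchor. -/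
theorem bound_at {p θ : ℝ} (h0 : 0 ≤ p) (h1 : p ≤ 1) (hθ : 0 < θ) (hc : 0 < E.c₁ p)
    (hB : E.Bound p θ) {ψ : Γ} {ℓ : ℕ} {z : Γ × O} (hj : E.Joined ψ ℓ z) (R : Finset (Γ × O))
    (hR : ∀ v ∈ R, E.pos v ∉ sd E.T (E.mv ψ E.b₀)) (F : Finset (X × X)) (hF : E.Apart F)
    (hF' : ∀ f ∈ F, E.T.Adj f.1 f.2 ∧ Disjoint (sd E.T f) (sd E.T (E.mv ψ E.b₁))) :
    ∑ f ∈ F, (p ^ ℓ * hit E.nb R p z (E.pre f)) ^ θ ≤ (E.c₁ p ^ θ)⁻¹ + 1 := by
  obtain ⟨w, hw, hsupp⟩ := hj
  set U := R ∪ w.support.toFinset with hUdef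
  set ρ := U.sup fun v => (E.conn.preconnected E.a₁ (tr ψ⁻¹ v)).some.length
  have hU : U ⊆ (E.om ρ).image (tr ψ) := by
    intro v hv
    refine mem_image.2 ⟨tr ψ⁻¹ v, mem_filter.2 ⟨E.mem_ball.2
      ⟨(E.conn.preconnected E.a₁ (tr ψ⁻¹ v)).some,
        le_sup (f := fun v => (E.conn.preconnected E.a₁ (tr ψ⁻¹ v)).some.length) hv⟩, ?_⟩,
      by simp [tr]⟩
    rw [E.pos_tr, ← E.mem_mv_iff]
    rcases mem_union.1 hv with h | h
    · exact hR v h
    · exact hsupp v (List.mem_toFinset.1 h)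
  have hnn : ∀ f, 0 ≤ p ^ ℓ * hit E.nb R p z (E.pre f) := fun f =>
    mul_nonneg (pow_nonneg h0 _) (hit_nonneg _ h0 h1 _ _)
  set F0 := F.filter fun f => E.act ψ E.t₀ ∉ sd E.T f with hF0
  have hrest : ∑ f ∈ F.filter (fun f => ¬ E.act ψ E.t₀ ∉ sd E.T f),
      (p ^ ℓ * hit E.nb R p z (E.pre f)) ^ θ ≤ 1 := by
    refine (sum_le_sum fun f _ => Real.rpow_le_one (hnn f)
      (mul_le_one₀ (pow_le_one₀ h0 h1) (hit_nonneg _ h0 h1 _ _) (hit_le_one _ h0 h1 _ _))
      hθ.le).trans ?_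
    rw [sum_const, nsmul_eq_mul, mul_one]
    refine Nat.cast_le_one.2 (card_le_one.2 fun f hf g hg => ?_)
    simp only [mem_filter, not_not] at hf hg
    by_contra hne
    exact Set.disjoint_left.1 (hF hf.1 hg.1 hne) hf.2 hg.2
  have hmain : ∑ f ∈ F0, (p ^ ℓ * hit E.nb R p z (E.pre f)) ^ θ ≤ (E.c₁ p ^ θ)⁻¹ := by
    set W := F0.image (E.mv ψ⁻¹) with hW
    have hinj : Function.Injective (E.mv ψ⁻¹) := fun e e' h => by
      have h2 := congrArg (E.mv ψ) h
      rwa [← E.mv_mul, ← E.mv_mul, mul_inv_cancel, E.mv_one, E.mv_one] at h2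
    have hap : E.Apart W := by
      intro e he e' he' hne
      obtain ⟨f, hf, rfl⟩ := mem_image.1 (mem_coe.1 he)
      obtain ⟨g, hg, rfl⟩ := mem_image.1 (mem_coe.1 he')
      exact E.disjoint_mv (hF (mem_filter.1 hf).1 (mem_filter.1 hg).1 fun h => hne (h ▸ rfl))
    have hst : ∀ e ∈ W, E.Strict e := by
      intro e he
      obtain ⟨f, hf, rfl⟩ := mem_image.1 he
      obtain ⟨hfF, ht⟩ := mem_filter.1 hf
      refine ⟨E.adj_mv (hF' f hfF).1, ?_, ?_⟩
      · rw [E.mem_mv_iff, inv_inv]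
        exact ht
      · have h := E.disjoint_mv (γ := ψ⁻¹) (hF' f hfF).2
        rwa [← E.mv_mul, inv_mul_cancel, E.mv_one] at h
    have h := hB ρ W hap hst
    rw [mul_comm, ← le_div_iff₀ (Real.rpow_pos_of_pos hc θ), one_div, hW,
      sum_image fun a _ b _ e => hinj e] at h
    refine (sum_le_sum fun f hf => Real.rpow_le_rpow (hnn f) ?_ hθ.le).trans h
    have e1 : E.pre (E.mv ψ⁻¹ f) = tr ψ ⁻¹' E.pre f := by
      rw [← E.pre_mv ψ, ← E.mv_mul, mul_inv_cancel, E.mv_one]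
    have e2 : tr ψ E.a₁ = (ψ, E.o₁) := by simp [tr, a₁]
    have h3 : hit E.nb ((E.om ρ).image (tr ψ)) p (ψ, E.o₁) (E.pre f) =
        E.Psi ρ p (E.mv ψ⁻¹ f) := by
      rw [Psi, e1, ← e2]
      exact hit_map E.hl (trIso E.hinv ψ) (E.om ρ) p E.a₁ (E.pre f)
    rw [← h3]
    refine le_trans ?_ (hit_mono E.hl hU Set.Subset.rfl h0 h1 _)
    refine le_trans ?_ (hit_move E.hl h0 h1 w.reverse (fun v hv => mem_union_right _ ?_) _)
    · rw [SimpleGraph.Walk.length_reverse]
      exact mul_le_mul (pow_le_pow_of_le_one h0 h1 hw)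
        (hit_mono E.hl subset_union_left Set.Subset.rfl h0 h1 _) (hit_nonneg _ h0 h1 _ _)
        (pow_nonneg h0 _)
    · rw [SimpleGraph.Walk.support_reverse, List.mem_reverse] at hv
      exact List.mem_toFinset.2 hv
  have hsplit := sum_filter_add_sum_filter_not F (fun f => E.act ψ E.t₀ ∉ sd E.T f)
    fun f => (p ^ ℓ * hit E.nb R p z (E.pre f)) ^ θ
  rw [← hsplit]
  exact add_le_add hmain hrest

variable [Fintype O]

open Classical in
/-- Few points at one distance from the segment carry many points of the ball. -/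
theorem exists_level {ps δ : ℝ} (h0 : 0 < ps) (h1 : ps ≤ 1) (hδ : 0 < δ) (D : E.Data ps δ) :
    ∃ A : ℝ, 0 ≤ A ∧ ∀ (ψ : Γ) (ℓ : ℕ) (z : Γ × O), E.Joined ψ ℓ z →
      ∀ (w : X) (d : ℕ) (S Y : Finset (Γ × O)),
      (∀ v ∈ S, E.pos v ∉ sd E.T (E.mv ψ E.b₀)) →
      (∀ y ∈ Y, E.pos y ∉ sd E.T (E.mv ψ E.b₁) ∧
        gp E.T (E.pos y) (E.act ψ E.b₁.2) w = d) →
      ∀ K L : ℕ, 1 ≤ L → ∑ x ∈ Y.image E.pos, (ps ^ ℓ * avg (inE E.nb S) ps fun η =>
          ind (L ≤ ((Y.filter fun y => E.pos y = x).filter (Within z K η)).card)) ^ D.θ'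
        ≤ A * (L : ℝ) ^ (3 * δ - D.θ) := by
  have hθ' : 0 < D.θ' := D.θ_pos.trans_le D.θ_le
  set cl : ℝ := 1 + (1 - ps) / ps * (D.C * (1 / (δ * Real.log 2) + 1))
  have hps' : 0 ≤ (1 - ps) / ps := div_nonneg (by linarith) h0.le
  have hl2 : (0 : ℝ) < Real.log 2 := Real.log_pos one_lt_two
  have hcl : 1 ≤ cl := le_add_of_nonneg_right (by positivity)
  set H : ℝ := (E.c₁ ps ^ D.θ')⁻¹ + 1
  have hc₁ : 0 < E.c₁ ps := div_pos (pow_pos h0 _) two_pos
  have hH : 0 ≤ H := add_nonneg (inv_nonneg.2 (Real.rpow_nonneg hc₁.le _)) zero_le_one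
  refine ⟨(1 + D.M) * cl * (3 * H) / D.κ, by have := D.M_nonneg; have := D.κ_pos; positivity,
    fun ψ ℓ z hj w d S Y hS hY K L hL => ?_⟩
  set n := D.C * (Nat.log 2 L + 1) with hn
  have hLr : (1 : ℝ) ≤ L := by exact_mod_cast hL
  have hLδ : 1 ≤ (L : ℝ) ^ δ := Real.one_le_rpow hLr hδ.le
  set u₀ := E.act ψ E.b₁.2
  choose fr hfr using fun y : Γ × O => E.avoid_at y u₀ w
  have hout : ∀ y ∈ Y, ∀ q, (q = E.pos y ∨ q ∈ sd E.T (E.mv y.1 (E.U (fr y)))) →
      q ∉ sd E.T (E.mv ψ E.b₁) := by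
    rintro y hy q (rfl | hq)
    · exact (hY y hy).1
    · exact E.notMem_of_branch (E.adj_mv E.adj_b₁) (hY y hy).1 (E.b₁_head ψ) (hfr y q hq).1
  set R := S ∪ Y.biUnion fun y => E.chainSet y (fr y) n with hRdef
  have hR : ∀ v ∈ R, E.pos v ∉ sd E.T (E.mv ψ E.b₀) := by
    intro v hv
    rcases mem_union.1 hv with hv | hv
    · exact hS v hv
    · obtain ⟨y, hy, hv⟩ := mem_biUnion.1 hv
      obtain ⟨-, q, hq, hd⟩ := mem_filter.1 hv
      exact E.margin_at (hout y hy q hq) (hd.trans (Nat.le_add_right _ _))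
  set DS := inE E.nb S
  set ES := inE E.nb R
  have hD : DS ⊆ ES := inE_mono E.hl subset_union_left
  let fib : X → Finset (Γ × O) := fun x => Y.filter fun y => E.pos y = x
  let tgt : Γ × O → Finset (X × X) := fun y => (D.W L (fr y)).image (E.mv y.1)
  let T : X → Fin 3 → Finset (X × X) := fun x i =>
    ((fib x).filter fun y => fr y = i).biUnion tgt
  have haim : ∀ x i, ∀ f ∈ T x i, E.Aimed u₀ w x (D.lev L i) f ∧
      gp E.T x u₀ w = d ∧ Disjoint (sd E.T f) (sd E.T (E.mv ψ E.b₁)) := by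
    intro x i f hf
    obtain ⟨y, hy₁, hfy⟩ := mem_biUnion.1 hf
    obtain ⟨hy₂, hi⟩ := mem_filter.1 hy₁
    obtain ⟨hyY, hx⟩ := mem_filter.1 hy₂
    subst hi hx
    obtain ⟨e, he, rfl⟩ := mem_image.1 hfy
    obtain ⟨hadj, hsub, hlev, hlt⟩ := D.mem L (fr y) e he
    have hq : ∀ q ∈ sd E.T (E.mv y.1 e), q ∈ sd E.T (E.mv y.1 (E.U (fr y))) :=
      fun q hq => E.subset_mv hsub hq
    refine ⟨⟨E.adj_mv hadj, ?_, ?_, fun q h => hfr y q (hq q h)⟩, (hY y hyY).2,
      Set.disjoint_left.2 fun q h => hout y hyY q (Or.inr (hq q h))⟩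
    · rw [E.pos_eq]
      exact (E.dist_act y.1 _ _).trans hlev
    · rw [E.pos_eq]
      exact ((E.dist_act y.1 _ _).trans_lt hlt).trans_eq (E.dist_act y.1 _ _).symm
  let β : X × X → Γ × O → ℝ := fun f y =>
    if f ∈ tgt y then min ((L : ℝ) * hitN E.nb R ps y (E.pre f) n) 1 / L else 0
  have hβ0 : ∀ f y, 0 ≤ β f y := by
    intro f y
    simp only [β]
    split_ifs
    · exact div_nonneg (le_min (mul_nonneg (Nat.cast_nonneg _)
        (avg_nonneg _ h0.le h1 fun _ _ => ind_nonneg _)) zero_le_one) (Nat.cast_nonneg _)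
    · exact le_rfl
  have hβhit : ∀ f y, β f y ≤ hitN E.nb R ps y (E.pre f) n := by
    intro f y
    simp only [β]
    split_ifs
    · rw [div_le_iff₀' (by linarith)]
      exact min_le_left _ _
    · exact avg_nonneg _ h0.le h1 fun _ _ => ind_nonneg _
  have hβL : ∀ f y, β f y ≤ 1 / L := by
    intro f y
    simp only [β]
    split_ifs
    · exact div_le_div_of_nonneg_right (min_le_right _ _) (Nat.cast_nonneg _)
    · positivity
  have hchain : ∀ x, ∀ y ∈ fib x,
      D.κ * (L : ℝ) ^ (D.θ - δ) / L ≤ ∑ i, ∑ f ∈ T x i, β f y := by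
    intro x y hy
    refine le_trans ?_ (single_le_sum (f := fun i => ∑ f ∈ T x i, β f y)
      (fun i _ => sum_nonneg fun f _ => hβ0 f y) (mem_univ (fr y)))
    refine le_trans ?_ (sum_le_sum_of_subset_of_nonneg (s := tgt y)
      (fun f hf => mem_biUnion.2 ⟨y, mem_filter.2 ⟨hy, rfl⟩, hf⟩) fun f _ _ => hβ0 f y)
    rw [sum_congr rfl (g := fun f => min ((L : ℝ) * hitN E.nb R ps y (E.pre f) n) 1 / L)
      fun f hf => if_pos hf, ← sum_div]
    refine div_le_div_of_nonneg_right ((D.chain L hL (fr y) y.2).trans ?_) (Nat.cast_nonneg _)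
    have hinj : Function.Injective (E.mv y.1) := fun e e' h => by
      have h2 := congrArg (E.mv y.1⁻¹) h
      rwa [← E.mv_mul, ← E.mv_mul, inv_mul_cancel, E.mv_one, E.mv_one] at h2
    rw [sum_image fun a _ b _ h => hinj h]
    refine sum_le_sum fun e _ =>
      min_le_min (mul_le_mul_of_nonneg_left ?_ (Nat.cast_nonneg _)) le_rfl
    have e2 : tr y.1 ((1 : Γ), y.2) = y := by simp [tr]
    rw [← E.pre_mv y.1 e]
    refine le_trans (le_of_eq (hitN_map E.hl (trIso E.hinv y.1) _ ps _ _ _).symm) ?_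
    refine le_trans (le_of_eq (congrArg (fun v => hitN E.nb _ ps v _ n) e2)) ?_
    refine hitN_mono E.hl ?_ Set.Subset.rfl le_rfl h0.le h1 _
    intro v hv
    have hv' := E.chainSet_tr y.1 ((1 : Γ), y.2) (fr y) n hv
    rw [e2] at hv'
    exact mem_union_right _ (mem_biUnion.2 ⟨y, (mem_filter.1 hy).1, hv'⟩)
  -- the cost of the insertion
  set Λ : ℝ := (1 + ((n : ℝ) + 1) * E.vol ps n) * (1 + (1 - ps) / ps * n)
  have hM : 0 ≤ ((n : ℝ) + 1) * E.vol ps n := mul_nonneg (by positivity) (E.vol_nonneg h0.le h1 n)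
  have hn' : 0 ≤ (1 - ps) / ps * (n : ℝ) := by positivity
  have hΛ1 : 1 ≤ Λ := by nlinarith
  have hΛle : Λ ≤ (1 + D.M) * cl * ((L : ℝ) ^ δ * (L : ℝ) ^ δ) := by
    have hs := D.short L hL
    have hlog := mul_le_mul_of_nonneg_left (log_steps_le D.C hL hδ) hps'
    calc Λ ≤ ((1 + D.M) * (L : ℝ) ^ δ) * (cl * (L : ℝ) ^ δ) := by
          refine mul_le_mul ?_ ?_ (by positivity) (mul_nonneg (by linarith [D.M_nonneg])
            (by linarith))
          · nlinarith
          · simp only [cl, ← hn] at hlog ⊢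
            nlinarith
      _ = _ := by ring
  have hlev : ∀ x ∈ Y.image E.pos, D.κ * (L : ℝ) ^ (D.θ - δ) *
      (ps ^ ℓ * avg DS ps fun η => ind (L ≤ ((fib x).filter (Within z K η)).card)) ^ D.θ'
      ≤ Λ * ∑ i, ∑ f ∈ T x i, (ps ^ ℓ * hit E.nb R ps z (E.pre f)) ^ D.θ' := by
    intro x _
    let A : Finset (Sym2 (Γ × O)) → Prop := fun η =>
      L ≤ ((fib x).filter (Within z K (η ∩ DS))).card
    let seeds : Finset (Sym2 (Γ × O)) → Finset (Γ × O) := fun η =>
      if h : A η then (exists_subset_card_eq h).choose else ∅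
    have hseeds : ∀ η, A η → seeds η ⊆ (fib x).filter (Within z K (η ∩ DS)) ∧
        (seeds η).card = L := fun η h => by
      simp only [seeds, dif_pos h]
      exact (exists_subset_card_eq h).choose_spec
    have hsum1 : ∀ f η, A η → ∑ y ∈ seeds η, β f y ≤ 1 := fun f η h => by
      refine (sum_le_sum fun y _ => hβL f y).trans ?_
      rw [sum_const, (hseeds η h).2, nsmul_eq_mul, mul_one_div,
        div_self (show (L : ℝ) ≠ 0 by linarith)]
    set P := avg ES ps fun η => ind (A η) with hPdef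
    set Q : Fin 3 × (X × X) → ℝ := fun a =>
      avg ES ps fun η => ind (A η) * ∑ y ∈ seeds η, β a.2 y with hQdef
    have hP : avg DS ps (fun η => ind (L ≤ ((fib x).filter (Within z K η)).card)) = P := by
      have h := avg_split hD ps (fun η => ind (L ≤ ((fib x).filter (Within z K η)).card))
        fun _ => (1 : ℝ)
      simp only [mul_one, avg_one] at h
      exact h.symm
    have hQ0 : ∀ a, 0 ≤ Q a := fun a => avg_nonneg _ h0.le h1 fun η _ =>
      mul_nonneg (ind_nonneg _) (sum_nonneg fun y _ => hβ0 _ y)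
    have hQP : ∀ a, Q a ≤ P := fun a => avg_mono _ h0.le h1 fun η _ => by
      by_cases h : A η
      · exact mul_le_of_le_one_right (ind_nonneg _) (hsum1 _ η h)
      · rw [show ind (A η) = 0 from if_neg h, zero_mul]
    have hQH : ∀ a, Q a ≤ Λ * hit E.nb R ps z (E.pre a.2) := fun a => by
      have hins := insertion_union_weight hD h0 h1 z (E.pre a.2) K n (fib x) (β := β a.2)
        (B := E.vol ps n) (fun y _ => hβ0 _ y) (E.vol_nonneg h0.le h1 n)
        (fun y _ => hβhit a.2 y)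
        (fun u => (sum_le_sum fun y _ => E.tauW_le_tau h0.le h1 R n u y).trans
          (E.sum_tau_le_vol h0.le h1 _ n u))
        A
        (fun η η' h hA => hA.trans (card_le_card fun y hy => mem_filter.2 ⟨(mem_filter.1 hy).1,
          within_mono le_rfl (inter_subset_inter h le_rfl) (mem_filter.1 hy).2⟩))
        (fun η η' _ _ hag hA => hA.trans (card_le_card fun y hy => mem_filter.2
          ⟨(mem_filter.1 hy).1, (hag K le_rfl y).2 (mem_filter.1 hy).2⟩))
        seeds (fun η _ h y hy => mem_filter.1 ((hseeds η h).1 hy)) fun η _ h => hsum1 _ η h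
      refine hins.trans (mul_le_mul_of_nonneg_left ?_ (by linarith))
      exact (avg_mono _ h0.le h1 fun η _ => ind_mono fun h => h.2).trans
        (hitN_le_hit E.nb R h0.le h1 z _ _)
    have hPQ : D.κ * (L : ℝ) ^ (D.θ - δ) * P
        ≤ ∑ a ∈ (univ : Finset (Fin 3)).biUnion (fun i => (T x i).image fun f => (i, f)), Q a := by
      rw [sum_biUnion (fun i _ j _ hij => disjoint_left.2 fun a ha hb => hij (by
        obtain ⟨f, -, rfl⟩ := mem_image.1 ha
        obtain ⟨g, -, he⟩ := mem_image.1 hb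
        exact (congrArg Prod.fst he).symm))]
      simp only [sum_image fun f _ g _ (h : ((_ : Fin 3), f) = (_, g)) => (Prod.ext_iff.1 h).2]
      simp only [hQdef, ← avg_sum]
      rw [← avg_mul]
      refine avg_mono _ h0.le h1 fun η _ => ?_
      simp only [← mul_sum]
      by_cases h : A η
      swap
      · simp [ind, h]
      rw [show ind (A η) = 1 from if_pos h, mul_one, one_mul]
      have e : ∀ i, ∑ f ∈ T x i, ∑ y ∈ seeds η, β f y = ∑ y ∈ seeds η, ∑ f ∈ T x i, β f y :=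
        fun i => sum_comm
      simp only [e]
      rw [sum_comm]
      refine le_trans ?_ (sum_le_sum fun y hy =>
        hchain x y (mem_filter.1 ((hseeds η h).1 hy)).1)
      rw [sum_const, (hseeds η h).2, nsmul_eq_mul,
        mul_div_cancel₀ _ (show (L : ℝ) ≠ 0 by linarith)]
    have hpℓ : 0 ≤ ps ^ ℓ := pow_nonneg h0.le _
    have key := rpow_weights
      ((univ : Finset (Fin 3)).biUnion fun i => (T x i).image fun f => (i, f))
      (fun a => ps ^ ℓ * Q a) (fun a => ps ^ ℓ * hit E.nb R ps z (E.pre a.2)) (Λ := Λ)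
      (c := D.κ * (L : ℝ) ^ (D.θ - δ)) (P := ps ^ ℓ * P) hθ' D.θ'_le_one hΛ1
      (mul_nonneg hpℓ (avg_nonneg _ h0.le h1 fun _ _ => ind_nonneg _))
      (fun a _ => mul_nonneg hpℓ (hQ0 a)) (fun a _ => mul_le_mul_of_nonneg_left (hQP a) hpℓ)
      (fun a _ => mul_nonneg hpℓ (hit_nonneg _ h0.le h1 _ _))
      (fun a _ => (mul_le_mul_of_nonneg_left (hQH a) hpℓ).trans_eq (mul_left_comm _ _ _))
      (by rw [← mul_sum, mul_left_comm]; exact mul_le_mul_of_nonneg_left hPQ hpℓ)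
    rw [hP]
    refine key.trans (le_of_eq ?_)
    rw [sum_biUnion (fun i _ j _ hij => disjoint_left.2 fun a ha hb => hij (by
      obtain ⟨f, -, rfl⟩ := mem_image.1 ha
      obtain ⟨g, -, he⟩ := mem_image.1 hb
      exact (congrArg Prod.fst he).symm))]
    simp only [sum_image fun f _ g _ (h : ((_ : Fin 3), f) = (_, g)) => (Prod.ext_iff.1 h).2]
  have hfam : ∑ x ∈ Y.image E.pos, ∑ i, ∑ f ∈ T x i,
      (ps ^ ℓ * hit E.nb R ps z (E.pre f)) ^ D.θ' ≤ 3 * H := by
    rw [sum_comm]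
    refine (sum_le_sum (g := fun _ => H) fun i _ => ?_).trans (le_of_eq (by simp))
    have huniq : ∀ x x' f f', f ∈ T x i → f' ∈ T x' i → ∀ q, q ∈ sd E.T f → q ∈ sd E.T f' →
        f = f' ∧ x = x' := fun x x' f f' hf hf' q hq hq' =>
      E.aimed_unique (haim x i f hf).1 (haim x' i f' hf').1 (haim x i f hf).2.1
        (haim x' i f' hf').2.1 hq hq'
    rw [← sum_biUnion fun x _ x' _ hne => disjoint_left.2 fun f hf hf' => hne
      (huniq x x' f f hf hf' f.2 (head_mem_sd (haim x i f hf).1.1)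
        (head_mem_sd (haim x i f hf).1.1)).2]
    refine E.bound_at h0.le h1 hθ' hc₁ D.bound hj R hR _ ?_ ?_
    · intro f hf f' hf' hne
      obtain ⟨x, -, hf⟩ := mem_biUnion.1 (mem_coe.1 hf)
      obtain ⟨x', -, hf'⟩ := mem_biUnion.1 (mem_coe.1 hf')
      exact Set.disjoint_left.2 fun q hq hq' => hne (huniq x x' f f' hf hf' q hq hq').1
    · intro f hf
      obtain ⟨x, -, hf⟩ := mem_biUnion.1 hf
      exact ⟨(haim x i f hf).1.1, (haim x i f hf).2.2⟩
  have hall := (sum_le_sum hlev)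
  rw [← mul_sum, ← mul_sum] at hall
  have h2 := hall.trans (mul_le_mul hΛle hfam (sum_nonneg fun x _ => sum_nonneg fun i _ =>
    sum_nonneg fun f _ => Real.rpow_nonneg (mul_nonneg (pow_nonneg h0.le _)
      (hit_nonneg _ h0.le h1 _ _)) _) (mul_nonneg (mul_nonneg (by linarith [D.M_nonneg]) (by linarith))
      (by positivity)))
  have hκ := D.κ_pos
  rw [← le_div_iff₀' (mul_pos hκ (Real.rpow_pos_of_pos (by linarith) _))] at h2
  refine h2.trans (le_of_eq ?_)
  rw [show 3 * δ - D.θ = δ + δ - (D.θ - δ) by ring, Real.rpow_sub (by linarith) (δ + δ),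
    Real.rpow_add (by linarith) δ]
  field_simp

open Classical in
/-- Step 3: the tail. -/
theorem tails {ps : ℝ} (h0 : 0 < ps) (h1 : ps ≤ 1) (hD : E.DataExists ps) : E.Tails ps := by
  intro ε hε
  obtain ⟨θ₀', hθ₀', hD⟩ := hD
  set θ₀ := min θ₀' 1
  have hθ₀ : 0 < θ₀ := lt_min hθ₀' one_pos
  have hθ₁ : θ₀ ≤ 1 := min_le_right _ _
  set δ := min ε 1 * θ₀ / 40
  have hδ : 0 < δ := by have := lt_min hε one_pos; positivity
  have hδ1 : δ < 1 / 2 := by
    have : min ε 1 * θ₀ ≤ 1 * 1 := mul_le_mul (min_le_right _ _) hθ₁ hθ₀.le zero_le_one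
    simp only [δ]; linarith
  obtain ⟨D, hDθ⟩ := hD δ hδ hδ1
  have hθ' : 0 < D.θ' := D.θ_pos.trans_le D.θ_le
  have hθθ' : θ₀ ≤ D.θ' := ((min_le_left _ _).trans hDθ).trans D.θ_le
  obtain ⟨A, hA0, hA⟩ := E.exists_level h0 h1 hδ D
  set η := 4 * δ / θ₀ with hη
  have hη0 : 0 ≤ η := by positivity
  set A' := A ^ (1 / D.θ') * (1 + 1 / δ)
  have hA' : 0 ≤ A' := mul_nonneg (Real.rpow_nonneg hA0 _) (by positivity)
  refine ⟨A' * (2 : ℝ) ^ (η + δ) + 1, by positivity, fun K ψ ℓ z hj w d S Y hS hY => ?_⟩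
  set V := E.vol ps K + 1
  have hV : 1 ≤ V := le_add_of_nonneg_left (E.vol_nonneg h0.le h1 K)
  set N := ⌈V ^ 3⌉₊
  have hV3 : (1 : ℝ) ≤ V ^ 3 := one_le_pow₀ hV
  have hN : 1 ≤ N := Nat.one_le_ceil_iff.2 (by linarith)
  have hup : (N : ℝ) ≤ 2 * V ^ 3 := by
    have := Nat.ceil_lt_add_one (show 0 ≤ V ^ 3 by linarith)
    linarith
  have hpl : 0 ≤ ps ^ ℓ := pow_nonneg h0.le _
  set DS := inE E.nb S
  let cnt : X → Finset (Sym2 (Γ × O)) → ℕ := fun x ξ =>
    ((Y.filter fun y => E.pos y = x).filter (Within z K ξ)).card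
  -- one level
  have hlev : ∀ j : ℕ, ∑ x ∈ Y.image E.pos, ps ^ ℓ * avg DS ps (fun ξ => ind (j + 1 ≤ cnt x ξ))
      ≤ A ^ (1 / D.θ') * ((j : ℝ) + 1) ^ (η - 1) := by
    intro j
    have h := sum_le_rpow _ hθ' D.θ'_le_one
      (fun x _ => mul_nonneg hpl (avg_nonneg _ h0.le h1 fun _ _ => ind_nonneg _))
      (hA ψ ℓ z hj w d S Y hS hY K (j + 1) (Nat.succ_pos j))
    refine h.trans ?_
    rw [Real.mul_rpow hA0 (Real.rpow_nonneg (Nat.cast_nonneg _) _),
      ← Real.rpow_mul (Nat.cast_nonneg _)]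
    refine mul_le_mul_of_nonneg_left ?_ (Real.rpow_nonneg hA0 _)
    push_cast
    refine Real.rpow_le_rpow_of_exponent_le (by linarith [(Nat.cast_nonneg j : (0 : ℝ) ≤ j)]) ?_
    rw [mul_one_div, div_le_iff₀ hθ', hη, sub_mul, div_mul_eq_mul_div, one_mul]
    have h4 : 4 * δ ≤ 4 * δ * D.θ' / θ₀ := by
      rw [le_div_iff₀ hθ₀]
      exact mul_le_mul_of_nonneg_left hθθ' (by positivity)
    have h5 := D.ratio
    nlinarith [D.θ'_le_one]
  have hpt : ∀ ξ, ∑ y ∈ Y, ind (Within z K ξ y) ≤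
      (∑ x ∈ Y.image E.pos, ∑ j ∈ range N, ind (j + 1 ≤ cnt x ξ))
        + ((Y.filter (Within z K ξ)).card : ℝ) ^ 2 / N := by
    intro ξ
    have hsum : ∑ x ∈ Y.image E.pos, cnt x ξ = (Y.filter (Within z K ξ)).card := by
      rw [card_eq_sum_card_fiberwise (t := Y.image E.pos) (f := E.pos)
        fun y hy => mem_image_of_mem _ (mem_filter.1 hy).1]
      exact sum_congr rfl fun x _ => congrArg card (filter_comm _ _ _)
    have e : ∑ y ∈ Y, ind (Within z K ξ y) = ((Y.filter (Within z K ξ)).card : ℝ) := by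
      simp only [ind, sum_boole]
    rw [e, ← hsum, Nat.cast_sum]
    refine (sum_le_sum fun x _ => count_le_levels (cnt x ξ) N hN).trans ?_
    rw [sum_add_distrib, ← sum_div]
    exact add_le_add le_rfl (div_le_div_of_nonneg_right
      (sum_sq_le_sq_sum_of_nonneg fun x _ => Nat.cast_nonneg _) (Nat.cast_nonneg N))
  have hmom : avg DS ps (fun ξ => ((Y.filter (Within z K ξ)).card : ℝ) ^ 2) ≤ V ^ 3 :=
    (FQ.second_moment S Y h0.le h1 z K fun u F =>
      (sum_le_sum fun y _ => E.tauW_le_tau h0.le h1 S K u y).trans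
        (E.sum_tau_le_vol h0.le h1 F K u)).trans
      (pow_le_pow_left₀ (E.vol_nonneg h0.le h1 K) (le_add_of_nonneg_right zero_le_one) 3)
  have hVe : (N : ℝ) ^ (η + δ) ≤ (2 : ℝ) ^ (η + δ) * V ^ ε := by
    refine (Real.rpow_le_rpow (Nat.cast_nonneg N) hup (by linarith)).trans ?_
    rw [Real.mul_rpow (by norm_num) (by linarith), ← Real.rpow_natCast V 3,
      ← Real.rpow_mul (by linarith)]
    refine mul_le_mul_of_nonneg_left (Real.rpow_le_rpow_of_exponent_le hV ?_) (by positivity)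
    have h6 : δ / θ₀ = min ε 1 / 40 := by simp only [δ]; field_simp
    have h7 : δ ≤ δ / θ₀ := le_div_self hδ.le hθ₀ hθ₁
    have h8 : η = 4 * (δ / θ₀) := by rw [hη]; ring
    push_cast
    linarith [min_le_left ε 1]
  calc ps ^ ℓ * ∑ y ∈ Y, tauW E.nb S ps z y K
      = ps ^ ℓ * avg DS ps (fun ξ => ∑ y ∈ Y, ind (Within z K ξ y)) := by
        rw [avg_sum]; rfl
    _ ≤ ps ^ ℓ * avg DS ps (fun ξ => (∑ x ∈ Y.image E.pos, ∑ j ∈ range N, ind (j + 1 ≤ cnt x ξ))
          + ((Y.filter (Within z K ξ)).card : ℝ) ^ 2 / N) :=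
        mul_le_mul_of_nonneg_left (avg_mono _ h0.le h1 fun ξ _ => hpt ξ) hpl
    _ = (∑ j ∈ range N, ∑ x ∈ Y.image E.pos, ps ^ ℓ * avg DS ps fun ξ => ind (j + 1 ≤ cnt x ξ))
          + ps ^ ℓ * (avg DS ps (fun ξ => ((Y.filter (Within z K ξ)).card : ℝ) ^ 2) / N) := by
        rw [avg_add, mul_add]
        congr 1
        · rw [avg_sum, mul_sum, sum_comm]
          simp only [avg_sum, mul_sum]
        · simp only [avg, sum_div, mul_div_assoc]
    _ ≤ A' * ((2 : ℝ) ^ (η + δ) * V ^ ε) + 1 := by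
        refine add_le_add ((sum_le_sum fun j _ => hlev j).trans ?_) ?_
        · rw [← mul_sum]
          refine le_trans (mul_le_mul_of_nonneg_left (sum_rpow_add_le N hN hη0 hδ)
            (Real.rpow_nonneg hA0 _)) ?_
          rw [← mul_assoc]
          exact mul_le_mul_of_nonneg_left hVe hA'
        · refine mul_le_one₀ (pow_le_one₀ h0.le h1)
            (div_nonneg (avg_nonneg _ h0.le h1 fun _ _ => by positivity) (Nat.cast_nonneg _)) ?_
          rw [div_le_one (by exact_mod_cast hN)]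
          exact hmom.trans (Nat.le_ceil _)
    _ ≤ (A' * (2 : ℝ) ^ (η + δ) + 1) * V ^ ε := by
        have : (1 : ℝ) ≤ V ^ ε := Real.one_le_rpow hV hε.le
        nlinarith

end Env

end Vale.Agent.P165.TR
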