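import Vale.Agent.P165.SG.Classes
import Vale.Agent.P165.SG.FreeSub

/-!
# Four ends from two loxodromic elements, and for nonabelian free images
-/

namespace Vale.Agent.P165.TR

open SG TL

variable {Γ X : Type} [Group Γ] {T : SimpleGraph X}

/-- Two loxodromic elements with four different ends escape in four directions. -/
theorem fourEnds_of_genType (hT : T.IsTree) (f : Γ →* (T ≃g T)) (u : X) (h : GenType f u) :
    FourEnds T f u := by
  obtain ⟨g, k, hg, hk, n1, n2, n3, n4⟩ := h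
  have key : ∀ a b : Γ, Lox f a → Lox f b → ¬Same f u a b →
      ∃ R : ℕ, ∀ n m : ℕ, sh f u (a ^ n) (b ^ m) ≤ R :=
    fun a b ha hb hne => (same_or_bounded hT f u ha hb).resolve_left hne
  obtain ⟨R1, h1⟩ := key g k hg hk n1
  obtain ⟨R2, h2⟩ := key g k⁻¹ hg (lox_inv hT f hk) n2
  obtain ⟨R3, h3⟩ := key g⁻¹ k (lox_inv hT f hg) hk n3
  obtain ⟨R4, h4⟩ := key g⁻¹ k⁻¹ (lox_inv hT f hg) (lox_inv hT f hk) n4
  refine ⟨g, k, 2 * (R1 + R2 + R3 + R4),
    fun n => ⟨le_dsp_pow hT f u hg n, le_dsp_pow hT f u hk n⟩, fun a ha n m => ?_⟩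
  have hsh : sh f u (a.1 ^ n) (a.2 ^ m) ≤ R1 + R2 + R3 + R4 := by
    simp only [List.mem_cons, List.not_mem_nil, or_false] at ha
    rcases ha with rfl | rfl | rfl | rfl
    · exact (h1 n m).trans (by omega)
    · exact (h2 n m).trans (by omega)
    · exact (h3 n m).trans (by omega)
    · exact (h4 n m).trans (by omega)
  have h5 := (gp_spec hT u (f (a.1 ^ n) u) (f (a.2 ^ m) u)).2.2.2.2
  simp only [sh] at hsh
  show T.dist u (f (a.1 ^ n) u) + T.dist u (f (a.2 ^ m) u) ≤
    T.dist (f (a.1 ^ n) u) (f (a.2 ^ m) u) + 2 * (R1 + R2 + R3 + R4)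
  omega

/-- A homomorphism to a free group with nonabelian image gives four ends on the Cayley tree. -/
theorem fourEnds_free_image {α : Type} [DecidableEq α] (π : Γ →* FreeGroup α)
    (h : ∃ g k, π g * π k ≠ π k * π g) :
    FourEnds (ftree α) ((fact α).comp π) (1 : FreeGroup α) := by
  obtain ⟨g, k, hgk⟩ := h
  exact fourEnds_of_genType isTree_ftree _ _ (genType_fact π hgk)

end Vale.Agent.P165.TR
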