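import Vale.Agent.P165.TR.Geo
import Vale.Agent.P165.FQ.Exit
import Vale.Agent.P165.FQ.Glue
import Vale.Agent.P165.FQ.Basic
import Vale.Agent.P165.FQ.Threshold

/-!
# Actions on trees: setting, connection probabilities, statements of the steps

The vertex `(γ, o)` lies over `γ t₀`. The region avoids the deep half tree `sd b₀`; targets are
single half trees avoiding the larger half tree `sd b₁`; three frames at `t₀` point in three
different directions.
-/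

namespace Vale.Agent.P165.TR

open Finset FF TL
open Vale.Agent.P165.FP (hit)
open Vale.Agent.P165.FQ (hitN tauW)

variable {Γ O ι X : Type} [Group Γ]

/-- The image of a directed edge. -/
def mvE (T : SimpleGraph X) (act : Γ →* (T ≃g T)) (γ : Γ) (e : X × X) : X × X :=
  (act γ e.1, act γ e.2)

/-- A walk of at most `ℓ` steps from `z` to the anchor `(ψ, o₁)`, all of it outside the translate of
the excluded half tree. -/
def Joined₀ (G : SimpleGraph (Γ × O)) (T : SimpleGraph X) (act : Γ →* (T ≃g T)) (t₀ : X)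
    (b₀ : X × X) (o₁ : O) (ψ : Γ) (ℓ : ℕ) (z : Γ × O) : Prop :=
  ∃ w : G.Walk z (ψ, o₁), w.length ≤ ℓ ∧
    ∀ v ∈ w.support, act v.1 t₀ ∉ sd T (mvE T act ψ b₀)

/-- An invariant graph on `Γ × O`, an action on a tree, and frames. -/
structure Env (Γ O ι X : Type) [Group Γ] [Fintype ι] where
  make ::
  /-- The graph. -/
  G : SimpleGraph (Γ × O)
  /-- The neighbours of a vertex. -/
  nb : Γ × O → ι → Γ × O
  hl : Labelling G nb
  hinv : Inv G
  conn : G.Connected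
  /-- The anchor type. -/
  o₁ : O
  /-- The tree. -/
  T : SimpleGraph X
  isTree : T.IsTree
  /-- The action. -/
  act : Γ →* (T ≃g T)
  /-- The vertex under the identity. -/
  t₀ : X
  /-- The Lipschitz constant of the projection. -/
  D : ℕ
  lip : ∀ x y, G.Adj x y → T.dist (act x.1 t₀) (act y.1 t₀) ≤ D
  /-- The edge of the excluded half tree. -/
  b₀ : X × X
  /-- The edge of the larger excluded half tree. -/
  b₁ : X × X
  /-- The edges of the three target half trees at `t₀`. -/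
  U : Fin 3 → X × X
  /-- The forward frames. -/
  σ : Fin 3 → Γ
  /-- The backward frames. -/
  τ : Fin 3 → Γ
  /-- The bound on the paths of the frames. -/
  blk : ℕ
  /-- The bound on the excursion of these paths. -/
  R₀ : ℕ
  one_le_blk : 1 ≤ blk
  adj_b₀ : T.Adj b₀.1 b₀.2
  adj_b₁ : T.Adj b₁.1 b₁.2
  adj_U : ∀ i, T.Adj (U i).1 (U i).2
  sd_b₀ : sd T b₀ ⊆ sd T b₁
  margin : ∀ q r, q ∉ sd T b₁ → T.dist q r ≤ R₀ + D → r ∉ sd T b₀
  t₀_b₁ : t₀ ∉ sd T b₁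
  t₀_U : ∀ i, t₀ ∉ sd T (U i)
  U_b₁ : ∀ i, Disjoint (sd T (U i)) (sd T b₁)
  U_apart : ∀ i j, i ≠ j → Disjoint (sd T (U i)) (sd T (U j))
  avoid : ∀ u w, ∃ i, ∀ q ∈ sd T (U i), gp T t₀ q u = 0 ∧ gp T t₀ q w = 0
  σ_maps : ∀ i q, q ∉ sd T b₀ → act (σ i) q ∈ sd T (U i)
  τ_maps : ∀ i q, q ∈ sd T b₁ → act (τ i) q ∈ sd T (U i)
  σ_path : ∀ i o, ∃ w : G.Walk ((1 : Γ), o) (σ i, o₁), w.length ≤ blk ∧
    ∀ v ∈ w.support, ∃ q, (q = t₀ ∨ q ∈ sd T (U i)) ∧ T.dist q (act v.1 t₀) ≤ R₀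
  τ_path : ∀ i z z', (z' = z ∨ G.Adj z' z) →
    Joined₀ G T act t₀ b₀ o₁ (z.1 * τ i) blk z'
  deep : ∀ (m : ℕ) (o : O), ∃ P : Finset Γ, P.card = 2 ^ m ∧
    (∀ ψ ∈ P, Joined₀ G T act t₀ b₀ o₁ ψ (blk * (m + 1)) ((1 : Γ), o) ∧
      ∀ q, T.dist t₀ q ≤ m → q ∉ sd T (mvE T act ψ b₁)) ∧
    (P : Set Γ).Pairwise fun ψ ψ' =>
      Disjoint (sd T (mvE T act ψ b₁)) (sd T (mvE T act ψ' b₁))

variable [Fintype ι]

/-- The vertices within `n` steps. -/
def wball [DecidableEq Γ] [DecidableEq O] (nb : Γ × O → ι → Γ × O) (a : Γ × O) (n : ℕ) :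
    Finset (Γ × O) :=
  (range (n + 1)).biUnion fun r => walkBall nb r a

namespace Env

variable (E : Env Γ O ι X)

/-- The image of a vertex. -/
def pos (x : Γ × O) : X := E.act x.1 E.t₀

/-- The translate of an edge. -/
def mv (γ : Γ) (e : X × X) : X × X := mvE E.T E.act γ e

/-- The vertices over a half tree. -/
def pre (e : X × X) : Set (Γ × O) := {v | E.pos v ∈ sd E.T e}

/-- The anchor. -/
def a₁ : Γ × O := ((1 : Γ), E.o₁)

/-- See `Joined₀`. -/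
def Joined (ψ : Γ) (ℓ : ℕ) (z : Γ × O) : Prop := Joined₀ E.G E.T E.act E.t₀ E.b₀ E.o₁ ψ ℓ z

/-- A vertex at which a graph edge enters the half tree. -/
def Gate (e : X × X) (z : Γ × O) : Prop :=
  E.pos z ∈ sd E.T e ∧ ∃ x, E.G.Adj x z ∧ E.pos x ∉ sd E.T e

/-- A vertex within the excursion bound of the start of a frame or of its half tree. -/
def Near (z : Γ × O) (i : Fin 3) (v : Γ × O) : Prop :=
  ∃ q, (q = E.pos z ∨ q ∈ sd E.T (E.mv z.1 (E.U i))) ∧ E.T.dist q (E.pos v) ≤ E.R₀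

/-- An admissible target. -/
def Strict (e : X × X) : Prop :=
  E.T.Adj e.1 e.2 ∧ E.t₀ ∉ sd E.T e ∧ Disjoint (sd E.T e) (sd E.T E.b₁)

/-- Half trees that are pairwise disjoint. -/
def Apart (W : Finset (X × X)) : Prop :=
  (W : Set (X × X)).Pairwise fun e e' => Disjoint (sd E.T e) (sd E.T e')

/-- A neighbour, or the point itself, whose segment to `y` passes over `a`. -/
def Fib (a y : Γ × O) : Prop :=
  ∃ x, (x = y ∨ E.G.Adj x y) ∧
    E.T.dist (E.pos x) (E.pos a) + E.T.dist (E.pos a) (E.pos y) = E.T.dist (E.pos x) (E.pos y)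

variable [DecidableEq Γ] [DecidableEq O]

/-- The ball in the graph. -/
def ball (a : Γ × O) (n : ℕ) : Finset (Γ × O) := wball E.nb a n

open Classical in
/-- The ball around the anchor outside the excluded half tree. -/
noncomputable def om (ρ : ℕ) : Finset (Γ × O) :=
  (E.ball E.a₁ ρ).filter fun v => E.pos v ∉ sd E.T E.b₀

open Classical in
/-- The window of a chain from `z` in the frame `i`. -/
noncomputable def chainSet (z : Γ × O) (i : Fin 3) (n : ℕ) : Finset (Γ × O) :=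
  (E.ball z n).filter (E.Near z i)

/-- The cost of one gluing. -/
noncomputable def c₁ (p : ℝ) : ℝ := p ^ E.blk / 2

/-- The chance of joining the anchor to a half tree inside `om ρ`. -/
noncomputable def Psi (ρ : ℕ) (p : ℝ) (e : X × X) : ℝ :=
  hit E.nb (E.om ρ) p E.a₁ (E.pre e)

/-- The same with at most `n` steps. -/
noncomputable def PsiN (ρ n : ℕ) (p : ℝ) (e : X × X) : ℝ :=
  hitN E.nb (E.om ρ) p E.a₁ (E.pre e) n

/-- The code bound with exponent `θ`. -/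
def Bound (p θ : ℝ) : Prop :=
  ∀ (ρ : ℕ) (W : Finset (X × X)), E.Apart W → (∀ e ∈ W, E.Strict e) →
    E.c₁ p ^ θ * ∑ e ∈ W, E.Psi ρ p e ^ θ ≤ 1

/-- The chance of at most `K` open steps from `a` to `y`. -/
noncomputable def tau (p : ℝ) (K : ℕ) (a y : Γ × O) : ℝ := tauW E.nb (E.ball a K) p a y K

variable [Fintype O]

/-- The expected number of points within `K` open steps, summed over the types of the start. -/
noncomputable def vol (p : ℝ) (K : ℕ) : ℝ :=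
  ∑ o : O, ∑ y ∈ E.ball ((1 : Γ), o) K, E.tau p K ((1 : Γ), o) y

open Classical in
/-- The expected number of such points in the fibre of the start, summed over its types. -/
noncomputable def own (p : ℝ) (K : ℕ) : ℝ :=
  ∑ o : O, ∑ y ∈ (E.ball ((1 : Γ), o) K).filter (E.Fib ((1 : Γ), o)), E.tau p K ((1 : Γ), o) y

/-- The bound on the points at one distance from a segment leaving an excluded half tree. -/
def TailLe (p : ℝ) (K : ℕ) (B : ℝ) : Prop :=
  ∀ (ψ : Γ) (ℓ : ℕ) (z : Γ × O), E.Joined ψ ℓ z → ∀ (w : X) (d : ℕ) (S Y : Finset (Γ × O)),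
    (∀ v ∈ S, E.pos v ∉ sd E.T (E.mv ψ E.b₀)) →
    (∀ y ∈ Y, E.pos y ∉ sd E.T (E.mv ψ E.b₁) ∧
      gp E.T (E.pos y) (E.act ψ E.b₁.2) w = d) →
    p ^ ℓ * ∑ y ∈ Y, tauW E.nb S p z y K ≤ B

/-- The exponents, the chains and the bound on short balls at one parameter. -/
structure Data (ps δ : ℝ) where
  /-- The exponent at which the code bound fails. -/
  θ : ℝ
  /-- The exponent at which the code bound holds. -/
  θ' : ℝ
  /-- The constant of the chains. -/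
  κ : ℝ
  /-- The constant in the length of a chain. -/
  C : ℕ
  /-- The constant for short balls. -/
  M : ℝ
  /-- The targets of a level in each frame. -/
  W : ℕ → Fin 3 → Finset (X × X)
  /-- Their distance from `t₀`. -/
  lev : ℕ → Fin 3 → ℕ
  θ_pos : 0 < θ
  θ_le : θ ≤ θ'
  θ'_le_one : θ' ≤ 1
  ratio : θ' * (1 - δ) ≤ θ
  bound : E.Bound ps θ'
  κ_pos : 0 < κ
  mem : ∀ L i, ∀ e ∈ W L i, E.T.Adj e.1 e.2 ∧ sd E.T e ⊆ sd E.T (E.U i) ∧
    E.T.dist E.t₀ e.2 = lev L i ∧ E.T.dist E.t₀ e.1 < E.T.dist E.t₀ e.2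
  chain : ∀ L : ℕ, 1 ≤ L → ∀ (i : Fin 3) (o : O), κ * (L : ℝ) ^ (θ - δ) ≤
    ∑ e ∈ W L i, min ((L : ℝ) * hitN E.nb (E.chainSet ((1 : Γ), o) i (C * (Nat.log 2 L + 1))) ps
      ((1 : Γ), o) (E.pre e) (C * (Nat.log 2 L + 1))) 1
  M_nonneg : 0 ≤ M
  short : ∀ L : ℕ, 1 ≤ L →
    ((C * (Nat.log 2 L + 1) : ℕ) + 1 : ℝ) * E.vol ps (C * (Nat.log 2 L + 1)) ≤ M * (L : ℝ) ^ δ

/-- Step 1, 2: data for every small `δ`, with exponents bounded below. -/
def DataExists (ps : ℝ) : Prop :=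
  ∃ θ₀ : ℝ, 0 < θ₀ ∧ ∀ δ : ℝ, 0 < δ → δ < 1 / 2 → ∃ D : E.Data ps δ, θ₀ ≤ D.θ

/-- Step 3: the tail. -/
def Tails (ps : ℝ) : Prop :=
  ∀ ε : ℝ, 0 < ε → ∃ C : ℝ, 0 ≤ C ∧ ∀ K, E.TailLe ps K (C * (E.vol ps K + 1) ^ ε)

/-- Step 4: the points over a bounded neighbourhood of the start. -/
def NearBound (p : ℝ) : Prop :=
  ∃ C : ℝ, 0 ≤ C ∧ ∀ (K : ℕ) (B : ℝ), 1 ≤ B → E.TailLe p K B → ∀ (a : Γ × O) (J : ℕ)
    (F : Finset (Γ × O)), (∀ y ∈ F, E.T.dist (E.pos a) (E.pos y) ≤ J) →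
      ∑ y ∈ F, E.tau p K a y ≤ C * ((J : ℝ) + 1) * (E.own p K * B)

/-- Step 5: the own fibre. -/
def OwnBound (p : ℝ) : Prop :=
  ∃ (C : ℝ) (A : ℕ), 0 ≤ C ∧ ∀ (K : ℕ) (B : ℝ), 1 ≤ B → E.TailLe p K B → E.own p K ≤ C * B ^ A

/-- Step 6: closing at the last parameter. -/
def Closed (ps : ℝ) : Prop :=
  ∀ ε : ℝ, 0 < ε → ∃ C : ℝ, 0 ≤ C ∧ ∀ K, E.own ps K ≤ C * ((K : ℝ) + 1) ^ ε ∧
    E.TailLe ps K (C * ((K : ℝ) + 1) ^ ε)

/-- Step 7: the small form. -/
def Small (ps : ℝ) : Prop :=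
  ∃ n, 1 ≤ n ∧ FQ.FormSmall E.nb (fun x => E.ball x n) n ps (1 / 4)

end Env

end Vale.Agent.P165.TR
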