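import Vale.Agent.P165.TR.Base

/-!
# Translations, balls and connection probabilities for an action on a tree
-/

namespace Vale.Agent.P165.TR.Env

open Finset FF TL
open Vale.Agent.P165.FP (hit)
open Vale.Agent.P165.FQ

variable {Γ O ι X : Type} [Group Γ] [Fintype ι] (E : Env Γ O ι X)

theorem pos_tr (γ : Γ) (v : Γ × O) : E.pos (tr γ v) = E.act γ (E.pos v) := by
  show E.act (γ * v.1) E.t₀ = _
  rw [map_mul]; rfl

theorem pos_one (o : O) : E.pos ((1 : Γ), o) = E.t₀ := by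
  show E.act 1 E.t₀ = _
  rw [map_one]; rfl

theorem act_mul (γ δ : Γ) (q : X) : E.act (γ * δ) q = E.act γ (E.act δ q) := by rw [map_mul]; rfl

theorem act_inv_act (γ : Γ) (q : X) : E.act γ⁻¹ (E.act γ q) = q := by
  rw [← E.act_mul, inv_mul_cancel, map_one]; rfl

theorem act_act_inv (γ : Γ) (q : X) : E.act γ (E.act γ⁻¹ q) = q := by
  rw [← E.act_mul, mul_inv_cancel, map_one]; rfl

theorem dist_act (γ : Γ) (q r : X) : E.T.dist (E.act γ q) (E.act γ r) = E.T.dist q r :=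
  dist_map E.isTree E.isTree (E.act γ) q r

theorem mv_mul (γ δ : Γ) (e : X × X) : E.mv (γ * δ) e = E.mv γ (E.mv δ e) := by
  simp [mv, mvE]

theorem mv_one (e : X × X) : E.mv 1 e = e := by
  simp [mv, mvE]

theorem adj_mv {γ : Γ} {e : X × X} (h : E.T.Adj e.1 e.2) :
    E.T.Adj (E.mv γ e).1 (E.mv γ e).2 :=
  (E.act γ).map_rel_iff'.2 h

theorem mem_mv (γ : Γ) (e : X × X) (q : X) :
    E.act γ q ∈ sd E.T (E.mv γ e) ↔ q ∈ sd E.T e :=
  map_mem_sd E.isTree (E.act γ) e q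

theorem mem_mv_iff (γ : Γ) (e : X × X) (q : X) :
    q ∈ sd E.T (E.mv γ e) ↔ E.act γ⁻¹ q ∈ sd E.T e := by
  conv_lhs => rw [← E.act_act_inv γ q]
  exact E.mem_mv γ e _

theorem disjoint_mv {γ : Γ} {e e' : X × X} (h : Disjoint (sd E.T e) (sd E.T e')) :
    Disjoint (sd E.T (E.mv γ e)) (sd E.T (E.mv γ e')) := by
  rw [Set.disjoint_left] at h ⊢
  intro q hq hq'
  rw [E.mem_mv_iff] at hq hq'
  exact h hq hq'

theorem subset_mv {γ : Γ} {e e' : X × X} (h : sd E.T e ⊆ sd E.T e') :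
    sd E.T (E.mv γ e) ⊆ sd E.T (E.mv γ e') := fun q hq =>
  (E.mem_mv_iff γ e' q).2 (h ((E.mem_mv_iff γ e q).1 hq))

theorem pos_eq (v : Γ × O) : E.pos v = E.act v.1 E.t₀ := rfl

/-- A frame at the image of `v` avoiding the directions of two points. -/
theorem avoid_at (v : Γ × O) (u w : X) : ∃ i, ∀ q ∈ sd E.T (E.mv v.1 (E.U i)),
    gp E.T (E.pos v) q u = 0 ∧ gp E.T (E.pos v) q w = 0 := by
  obtain ⟨i, hi⟩ := E.avoid (E.act v.1⁻¹ u) (E.act v.1⁻¹ w)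
  refine ⟨i, fun q hq => ?_⟩
  obtain ⟨h1, h2⟩ := hi _ ((E.mem_mv_iff _ _ _).1 hq)
  rw [← gp_map E.isTree (E.act v.1), E.act_act_inv, E.act_act_inv] at h1 h2
  exact ⟨h1, h2⟩

/-- The margin around a translate of the excluded half tree. -/
theorem margin_at {ψ : Γ} {q r : X} (hq : q ∉ sd E.T (E.mv ψ E.b₁))
    (h : E.T.dist q r ≤ E.R₀ + E.D) : r ∉ sd E.T (E.mv ψ E.b₀) := by
  rw [E.mem_mv_iff] at hq ⊢
  exact E.margin _ _ hq ((E.dist_act ψ⁻¹ q r).le.trans h)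

theorem b₁_head (ψ : Γ) : E.act ψ E.b₁.2 ∈ sd E.T (E.mv ψ E.b₁) :=
  head_mem_sd (E.adj_mv E.adj_b₁)

theorem anchor_notMem (ψ : Γ) : E.act ψ E.t₀ ∉ sd E.T (E.mv ψ E.b₁) := by
  rw [E.mem_mv]; exact E.t₀_b₁

theorem joined_tr (γ : Γ) {ψ : Γ} {ℓ : ℕ} {z : Γ × O} (h : E.Joined ψ ℓ z) :
    E.Joined (γ * ψ) ℓ (tr γ z) := by
  obtain ⟨w, hw, hs⟩ := h
  refine ⟨w.map (trIso E.hinv γ).toHom,
    (le_of_eq (SimpleGraph.Walk.length_map _ _)).trans hw, fun v hv => ?_⟩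
  obtain ⟨u, hu, rfl⟩ := List.mem_map.1
    ((congrArg (v ∈ ·) (SimpleGraph.Walk.support_map _ w)).mp hv)
  intro hmem
  refine hs u hu ?_
  change E.pos (tr γ u) ∈ sd E.T (E.mv (γ * ψ) E.b₀) at hmem
  rw [E.pos_tr, E.mv_mul, E.mem_mv] at hmem
  exact hmem

theorem joined_mono {ψ : Γ} {ℓ ℓ' : ℕ} {z : Γ × O} (hℓ : ℓ ≤ ℓ') (h : E.Joined ψ ℓ z) :
    E.Joined ψ ℓ' z := by
  obtain ⟨w, hw, hs⟩ := h
  exact ⟨w, hw.trans hℓ, hs⟩

theorem dist_walk {x y : Γ × O} (w : E.G.Walk x y) :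
    E.T.dist (E.pos x) (E.pos y) ≤ E.D * w.length := by
  induction w with
  | nil => simp
  | @cons u v _ h w ih =>
    refine (E.isTree.connected.dist_triangle (v := E.pos v)).trans ?_
    rw [SimpleGraph.Walk.length_cons, mul_add, mul_one, add_comm]
    exact add_le_add ih (E.lip _ _ h)

/-! ### Gates -/

theorem gate_near {e : X × X} (he : E.T.Adj e.1 e.2) {z : Γ × O} (h : E.Gate e z) :
    E.T.dist (E.pos z) e.2 + 1 ≤ E.D := by
  obtain ⟨hz, x, hadj, hx⟩ := h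
  have h1 := dist_across E.isTree he hz hx
  have h2 : E.T.dist (E.pos x) (E.pos z) ≤ E.D := E.lip x z hadj
  rw [E.T.dist_comm (u := E.pos x)] at h2
  omega

open Classical in
/-- A point is the gate of boundedly many edges. -/
theorem gate_count (z : Γ × O) (W : Finset (X × X)) (hW : ∀ e ∈ W, E.T.Adj e.1 e.2) :
    (W.filter fun e => E.Gate e z).card ≤ Fintype.card ι * E.D := by
  set P : ι × ℕ → X × X := fun q => (pt E.T (E.pos z) (E.pos (E.nb z q.1)) (q.2 + 1),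
    pt E.T (E.pos z) (E.pos (E.nb z q.1)) q.2)
  have hsub : (W.filter fun e => E.Gate e z) ⊆ ((univ : Finset ι) ×ˢ range E.D).image P := by
    intro e he
    obtain ⟨heW, hz, x, hadj, hx⟩ := mem_filter.1 he
    obtain ⟨j, hj⟩ := (E.hl.adj z x).1 hadj.symm
    obtain ⟨h1, h2, h3⟩ := edge_eq_pt E.isTree (hW e heW) hz hx
    have h4 : E.T.dist (E.pos z) (E.pos x) ≤ E.D := by
      rw [SimpleGraph.dist_comm]; exact E.lip x z hadj
    refine mem_image.2 ⟨(j, E.T.dist (E.pos z) e.2), mem_product.2 ⟨mem_univ _,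
      mem_range.2 (by omega)⟩, ?_⟩
    show P (j, _) = e
    simp only [P]
    rw [hj]
    exact Prod.ext h2.symm h1.symm
  refine (card_le_card hsub).trans (card_image_le.trans (le_of_eq ?_))
  rw [card_product, card_univ, card_range]

theorem fib_tr (γ : Γ) (a y : Γ × O) : E.Fib (tr γ a) (tr γ y) ↔ E.Fib a y := by
  have key : ∀ γ a y, E.Fib a y → E.Fib (tr γ a) (tr γ y) := by
    rintro γ a y ⟨x, hx, hd⟩
    refine ⟨tr γ x, hx.imp (fun h => by rw [h]) fun h => (E.hinv γ x y).2 h, ?_⟩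
    simpa only [E.pos_tr, E.dist_act] using hd
  refine ⟨fun h => ?_, key γ a y⟩
  have h2 := key γ⁻¹ _ _ h
  simpa [tr] using h2

variable [DecidableEq Γ] [DecidableEq O]

/-! ### Balls -/

theorem mem_walkBall {n : ℕ} {a y : Γ × O} :
    y ∈ walkBall E.nb n a ↔ ∃ w : E.G.Walk a y, w.length = n := by
  induction n generalizing y with
  | zero =>
    simp only [walkBall, mem_singleton]
    exact ⟨fun h => h ▸ ⟨.nil, rfl⟩, fun ⟨w, hw⟩ => (SimpleGraph.Walk.eq_of_length_eq_zero hw).symm⟩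
  | succ n ih =>
    simp only [walkBall, mem_image, mem_product, mem_univ, and_true]
    constructor
    · rintro ⟨⟨u, j⟩, hu, rfl⟩
      obtain ⟨w, hw⟩ := ih.1 hu
      exact ⟨w.concat (E.hl.adj_nb u j), by rw [SimpleGraph.Walk.length_concat, hw]⟩
    · rintro ⟨w, hw⟩
      cases h : w.reverse with
      | nil =>
        have h2 := congrArg SimpleGraph.Walk.length h
        rw [SimpleGraph.Walk.length_reverse, SimpleGraph.Walk.length_nil] at h2
        omega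
      | @cons _ u _ hadj w' =>
        obtain ⟨j, hj⟩ := (E.hl.adj u y).1 hadj.symm
        have h2 := congrArg SimpleGraph.Walk.length h
        rw [SimpleGraph.Walk.length_reverse, SimpleGraph.Walk.length_cons] at h2
        exact ⟨(u, j), ih.2 ⟨w'.reverse, by rw [SimpleGraph.Walk.length_reverse]; omega⟩, hj⟩

theorem mem_ball {n : ℕ} {a y : Γ × O} :
    y ∈ E.ball a n ↔ ∃ w : E.G.Walk a y, w.length ≤ n := by
  simp only [ball, wball, mem_biUnion, mem_range, E.mem_walkBall]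
  exact ⟨fun ⟨r, hr, w, hw⟩ => ⟨w, by omega⟩, fun ⟨w, hw⟩ => ⟨w.length, by omega, w, rfl⟩⟩

theorem self_mem_ball (a : Γ × O) (n : ℕ) : a ∈ E.ball a n :=
  E.mem_ball.2 ⟨.nil, Nat.zero_le n⟩

theorem covers_ball (n : ℕ) : Covers E.G (fun x => E.ball x n) n := fun x u w hw v hv => by
  classical
  exact E.mem_ball.2 ⟨w.takeUntil v hv, (w.length_takeUntil_le_length hv).trans hw⟩

theorem ball_subset {a z : Γ × O} {K K' n : ℕ} (hz : z ∈ E.ball a K) (hn : K + K' ≤ n) :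
    E.ball z K' ⊆ E.ball a n := fun y hy => by
  obtain ⟨w, hw⟩ := E.mem_ball.1 hz
  obtain ⟨w', hw'⟩ := E.mem_ball.1 hy
  exact E.mem_ball.2 ⟨w.append w', by rw [SimpleGraph.Walk.length_append]; omega⟩

theorem ball_mono (a : Γ × O) {n n' : ℕ} (h : n ≤ n') : E.ball a n ⊆ E.ball a n' :=
  E.ball_subset (E.self_mem_ball a 0) (by omega)

theorem dist_ball {a y : Γ × O} {n : ℕ} (h : y ∈ E.ball a n) :
    E.T.dist (E.pos a) (E.pos y) ≤ E.D * n := by
  obtain ⟨w, hw⟩ := E.mem_ball.1 h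
  exact (E.dist_walk w).trans (Nat.mul_le_mul_left _ hw)

theorem image_ball (γ : Γ) (a : Γ × O) (n : ℕ) :
    (E.ball a n).image (tr γ) = E.ball (tr γ a) n := by
  have key : ∀ γ a y, y ∈ E.ball a n → tr γ y ∈ E.ball (tr γ a) n := fun γ a y hy => by
    obtain ⟨w, hw⟩ := E.mem_ball.1 hy
    exact E.mem_ball.2 ⟨w.map (trIso E.hinv γ).toHom,
      (le_of_eq (SimpleGraph.Walk.length_map _ _)).trans hw⟩
  ext y
  rw [mem_image]
  refine ⟨fun ⟨z, hz, e⟩ => e ▸ key γ a z hz, fun h => ⟨tr γ⁻¹ y, ?_, by simp [tr]⟩⟩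
  have h2 := key γ⁻¹ _ _ h
  simpa [tr] using h2

/-! ### Short connections -/

variable {p : ℝ}

theorem tau_nonneg (h0 : 0 ≤ p) (h1 : p ≤ 1) (K : ℕ) (a y : Γ × O) : 0 ≤ E.tau p K a y :=
  tauW_nonneg _ h0 h1 _ _ _

theorem tau_le_one (h0 : 0 ≤ p) (h1 : p ≤ 1) (K : ℕ) (a y : Γ × O) : E.tau p K a y ≤ 1 :=
  tauW_le_one _ h0 h1 _ _ _

theorem tau_self (p : ℝ) (K : ℕ) (a : Γ × O) : E.tau p K a a = 1 := tauW_self _ p a K

theorem tauW_le_tau (h0 : 0 ≤ p) (h1 : p ≤ 1) (S : Finset (Γ × O)) (K : ℕ) (a y : Γ × O) :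
    tauW E.nb S p a y K ≤ E.tau p K a y :=
  tauW_le_window E.hl (E.covers_ball K) S h0 h1 a y

theorem tau_eq_zero {K : ℕ} {a y : Γ × O} (h : y ∉ E.ball a K) : E.tau p K a y = 0 :=
  tauW_eq_zero E.hl (E.covers_ball K) _ p fun hc => h hc.1

theorem tau_comm (h0 : 0 ≤ p) (h1 : p ≤ 1) (K : ℕ) (a y : Γ × O) :
    E.tau p K a y = E.tau p K y a := by
  refine le_antisymm ?_ ?_
  · rw [tau, tauW_comm]
    exact E.tauW_le_tau h0 h1 _ K y a
  · rw [tau, tauW_comm]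
    exact E.tauW_le_tau h0 h1 _ K a y

theorem tau_tr (p : ℝ) (K : ℕ) (γ : Γ) (a y : Γ × O) :
    E.tau p K (tr γ a) (tr γ y) = E.tau p K a y := by
  rw [tau, tau, ← E.image_ball]
  exact tauW_map E.hl (trIso E.hinv γ) _ p a y K

theorem tau_mono (h0 : 0 ≤ p) (h1 : p ≤ 1) {K K' : ℕ} (h : K ≤ K') (a y : Γ × O) :
    E.tau p K a y ≤ E.tau p K' a y :=
  tauW_mono E.hl (E.ball_mono a h) h h0 h1 a y

variable [Fintype O]

open Classical in
theorem sum_tau_le_vol (h0 : 0 ≤ p) (h1 : p ≤ 1) (F : Finset (Γ × O)) (K : ℕ) (a : Γ × O) :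
    ∑ y ∈ F, E.tau p K a y ≤ E.vol p K := by
  calc ∑ y ∈ F, E.tau p K a y = ∑ y ∈ F.filter (fun y => y ∈ E.ball a K), E.tau p K a y :=
        (sum_filter_of_ne fun y _ hne => by_contra fun h => hne (E.tau_eq_zero h)).symm
    _ ≤ ∑ y ∈ E.ball a K, E.tau p K a y := sum_le_sum_of_subset_of_nonneg
        (fun y hy => (mem_filter.1 hy).2) fun y _ _ => E.tau_nonneg h0 h1 K a y
    _ = ∑ y ∈ E.ball ((1 : Γ), a.2) K, E.tau p K ((1 : Γ), a.2) y := by
        have e : tr a.1 ((1 : Γ), a.2) = a := by simp [tr]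
        conv_lhs => rw [← e, ← E.image_ball]
        rw [sum_image fun x _ y _ h => tr_injective a.1 h]
        exact sum_congr rfl fun y _ => E.tau_tr _ _ _ _ _
    _ ≤ E.vol p K := single_le_sum
        (f := fun o => ∑ y ∈ E.ball ((1 : Γ), o) K, E.tau p K ((1 : Γ), o) y)
        (fun o _ => sum_nonneg fun y _ => E.tau_nonneg h0 h1 K _ y) (mem_univ a.2)

theorem one_le_vol (h0 : 0 ≤ p) (h1 : p ≤ 1) (K : ℕ) : 1 ≤ E.vol p K := by
  refine le_trans ?_ (E.sum_tau_le_vol h0 h1 {E.a₁} K E.a₁)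
  rw [sum_singleton, E.tau_self]

theorem vol_nonneg (h0 : 0 ≤ p) (h1 : p ≤ 1) (K : ℕ) : 0 ≤ E.vol p K :=
  zero_le_one.trans (E.one_le_vol h0 h1 K)

theorem own_nonneg (h0 : 0 ≤ p) (h1 : p ≤ 1) (K : ℕ) : 0 ≤ E.own p K :=
  sum_nonneg fun _ _ => sum_nonneg fun _ _ => E.tau_nonneg h0 h1 _ _ _

open Classical in
theorem own_le_vol (h0 : 0 ≤ p) (h1 : p ≤ 1) (K : ℕ) : E.own p K ≤ E.vol p K :=
  sum_le_sum fun _ _ => sum_le_sum_of_subset_of_nonneg (filter_subset _ _) fun _ _ _ =>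
    E.tau_nonneg h0 h1 _ _ _

/-- The fibre of any start is bounded by `own`. -/
theorem sum_fib_le_own (h0 : 0 ≤ p) (h1 : p ≤ 1) (F : Finset (Γ × O)) (K : ℕ) (a : Γ × O)
    (hF : ∀ y ∈ F, E.Fib a y) : ∑ y ∈ F, E.tau p K a y ≤ E.own p K := by
  classical
  calc ∑ y ∈ F, E.tau p K a y = ∑ y ∈ F.filter (fun y => y ∈ E.ball a K), E.tau p K a y :=
        (sum_filter_of_ne fun y _ hne => by_contra fun h => hne (E.tau_eq_zero h)).symm
    _ ≤ ∑ y ∈ (E.ball a K).filter (E.Fib a), E.tau p K a y :=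
        sum_le_sum_of_subset_of_nonneg (fun y hy => by
          obtain ⟨h2, h3⟩ := mem_filter.1 hy
          exact mem_filter.2 ⟨h3, hF y h2⟩) fun y _ _ => E.tau_nonneg h0 h1 K a y
    _ = ∑ y ∈ (E.ball ((1 : Γ), a.2) K).filter (E.Fib ((1 : Γ), a.2)),
          E.tau p K ((1 : Γ), a.2) y := by
        have e : tr a.1 ((1 : Γ), a.2) = a := by simp [tr]
        conv_lhs => rw [← e, ← E.image_ball, filter_image]
        rw [sum_image fun x _ y _ h => tr_injective a.1 h]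
        exact sum_congr (filter_congr fun y _ => E.fib_tr _ _ y) fun y _ => E.tau_tr _ _ _ _ _
    _ ≤ E.own p K := single_le_sum
        (f := fun o => ∑ y ∈ (E.ball ((1 : Γ), o) K).filter (E.Fib ((1 : Γ), o)),
          E.tau p K ((1 : Γ), o) y)
        (fun o _ => sum_nonneg fun y _ => E.tau_nonneg h0 h1 K _ y) (mem_univ a.2)

theorem one_le_own (h0 : 0 ≤ p) (h1 : p ≤ 1) (K : ℕ) : 1 ≤ E.own p K := by
  refine le_trans ?_ (E.sum_fib_le_own h0 h1 {E.a₁} K E.a₁ fun y hy => ?_)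
  · rw [sum_singleton, E.tau_self]
  · rw [mem_singleton] at hy
    subst hy
    exact ⟨E.a₁, Or.inl rfl, by simp⟩

end Vale.Agent.P165.TR.Env
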