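import Vale.Agent.P165.TR.Join
import Vale.Agent.P165.FQ.Tail

/-!
# Chains: the targets of every level

When the bound on disjoint targets fails at an exponent `θ`, iterated joins give families whose
chances, truncated at `1 / L`, sum to about `L ^ (θ - 1)` within logarithmically many steps. The most
charged distance from `t₀` gives the targets of each frame.
-/

namespace Vale.Agent.P165.TR.Env

open Finset FF TL
open Vale.Agent.P165.FQ (hitN exists_walk_le hitN_nonneg hitN_map hitN_move hitN_mono)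

variable {Γ O ι X : Type} [Group Γ] [Fintype ι] (E : Env Γ O ι X)

variable [DecidableEq Γ] [DecidableEq O] {p : ℝ}

theorem psiN_mono {ρ ρ' n n' : ℕ} (h : ρ ≤ ρ') (hn : n ≤ n') (h0 : 0 ≤ p) (h1 : p ≤ 1)
    (e : X × X) : E.PsiN ρ n p e ≤ E.PsiN ρ' n' p e :=
  hitN_mono E.hl (E.om_mono h) Set.Subset.rfl hn h0 h1 _

theorem psiN_le_psi (ρ n : ℕ) (h0 : 0 ≤ p) (h1 : p ≤ 1) (e : X × X) :
    E.PsiN ρ n p e ≤ E.Psi ρ p e :=
  FQ.hitN_le_hit _ _ h0 h1 _ _ _

theorem psi_le_psiN (ρ : ℕ) (h0 : 0 ≤ p) (h1 : p ≤ 1) (e : X × X) :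
    E.Psi ρ p e ≤ E.PsiN ρ (inE E.nb (E.om ρ)).card p e :=
  avg_mono _ h0 h1 fun η hη => ind_mono fun ⟨t, ht, hc⟩ => by
    obtain ⟨w, hw⟩ := exists_walk_le hc
    exact ⟨t, ht, w, hw.trans (card_le_card hη)⟩

omit [DecidableEq Γ] [DecidableEq O] in
theorem disjoint_of_below {W : Finset (X × X)} (hW : E.Apart W) {S : X × X → Finset (X × X)}
    (hS : ∀ v ∈ W, ∀ e ∈ S v, E.Strict e ∧ sd E.T e ⊆ sd E.T v) :
    (W : Set (X × X)).PairwiseDisjoint S := fun v hv v' hv' hne =>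
  disjoint_left.2 fun e he he' => Set.disjoint_left.1 (hW hv hv' hne)
    ((hS v hv e he).2 (head_mem_sd (hS v hv e he).1.1))
    ((hS v' hv' e he').2 (head_mem_sd (hS v hv e he).1.1))

theorem joinSum (h0 : 0 ≤ p) (h1 : p ≤ 1) : E.JoinSum p := by
  classical
  intro ρ ρ' W W' hW hs hs'
  choose! S hS hSmin using fun v (hv : v ∈ W) =>
    E.exists_step h0 h1 ρ ρ' (inE E.nb (E.om ρ')).card (hs v hv) W' hs'
  refine ⟨ρ + E.blk + ρ', W.biUnion S, fun e he => ?_, ?_⟩
  · obtain ⟨v, hv, he⟩ := mem_biUnion.1 he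
    exact (hS v hv e he).1
  rw [sum_biUnion (E.disjoint_of_below hW hS), mul_assoc, sum_mul, mul_sum]
  refine sum_le_sum fun v hv => ?_
  refine le_trans ?_ ((hSmin v hv 1 zero_le_one).trans (sum_le_sum fun e _ =>
    (min_le_left _ _).trans (E.psiN_le_psi _ _ h0 h1 e)))
  rw [mul_sum, mul_sum]
  refine sum_le_sum fun w _ => ?_
  have hw : E.PsiN ρ' (inE E.nb (E.om ρ')).card p w ≤ 1 :=
    (E.psiN_le_psi _ _ h0 h1 w).trans (E.psi_le_one _ h0 h1 w)
  rw [min_eq_left (mul_le_one₀ (mul_le_one₀ (pow_le_one₀ h0 h1) (E.psi_nonneg _ h0 h1 v)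
    (E.psi_le_one _ h0 h1 v)) (E.psiN_nonneg _ _ h0 h1 w) hw), ← mul_assoc]
  refine mul_le_mul (mul_le_mul_of_nonneg_right ?_ (E.psi_nonneg _ h0 h1 v))
    (E.psi_le_psiN _ h0 h1 w) (E.psi_nonneg _ h0 h1 w)
    (mul_nonneg (pow_nonneg h0 _) (E.psi_nonneg _ h0 h1 v))
  rw [c₁]
  linarith [pow_nonneg h0 E.blk]

/-- Iterated joins of a family that breaks the bound: their truncated chances at every scale. -/
theorem exists_stop (hp : 0 < p) (hp1 : p ≤ 1) {θ : ℝ} (hθ : 0 < θ) (hθ1 : θ ≤ 1)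
    (hnb : ¬ E.Bound p θ) :
    ∃ (r : ℕ) (κ : ℝ), 0 < κ ∧ ∀ n : ℕ, ∀ t : ℝ, (1 / 2 : ℝ) ^ n ≤ t → t ≤ 1 →
      ∃ F : Finset (X × X), (∀ e ∈ F, E.Strict e) ∧
        κ * t ^ (1 - θ) ≤ ∑ e ∈ F, min (E.PsiN ((n + 1) * r) ((n + 1) * r) p e) t := by
  classical
  simp only [Bound, not_forall, not_le] at hnb
  obtain ⟨ρ, W₀, hW₀, hs₀, hgt₀⟩ := hnb
  set W₁ := W₀.filter fun v => 0 < E.Psi ρ p v with hW₁
  have hW₁' : E.Apart W₁ := hW₀.mono (coe_subset.2 (filter_subset _ _))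
  have hs₁ : ∀ v ∈ W₁, E.Strict v := fun v hv => hs₀ v (mem_filter.1 hv).1
  set P : X × X → ℝ := fun v => E.c₁ p * E.Psi ρ p v with hP
  have hc := E.c₁_pos hp
  have hP0 : ∀ v ∈ W₁, 0 < P v := fun v hv => mul_pos hc (mem_filter.1 hv).2
  have hPhalf : ∀ v, P v ≤ 1 / 2 := fun v =>
    (mul_le_of_le_one_right hc.le (E.psi_le_one ρ hp.le hp1 v)).trans (E.c₁_le_half hp.le hp1)
  have hPblk : ∀ v, P v ≤ p ^ E.blk * E.Psi ρ p v := fun v =>
    mul_le_mul_of_nonneg_right (by rw [c₁]; linarith [pow_nonneg hp.le E.blk])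
      (E.psi_nonneg ρ hp.le hp1 v)
  have hgt : 1 < ∑ v ∈ W₁, P v ^ θ := by
    have e : ∑ v ∈ W₁, P v ^ θ = E.c₁ p ^ θ * ∑ v ∈ W₁, E.Psi ρ p v ^ θ := by
      rw [mul_sum]
      exact sum_congr rfl fun v _ => Real.mul_rpow hc.le (E.psi_nonneg ρ hp.le hp1 v)
    rw [e]
    refine lt_of_lt_of_eq hgt₀ (congrArg (fun x : ℝ => E.c₁ p ^ θ * x) ?_)
    refine (sum_filter_of_ne fun v _ hne => ?_).symm
    refine lt_of_le_of_ne (E.psi_nonneg ρ hp.le hp1 v) fun h => hne ?_
    rw [← h, Real.zero_rpow hθ.ne']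
  have hne : W₁.Nonempty :=
    nonempty_of_sum_ne_zero (s := W₁) (f := fun v => P v ^ θ) (by linarith)
  set κ := W₁.inf' hne P with hκ
  have hκ0 : 0 < κ := (Finset.lt_inf'_iff hne).2 hP0
  have hκle : ∀ v ∈ W₁, κ ≤ P v := fun v hv => inf'_le _ hv
  set r := ρ + (inE E.nb (E.om ρ)).card + E.blk + 1 with hr
  have hbase : ∀ (n : ℕ) (v : X × X), P v ≤ E.PsiN ((n + 1) * r) ((n + 1) * r) p v := fun n v => by
    have h1 : r ≤ (n + 1) * r := Nat.le_mul_of_pos_left r (Nat.succ_pos n)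
    exact ((mul_le_of_le_one_left (E.psi_nonneg ρ hp.le hp1 v) (E.c₁_le_one hp.le hp1)).trans
      (E.psi_le_psiN ρ hp.le hp1 v)).trans (E.psiN_mono (by omega) (by omega) hp.le hp1 v)
  refine ⟨r, κ, hκ0, fun n => ?_⟩
  induction n with
  | zero =>
    intro t ht0 ht1
    rw [pow_zero] at ht0
    obtain rfl : t = 1 := le_antisymm ht1 ht0
    refine ⟨W₁, hs₁, ?_⟩
    rw [Real.one_rpow, mul_one]
    refine (hκle _ hne.choose_spec).trans ((le_min (hbase 0 _)
      ((hPhalf _).trans (by norm_num))).trans (single_le_sum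
        (f := fun e => min (E.PsiN ((0 + 1) * r) ((0 + 1) * r) p e) 1)
        (fun e _ => le_min (E.psiN_nonneg _ _ hp.le hp1 e) zero_le_one) hne.choose_spec))
  | succ n ih =>
    intro t ht0 ht1
    have htpos : 0 < t := lt_of_lt_of_le (by positivity) ht0
    have hsub : ∀ v ∈ W₁, ∃ S : Finset (X × X),
        (∀ e ∈ S, E.Strict e ∧ sd E.T e ⊆ sd E.T v) ∧ κ * P v ^ θ * t ^ (1 - θ) ≤
          ∑ e ∈ S, min (E.PsiN ((n + 1 + 1) * r) ((n + 1 + 1) * r) p e) t := by
      intro v hv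
      have hPv := hP0 v hv
      rcases le_or_gt (P v) t with hle | hlt
      · refine ⟨{v}, fun e he => ?_, ?_⟩
        · rw [mem_singleton] at he
          subst he
          exact ⟨hs₁ _ hv, subset_rfl⟩
        rw [sum_singleton]
        refine le_trans ?_ (le_min ((le_min le_rfl hle).trans
          ((min_le_left _ _).trans (hbase _ v))) hle)
        have h3 : κ ≤ P v ^ (1 - θ) := by
          refine (hκle v hv).trans ?_
          conv_lhs => rw [← Real.rpow_one (P v)]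
          exact Real.rpow_le_rpow_of_exponent_ge hPv ((hPhalf v).trans (by norm_num)) (by linarith)
        calc κ * P v ^ θ * t ^ (1 - θ) ≤ κ * P v ^ θ * 1 := mul_le_mul_of_nonneg_left
              (Real.rpow_le_one htpos.le ht1 (by linarith)) (by positivity)
          _ ≤ P v ^ (1 - θ) * P v ^ θ := by
              rw [mul_one]
              exact mul_le_mul_of_nonneg_right h3 (Real.rpow_nonneg hPv.le _)
          _ = P v := by rw [← Real.rpow_add hPv, sub_add_cancel, Real.rpow_one]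
      · obtain ⟨F, hFs, hF⟩ := ih (t / P v) (by
            rw [le_div_iff₀ hPv]
            refine le_trans (mul_le_mul_of_nonneg_left (hPhalf v) (by positivity)) ?_
            rw [← pow_succ]; exact ht0)
          ((div_le_one hPv).2 hlt.le)
        obtain ⟨S, hS, hSmin⟩ :=
          E.exists_step hp.le hp1 ρ ((n + 1) * r) ((n + 1) * r) (hs₁ v hv) F hFs
        refine ⟨S, hS, le_trans ?_ ((hSmin t htpos.le).trans (sum_le_sum fun e _ =>
          min_le_min_right t (E.psiN_mono ?_ ?_ hp.le hp1 e)))⟩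
        · calc κ * P v ^ θ * t ^ (1 - θ) = P v * (κ * (t / P v) ^ (1 - θ)) := by
                rw [Real.div_rpow htpos.le hPv.le]
                have h3 : P v ^ θ * P v ^ (1 - θ) = P v := by
                  rw [← Real.rpow_add hPv, add_sub_cancel, Real.rpow_one]
                have h4 : 0 < P v ^ (1 - θ) := Real.rpow_pos_of_pos hPv _
                field_simp
                exact h3
            _ ≤ P v * ∑ e ∈ F, min (E.PsiN ((n + 1) * r) ((n + 1) * r) p e) (t / P v) :=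
                mul_le_mul_of_nonneg_left hF hPv.le
            _ ≤ _ := by
                rw [mul_sum]
                refine sum_le_sum fun e _ => ?_
                rw [mul_min_of_nonneg _ _ hPv.le, mul_div_cancel₀ _ hPv.ne']
                exact min_le_min_right t (mul_le_mul_of_nonneg_right (hPblk v)
                  (E.psiN_nonneg _ _ hp.le hp1 e))
        · have e : (n + 1 + 1) * r = (n + 1) * r + r := by ring
          omega
        · have e : (n + 1 + 1) * r = (n + 1) * r + r := by ring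
          omega
    choose! S hS hSsum using hsub
    refine ⟨W₁.biUnion S, fun e he => ?_, ?_⟩
    · obtain ⟨v, hv, he⟩ := mem_biUnion.1 he
      exact (hS v hv e he).1
    rw [sum_biUnion (E.disjoint_of_below hW₁' hS)]
    calc κ * t ^ (1 - θ) ≤ κ * (∑ v ∈ W₁, P v ^ θ) * t ^ (1 - θ) := mul_le_mul_of_nonneg_right
          (le_mul_of_one_le_right hκ0.le hgt.le) (Real.rpow_nonneg htpos.le _)
      _ = ∑ v ∈ W₁, κ * P v ^ θ * t ^ (1 - θ) := by rw [mul_sum, sum_mul]
      _ ≤ _ := sum_le_sum hSsum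

/-- A target seen from the start through a frame. -/
theorem psiN_le_chain (h0 : 0 ≤ p) (h1 : p ≤ 1) {R n : ℕ} (hn : E.blk + R ≤ n) (i : Fin 3) (o : O)
    (e : X × X) :
    p ^ E.blk * E.PsiN R R p e ≤
      hitN E.nb (E.chainSet ((1 : Γ), o) i n) p ((1 : Γ), o) (E.pre (E.mv (E.σ i) e)) n := by
  classical
  obtain ⟨w, hw, hs⟩ := E.σ_path i o
  set S := E.chainSet ((1 : Γ), o) i n with hSdef
  have hmem : ∀ x, x ∈ S ↔ x ∈ E.ball ((1 : Γ), o) n ∧ E.Near ((1 : Γ), o) i x := fun x => by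
    rw [hSdef, chainSet, mem_filter]
  have hw' : ∀ x ∈ w.support, x ∈ S := fun x hx => by
    obtain ⟨r, hr, hd⟩ := hs x hx
    refine (hmem x).2 ⟨E.ball_mono _ (by omega) (E.covers_ball E.blk _ _ w hw x hx),
      r, hr.imp (fun h => by rw [h, E.pos_one]) (fun h => by rw [E.mv_one]; exact h), hd⟩
  have hS2 : (E.om R).image (tr (E.σ i)) ⊆ S := by
    intro x hx
    obtain ⟨y, hy, rfl⟩ := mem_image.1 hx
    obtain ⟨hy1, hy2⟩ := E.mem_om.1 hy
    have e1 : tr (E.σ i) E.a₁ = (E.σ i, E.o₁) := by simp [tr, a₁]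
    have h2 : tr (E.σ i) y ∈ E.ball (E.σ i, E.o₁) R := by
      rw [← e1, ← E.image_ball]
      exact mem_image_of_mem _ hy1
    refine (hmem _).2 ⟨E.ball_subset (E.covers_ball E.blk _ _ w hw _ w.end_mem_support) hn h2,
      E.pos (tr (E.σ i) y), Or.inr ?_, by rw [SimpleGraph.dist_self]; exact Nat.zero_le _⟩
    rw [E.mv_one, E.pos_tr]
    exact E.σ_maps i _ hy2
  have hmap := hitN_map E.hl (trIso E.hinv (E.σ i)) (E.om R) p E.a₁ (E.pre (E.mv (E.σ i) e)) R
  have e1 : trIso E.hinv (E.σ i) E.a₁ = (E.σ i, E.o₁) := by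
    show tr _ _ = _
    simp [tr, a₁]
  have e2 : (trIso E.hinv (E.σ i)) ⁻¹' E.pre (E.mv (E.σ i) e) = E.pre e := Set.ext fun x => by
    show E.pos (tr (E.σ i) x) ∈ sd E.T (E.mv (E.σ i) e) ↔ E.pos x ∈ sd E.T e
    rw [E.pos_tr, E.mem_mv]
  rw [e1, e2] at hmap
  calc p ^ E.blk * E.PsiN R R p e ≤ p ^ w.length *
        hitN E.nb S p (E.σ i, E.o₁) (E.pre (E.mv (E.σ i) e)) R := by
        refine mul_le_mul (pow_le_pow_of_le_one h0 h1 hw) (le_of_eq_of_le hmap.symm ?_)
          (E.psiN_nonneg _ _ h0 h1 e) (pow_nonneg h0 _)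
        exact hitN_mono E.hl hS2 Set.Subset.rfl le_rfl h0 h1 _
    _ ≤ hitN E.nb S p ((1 : Γ), o) (E.pre (E.mv (E.σ i) e)) (w.length + R) :=
        hitN_move E.hl h0 h1 w hw' _ R
    _ ≤ _ := hitN_mono E.hl Subset.rfl Set.Subset.rfl (by omega) h0 h1 _

/-- The targets of every level, in every frame, at one distance from `t₀`. -/
theorem exists_chains (hp : 0 < p) (hp1 : p ≤ 1) {θ δ : ℝ} (hθ : 0 < θ) (hθ1 : θ ≤ 1) (hδ : 0 < δ)
    (hnb : ¬ E.Bound p θ) :
    ∃ (κ : ℝ) (C : ℕ) (W : ℕ → Fin 3 → Finset (X × X)) (lev : ℕ → Fin 3 → ℕ), 0 < κ ∧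
      (∀ L i, ∀ e ∈ W L i, E.T.Adj e.1 e.2 ∧ sd E.T e ⊆ sd E.T (E.U i) ∧
        E.T.dist E.t₀ e.2 = lev L i ∧ E.T.dist E.t₀ e.1 < E.T.dist E.t₀ e.2) ∧
      ∀ L : ℕ, 1 ≤ L → ∀ (i : Fin 3) (o : O), κ * (L : ℝ) ^ (θ - δ) ≤
        ∑ e ∈ W L i, min ((L : ℝ) * hitN E.nb (E.chainSet ((1 : Γ), o) i (C * (Nat.log 2 L + 1))) p
          ((1 : Γ), o) (E.pre e) (C * (Nat.log 2 L + 1))) 1 := by
  classical
  obtain ⟨r, κ₀, hκ0, hstop⟩ := E.exists_stop hp hp1 hθ hθ1 hnb
  set C := E.blk + 2 * r + 1 with hC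
  set G : ℝ := (C : ℝ) * E.D + 1 with hG
  set Λ : ℝ := G * (1 / (δ * Real.log 2) + 1) with hΛ
  have hl2 : (0 : ℝ) < Real.log 2 := Real.log_pos one_lt_two
  have hΛ0 : 0 < Λ := by positivity
  set κ : ℝ := p ^ E.blk * κ₀ / Λ
  have hκ : 0 < κ := by positivity
  have key : ∀ (L : ℕ) (i : Fin 3), ∃ (W : Finset (X × X)) (l : ℕ),
      (∀ e ∈ W, E.T.Adj e.1 e.2 ∧ sd E.T e ⊆ sd E.T (E.U i) ∧ E.T.dist E.t₀ e.2 = l ∧
        E.T.dist E.t₀ e.1 < E.T.dist E.t₀ e.2) ∧ (1 ≤ L → ∀ o : O, κ * (L : ℝ) ^ (θ - δ) ≤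
        ∑ e ∈ W, min ((L : ℝ) * hitN E.nb (E.chainSet ((1 : Γ), o) i (C * (Nat.log 2 L + 1))) p
          ((1 : Γ), o) (E.pre e) (C * (Nat.log 2 L + 1))) 1) := by
    intro L i
    rcases Nat.eq_zero_or_pos L with rfl | hL
    · exact ⟨∅, 0, by simp, fun h => absurd h (by norm_num)⟩
    set lg := Nat.log 2 L with hlg
    set n := C * (lg + 1)
    set R := (lg + 1 + 1) * r
    have hLpos : (0 : ℝ) < L := by exact_mod_cast hL
    have hsmall : (1 / 2 : ℝ) ^ (lg + 1) ≤ 1 / L := by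
      rw [one_div_pow]
      refine one_div_le_one_div_of_le hLpos ?_
      have h := Nat.lt_pow_succ_log_self one_lt_two L
      calc (L : ℝ) ≤ ((2 ^ (lg + 1) : ℕ) : ℝ) := by exact_mod_cast h.le
        _ = 2 ^ (lg + 1) := by push_cast; ring
    obtain ⟨F, hFs, hF⟩ := hstop (lg + 1) (1 / L) hsmall
      ((div_le_one hLpos).2 (by exact_mod_cast hL))
    have hn : E.blk + R ≤ n := by
      have e1 : R = (lg + 1) * r + r := by ring
      have e2 : n = E.blk * (lg + 1) + 2 * ((lg + 1) * r) + (lg + 1) := by simp only [n, hC]; ring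
      have e3 : E.blk ≤ E.blk * (lg + 1) := Nat.le_mul_of_pos_right _ (Nat.succ_pos _)
      have e4 : r ≤ (lg + 1) * r := Nat.le_mul_of_pos_left _ (Nat.succ_pos _)
      omega
    set g : X × X → ℝ := fun e => p ^ E.blk * min ((L : ℝ) * E.PsiN R R p e) 1 with hg
    have hg0 : ∀ e, 0 ≤ g e := fun e => mul_nonneg (pow_nonneg hp.le _)
      (le_min (mul_nonneg hLpos.le (E.psiN_nonneg _ _ hp.le hp1 e)) zero_le_one)
    set F' := F.filter fun e => 0 < E.PsiN R R p e
    set lev : X × X → ℕ := fun e => E.T.dist E.t₀ (E.mv (E.σ i) e).2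
    have hsub : ∀ e ∈ F, sd E.T (E.mv (E.σ i) e) ⊆ sd E.T (E.U i) := fun e he q hq => by
      rw [E.mem_mv_iff] at hq
      have := E.σ_maps i _ (E.notMem_b₀ (Set.disjoint_left.1 (hFs e he).2.2 hq))
      rwa [E.act_act_inv] at this
    have hlev : ∀ e ∈ F', lev e ∈ range (E.D * n + 1) := by
      intro e he
      obtain ⟨heF, hpos⟩ := mem_filter.1 he
      have ha : E.pos ((1 : Γ), E.o₁) ∉ sd E.T (E.mv (E.σ i) e) := fun h => by
        rw [E.pos_one] at h
        exact E.t₀_U i (hsub e heF h)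
      have h2 := E.dist_head_le (n := n) (S := E.chainSet ((1 : Γ), E.o₁) i n)
        (fun x hx => by rw [chainSet, mem_filter] at hx; exact hx.1) (E.adj_mv (hFs e heF).1) ha
        (p := p) (k := n)
        ((mul_pos (pow_pos hp _) hpos).trans_le (E.psiN_le_chain hp.le hp1 hn i E.o₁ e))
      rw [E.pos_one] at h2
      exact mem_range.2 (Nat.lt_succ_of_le h2)
    obtain ⟨l, -, hl⟩ : ∃ l ∈ range (E.D * n + 1),
        ∑ e ∈ F', g e ≤ ((E.D * n + 1 : ℕ) : ℝ) * ∑ e ∈ F'.filter (fun e => lev e = l), g e := by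
      obtain ⟨l, hl, hmax⟩ := exists_max_image (range (E.D * n + 1))
        (fun l => ∑ e ∈ F'.filter (fun e => lev e = l), g e)
        ⟨0, mem_range.2 (Nat.succ_pos _)⟩
      refine ⟨l, hl, ?_⟩
      rw [← sum_fiberwise_of_maps_to hlev]
      exact (sum_le_card_nsmul _ _ _ fun l' hl' => hmax l' hl').trans
        (le_of_eq (by rw [card_range, nsmul_eq_mul]))
    refine ⟨(F'.filter fun e => lev e = l).image (E.mv (E.σ i)), l, fun e' he' => ?_,
      fun _ o => ?_⟩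
    · obtain ⟨e, he, rfl⟩ := mem_image.1 he'
      obtain ⟨he1, he2⟩ := mem_filter.1 he
      have heF := (mem_filter.1 he1).1
      refine ⟨E.adj_mv (hFs e heF).1, hsub e heF, he2, ?_⟩
      have h2 : E.t₀ ∉ sd E.T (E.mv (E.σ i) e) := fun h => E.t₀_U i (hsub e heF h)
      rw [mem_sd, not_lt] at h2
      rcases adj_dist E.isTree (E.adj_mv (γ := E.σ i) (hFs e heF).1) E.t₀ with h | h <;> omega
    rw [sum_image fun a _ b _ h => E.mv_injective _ h]
    refine le_trans ?_ (sum_le_sum (f := g) fun e _ => ?_)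
    rotate_left
    · refine le_min ?_ ((mul_le_of_le_one_left (le_min (mul_nonneg hLpos.le
        (E.psiN_nonneg _ _ hp.le hp1 e)) zero_le_one) (pow_le_one₀ hp.le hp1)).trans
        (min_le_right _ _))
      calc g e ≤ p ^ E.blk * ((L : ℝ) * E.PsiN R R p e) :=
            mul_le_mul_of_nonneg_left (min_le_left _ _) (pow_nonneg hp.le _)
        _ = (L : ℝ) * (p ^ E.blk * E.PsiN R R p e) := by ring
        _ ≤ _ := mul_le_mul_of_nonneg_left (E.psiN_le_chain hp.le hp1 hn i o e) hLpos.le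
    have htot : p ^ E.blk * κ₀ * (L : ℝ) ^ θ ≤ ∑ e ∈ F', g e := by
      have h2 : ∑ e ∈ F', g e = ∑ e ∈ F, g e := sum_filter_of_ne fun e _ hne => by
        refine lt_of_le_of_ne (E.psiN_nonneg _ _ hp.le hp1 e) fun h => hne ?_
        simp [hg, ← h]
      rw [h2]
      simp only [hg, ← mul_sum]
      rw [mul_assoc]
      refine mul_le_mul_of_nonneg_left ?_ (pow_nonneg hp.le _)
      have h3 := mul_le_mul_of_nonneg_left hF hLpos.le
      rw [mul_sum] at h3
      refine le_trans (le_of_eq ?_) (h3.trans (le_of_eq (sum_congr rfl fun e _ => ?_)))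
      · rw [one_div, Real.inv_rpow hLpos.le, ← Real.rpow_neg hLpos.le, mul_left_comm]
        congr 1
        conv_rhs => enter [1]; rw [← Real.rpow_one (L : ℝ)]
        rw [← Real.rpow_add hLpos]
        ring_nf
      · rw [mul_min_of_nonneg _ _ hLpos.le, mul_one_div_cancel hLpos.ne']
    have hN : ((E.D * n + 1 : ℕ) : ℝ) ≤ Λ * (L : ℝ) ^ δ := by
      have h2 := FQ.log_steps_le 1 hL hδ
      rw [one_mul, Nat.cast_one, one_mul] at h2
      calc ((E.D * n + 1 : ℕ) : ℝ) = (C : ℝ) * E.D * ((lg + 1 : ℕ) : ℝ) + 1 := by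
            simp only [n]; push_cast; ring
        _ ≤ G * ((lg + 1 : ℕ) : ℝ) := by
            rw [hG]
            push_cast
            nlinarith [(Nat.cast_nonneg lg : (0 : ℝ) ≤ lg)]
        _ ≤ G * ((1 / (δ * Real.log 2) + 1) * (L : ℝ) ^ δ) :=
            mul_le_mul_of_nonneg_left h2 (by positivity)
        _ = _ := by ring
    set Sl := ∑ e ∈ F'.filter (fun e => lev e = l), g e
    have hS0 : 0 ≤ Sl := sum_nonneg fun e _ => hg0 e
    have h4 := htot.trans (hl.trans (mul_le_mul_of_nonneg_right hN hS0))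
    rw [Real.rpow_sub hLpos]
    simp only [κ]
    rw [div_mul_div_comm, div_le_iff₀ (by positivity)]
    linarith
  choose W lev hmem hch using key
  exact ⟨κ, C, W, lev, hκ, hmem, fun L hL i o => hch L i hL o⟩

variable [Fintype O]

/-- The data at the last subcritical parameter. -/
theorem dataExists {ps : ℝ} (hs : FQ.Sub E.nb ps) : E.DataExists ps := by
  have hB : E.Bound ps 1 := E.bound_of_sub (fun p h0 h1 => E.joinSum h0 h1) hs
  obtain ⟨θ₀, hθ₀, hexp⟩ := E.exists_exponents hs.1 hs.2.1 hB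
  refine ⟨θ₀, hθ₀, fun δ hδ hδ1 => ?_⟩
  obtain ⟨θ, θ', hθ, hle, hθ'1, hratio, hbound, hnb⟩ := hexp δ hδ hδ1
  have hθpos : 0 < θ := hθ₀.trans_le hθ
  obtain ⟨κ, C, W, lev, hκ, hmem, hch⟩ :=
    E.exists_chains hs.1 hs.2.1 hθpos (hle.trans hθ'1) hδ hnb
  obtain ⟨M, hM, hshort⟩ := E.exists_short hs C hδ
  exact ⟨{ θ := θ
           θ' := θ'
           κ := κ
           C := C
           M := M
           W := W
           lev := lev
           θ_pos := hθpos
           θ_le := hle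
           θ'_le_one := hθ'1
           ratio := hratio
           bound := hbound
           κ_pos := hκ
           mem := hmem
           chain := hch
           M_nonneg := hM
           short := hshort }, hθ⟩

end Vale.Agent.P165.TR.Env
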