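import Vale.Agent.P165.TR.Basic
import Vale.Agent.P165.FQ.Data

/-!
# The bound on disjoint targets, its exponent, and the short volume

Below the last subcritical parameter the sums of `Psi` are bounded, so joining makes the bound hold
there and, by continuity, at that parameter. It fails for small exponents.
-/

namespace Vale.Agent.P165.TR

open Finset FF Filter Topology
open Vale.Agent.P165.FP (hit hit_nonneg hit_le_one hit_mono hit_continuous hit_self hit_move)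

namespace Env

variable {Γ O ι X : Type} [Group Γ] [Fintype ι] (E : Env Γ O ι X)

theorem c₁_pos {p : ℝ} (hp : 0 < p) : 0 < E.c₁ p := div_pos (pow_pos hp _) two_pos

theorem c₁_nonneg {p : ℝ} (hp : 0 ≤ p) : 0 ≤ E.c₁ p := div_nonneg (pow_nonneg hp _) two_pos.le

theorem c₁_le_half {p : ℝ} (h0 : 0 ≤ p) (h1 : p ≤ 1) : E.c₁ p ≤ 1 / 2 :=
  div_le_div_of_nonneg_right (pow_le_one₀ h0 h1) two_pos.le

theorem c₁_le_one {p : ℝ} (h0 : 0 ≤ p) (h1 : p ≤ 1) : E.c₁ p ≤ 1 :=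
  (E.c₁_le_half h0 h1).trans (by norm_num)

theorem continuous_c₁ : Continuous fun p : ℝ => E.c₁ p := (continuous_pow _).div_const _

theorem strict_U (i : Fin 3) : E.Strict (E.U i) := ⟨E.adj_U i, E.t₀_U i, E.U_b₁ i⟩

theorem U_injective : Function.Injective E.U := by
  intro i j h
  by_contra hne
  exact Set.disjoint_left.1 (E.U_apart i j hne) (head_mem_sd (E.adj_U i))
    (h ▸ head_mem_sd (E.adj_U i))

theorem apart_U (I : Finset (Fin 3)) [DecidableEq X] : E.Apart (I.image E.U) := by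
  intro e he e' he' hne
  obtain ⟨i, -, rfl⟩ := mem_image.1 (mem_coe.1 he)
  obtain ⟨j, -, rfl⟩ := mem_image.1 (mem_coe.1 he')
  exact E.U_apart i j fun h => hne (h ▸ rfl)

variable [DecidableEq Γ] [DecidableEq O] {p : ℝ}

theorem psi_nonneg (ρ : ℕ) (h0 : 0 ≤ p) (h1 : p ≤ 1) (e : X × X) : 0 ≤ E.Psi ρ p e :=
  hit_nonneg _ h0 h1 _ _

theorem psi_le_one (ρ : ℕ) (h0 : 0 ≤ p) (h1 : p ≤ 1) (e : X × X) : E.Psi ρ p e ≤ 1 :=
  hit_le_one _ h0 h1 _ _

theorem om_mono {ρ ρ' : ℕ} (h : ρ ≤ ρ') : E.om ρ ⊆ E.om ρ' := by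
  classical
  exact filter_subset_filter _ (E.ball_mono _ h)

theorem psi_mono {ρ ρ' : ℕ} (h : ρ ≤ ρ') (h0 : 0 ≤ p) (h1 : p ≤ 1) (e : X × X) :
    E.Psi ρ p e ≤ E.Psi ρ' p e :=
  hit_mono E.hl (E.om_mono h) Set.Subset.rfl h0 h1 _

theorem continuous_psi (ρ : ℕ) (e : X × X) : Continuous fun p : ℝ => E.Psi ρ p e :=
  hit_continuous _ _ _

omit [DecidableEq Γ] [DecidableEq O] in
theorem not_mem_pre_anchor {e : X × X} (he : E.Strict e) : E.a₁ ∉ E.pre e := by
  simpa [pre, pos, a₁] using he.2.1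

/-- The three targets at `t₀` are reached. -/
theorem psi_U_pos (i : Fin 3) (hp : 0 < p) (h1 : p ≤ 1) : 0 < E.Psi E.blk p (E.U i) := by
  classical
  obtain ⟨w, hw, hsup⟩ := E.σ_path i E.o₁
  have hσ : (E.σ i, E.o₁) ∈ E.pre (E.U i) := by
    show E.act (E.σ i) E.t₀ ∈ sd E.T (E.U i)
    exact E.σ_maps i _ fun h => E.t₀_b₁ (E.sd_b₀ h)
  have hS : ∀ v ∈ w.support, v ∈ E.om E.blk := by
    intro v hv
    obtain ⟨q, hq, hd⟩ := hsup v hv
    refine mem_filter.2 ⟨E.covers_ball _ _ _ w hw v hv, ?_⟩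
    refine E.margin q _ ?_ (hd.trans (Nat.le_add_right _ _))
    rcases hq with rfl | hq
    · exact E.t₀_b₁
    · exact Set.disjoint_left.1 (E.U_b₁ i) hq
  have h := hit_move E.hl (nb := E.nb) hp.le h1 w hS (E.pre (E.U i))
  rw [hit_self _ _ hσ, mul_one] at h
  exact lt_of_lt_of_le (pow_pos hp _) h

theorem isClosed_bound : IsClosed {p : ℝ | E.Bound p 1} := by
  simp only [Bound, Real.rpow_one, Set.ofPred_forall]
  exact isClosed_iInter fun ρ => isClosed_iInter fun W => isClosed_iInter fun _ =>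
    isClosed_iInter fun _ => isClosed_le
      (E.continuous_c₁.mul (continuous_finsetSum _ fun e _ => E.continuous_psi ρ e)) continuous_const

/-- The bound passes to larger exponents. -/
theorem bound_mono (hp : 0 ≤ p) (hp1 : p ≤ 1) {θ θ' : ℝ} (hθ : 0 ≤ θ) (h : θ ≤ θ')
    (hB : E.Bound p θ) : E.Bound p θ' := by
  intro ρ W hW hs
  have hc := E.c₁_nonneg hp
  refine le_trans (mul_le_mul (Real.rpow_le_rpow_of_exponent_ge' hc (E.c₁_le_one hp hp1) hθ h)
    (sum_le_sum fun v _ => Real.rpow_le_rpow_of_exponent_ge' (E.psi_nonneg ρ hp hp1 v)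
      (E.psi_le_one ρ hp hp1 v) hθ h)
    (sum_nonneg fun v _ => Real.rpow_nonneg (E.psi_nonneg ρ hp hp1 v) _) (Real.rpow_nonneg hc _))
    (hB ρ W hW hs)

/-- The bound fails for small exponents. -/
theorem exists_not_bound (hp : 0 < p) (hp1 : p ≤ 1) : ∃ θ : ℝ, 0 < θ ∧ ¬ E.Bound p θ := by
  classical
  set W : Finset (X × X) := (univ : Finset (Fin 3)).image E.U with hW
  have hcard : 2 ≤ W.card := by
    rw [hW, card_image_of_injective _ E.U_injective, card_univ, Fintype.card_fin]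
    norm_num
  set f : ℝ → ℝ := fun θ => E.c₁ p ^ θ * ∑ e ∈ W, E.Psi E.blk p e ^ θ
  have hf : Continuous f := (Real.continuous_const_rpow (E.c₁_pos hp).ne').mul
    (continuous_finsetSum _ fun e he => by
      obtain ⟨i, -, rfl⟩ := mem_image.1 he
      exact Real.continuous_const_rpow (E.psi_U_pos i hp hp1).ne')
  have h0 : 1 < f 0 := by
    simp only [f, Real.rpow_zero, sum_const, nsmul_eq_mul, mul_one, one_mul]
    exact_mod_cast (by omega : 1 < W.card)
  obtain ⟨ε, hε, hb⟩ := Metric.eventually_nhds_iff.1 ((hf.tendsto 0).eventually_const_lt h0)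
  refine ⟨ε / 2, half_pos hε, fun hB => not_le.2 (hb (y := ε / 2) ?_)
    (hB E.blk W (E.apart_U _) ?_)⟩
  · rw [Real.dist_eq, sub_zero, abs_of_pos (half_pos hε)]; linarith
  · intro e he
    obtain ⟨i, -, rfl⟩ := mem_image.1 he
    exact E.strict_U i

/-- Two exponents as close as wanted on either side of the critical one, bounded below. -/
theorem exists_exponents (hp : 0 < p) (hp1 : p ≤ 1) (hB : E.Bound p 1) :
    ∃ θ₀ : ℝ, 0 < θ₀ ∧ ∀ δ : ℝ, 0 < δ → δ < 1 / 2 → ∃ θ θ' : ℝ, θ₀ ≤ θ ∧ θ ≤ θ' ∧ θ' ≤ 1 ∧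
      θ' * (1 - δ) ≤ θ ∧ E.Bound p θ' ∧ ¬ E.Bound p θ := by
  obtain ⟨θ₁, hθ₁, hn₁⟩ := E.exists_not_bound hp hp1
  set A := {θ : ℝ | 0 < θ ∧ E.Bound p θ}
  have hA : (1 : ℝ) ∈ A := ⟨one_pos, hB⟩
  have hlow : θ₁ ≤ sInf A := le_csInf ⟨1, hA⟩ fun θ hθ => by
    by_contra hc
    exact hn₁ (E.bound_mono hp.le hp1 hθ.1.le (not_le.1 hc).le hθ.2)
  set s := sInf A
  have hs : 0 < s := hθ₁.trans_le hlow
  have hs1 : s ≤ 1 := csInf_le ⟨0, fun θ hθ => hθ.1.le⟩ hA
  refine ⟨s / 2, half_pos hs, fun δ hδ hδ1 => ⟨s * (1 - δ / 2), min 1 (s * (1 + δ / 2)),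
    by nlinarith, le_min (by nlinarith) (by nlinarith), min_le_left _ _, ?_, ?_, fun h => ?_⟩⟩
  · refine le_trans (mul_le_mul_of_nonneg_right (min_le_right _ _) (by linarith)) ?_
    nlinarith [mul_pos hs (mul_pos hδ hδ)]
  · rcases le_total 1 (s * (1 + δ / 2)) with h | h
    · rw [min_eq_left h]; exact hB
    · rw [min_eq_right h]
      obtain ⟨θ, hθA, hlt⟩ := exists_lt_of_csInf_lt ⟨1, hA⟩ (show s < s * (1 + δ / 2) by nlinarith)
      exact E.bound_mono hp.le hp1 hθA.1.le hlt.le hθA.2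
  · have hθ : 0 < s * (1 - δ / 2) := mul_pos hs (by linarith)
    have := csInf_le ⟨0, fun θ (hθ : θ ∈ A) => hθ.1.le⟩
      (show s * (1 - δ / 2) ∈ A from ⟨hθ, h⟩)
    change s ≤ _ at this
    nlinarith

/-- Joining a family with disjoint half trees with any other family. -/
def JoinSum (p : ℝ) : Prop :=
  ∀ (ρ ρ' : ℕ) (W W' : Finset (X × X)), E.Apart W → (∀ e ∈ W, E.Strict e) →
    (∀ e ∈ W', E.Strict e) → ∃ (ρ'' : ℕ) (W'' : Finset (X × X)), (∀ e ∈ W'', E.Strict e) ∧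
      E.c₁ p * (∑ e ∈ W, E.Psi ρ p e) * (∑ e ∈ W', E.Psi ρ' p e) ≤ ∑ e ∈ W'', E.Psi ρ'' p e

variable [Fintype O]

open Classical in
/-- With finite susceptibility the sums of `Psi` are bounded, however much the targets overlap. -/
theorem exists_sum_psi_le (h0 : 0 ≤ p) (h1 : p ≤ 1) (hw : Witness E.nb p) :
    ∃ B : ℝ, ∀ (ρ : ℕ) (W : Finset (X × X)), (∀ e ∈ W, E.Strict e) →
      ∑ e ∈ W, E.Psi ρ p e ≤ B := by
  obtain ⟨S, hS⟩ := susceptibility E.hl E.hinv h0 h1 hw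
  refine ⟨((Fintype.card ι * E.D : ℕ) : ℝ) * S, fun ρ W hs => ?_⟩
  set τ : Γ × O → ℝ := fun y => tauIn E.nb (E.om ρ) p E.a₁ y
  have hτ : ∀ y, 0 ≤ τ y := fun y => FF.tauIn_nonneg (nb := E.nb) (E.om ρ) h0 h1 _ y
  have hgate : ∀ e ∈ W, E.Psi ρ p e ≤ ∑ y ∈ (E.om ρ).filter (E.Gate e), τ y := by
    intro e he
    simp only [τ, FF.tauIn_eq, ← avg_sum, Psi, hit]
    refine avg_mono _ h0 h1 fun η hη => ?_
    by_cases hh : FXZ.Hit (E.pre e) E.a₁ η
    swap
    · exact le_trans (le_of_eq (if_neg hh)) (sum_nonneg fun _ _ => ind_nonneg _)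
    obtain ⟨t, ht, ⟨π⟩⟩ := hh
    rcases exit_split (E.pre e)ᶜ π (E.not_mem_pre_anchor (hs e he)) with
      hin | ⟨a, b, w1, hab, w2, ha, hb, -, hed, -⟩
    · exact absurd ht (hin t π.end_mem_support)
    have hbη : s(a, b) ∈ η := by
      have := π.edges_subset_edgeSet (show s(a, b) ∈ π.edges by simp [hed])
      rw [SimpleGraph.edgeSet_fromEdgeSet] at this
      exact this.1
    obtain ⟨hG, hb'⟩ := (inE_iff E.hl).1 (hη hbη)
    have hz : b ∈ (E.om ρ).filter (E.Gate e) :=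
      mem_filter.2 ⟨hb' b (Sym2.mem_mk_right a b), by simpa [pre] using hb, a, hG,
        by simpa [pre] using ha⟩
    refine le_trans (ind_le_one _) (le_trans ?_ (single_le_sum
      (f := fun y => ind (cl η E.a₁ y)) (fun _ _ => ind_nonneg _) hz))
    exact le_of_eq (if_pos (w1.reachable.trans hab.reachable : cl η _ b)).symm
  refine (sum_le_sum hgate).trans ?_
  rw [sum_comm' (t' := E.om ρ) (s' := fun y => W.filter fun e => E.Gate e y)
    (fun e y => ⟨fun h => ⟨mem_filter.2 ⟨h.1, (mem_filter.1 h.2).2⟩, (mem_filter.1 h.2).1⟩,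
      fun h => ⟨(mem_filter.1 h.1).1, mem_filter.2 ⟨h.2, (mem_filter.1 h.1).2⟩⟩⟩)]
  refine (sum_le_sum (g := fun y => ((Fintype.card ι * E.D : ℕ) : ℝ) * τ y) fun y _ => ?_).trans ?_
  · rw [sum_const, nsmul_eq_mul]
    exact mul_le_mul_of_nonneg_right (Nat.cast_le.2 (E.gate_count y W fun e he => (hs e he).1))
      (hτ y)
  · rw [← mul_sum]
    exact mul_le_mul_of_nonneg_left (hS _ _ _) (Nat.cast_nonneg _)

/-- Below the last parameter the bound holds, since joining would make the sums unbounded. -/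
theorem bound_of_witness (hp : 0 < p) (hp1 : p ≤ 1) (hjoin : E.JoinSum p) (hw : Witness E.nb p) : E.Bound p 1 := by
  obtain ⟨B, hB⟩ := E.exists_sum_psi_le hp.le hp1 hw
  intro ρ W hW hs
  simp only [Real.rpow_one]
  by_contra hlt
  push Not at hlt
  set g : ℝ := E.c₁ p * ∑ e ∈ W, E.Psi ρ p e
  have hpow : ∀ n : ℕ, ∃ (ρ' : ℕ) (W' : Finset (X × X)), (∀ e ∈ W', E.Strict e) ∧
      g ^ (n + 1) ≤ E.c₁ p * ∑ e ∈ W', E.Psi ρ' p e := by
    intro n
    induction n with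
    | zero => exact ⟨ρ, W, hs, le_of_eq (pow_one _)⟩
    | succ n ih =>
      obtain ⟨ρ', W', hs', hle⟩ := ih
      obtain ⟨ρ'', W'', hs'', hj⟩ := hjoin ρ ρ' W W' hW hs hs'
      refine ⟨ρ'', W'', hs'', ?_⟩
      rw [pow_succ']
      refine (mul_le_mul_of_nonneg_left hle (by linarith)).trans
        (le_of_eq_of_le ?_ (mul_le_mul_of_nonneg_left hj (E.c₁_nonneg hp.le)))
      simp only [g]
      ring
  obtain ⟨n, hn⟩ := eventually_atTop.1
    ((tendsto_pow_atTop_atTop_of_one_lt hlt).eventually (eventually_gt_atTop (E.c₁ p * B)))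
  obtain ⟨ρ', W', hs', hle⟩ := hpow n
  have h2 := hn (n + 1) (Nat.le_succ n)
  have h3 := mul_le_mul_of_nonneg_left (hB ρ' W' hs') (E.c₁_nonneg hp.le)
  linarith

/-- The bound at the last subcritical parameter. -/
theorem bound_of_sub {ps : ℝ} (hjoin : ∀ p, 0 ≤ p → p ≤ 1 → E.JoinSum p) (hs : FQ.Sub E.nb ps) : E.Bound ps 1 := by
  obtain ⟨h0, h1, hw⟩ := hs
  have hmem : ps ∈ closure (Set.Ioo 0 ps) := by
    rw [closure_Ioo h0.ne]; exact Set.right_mem_Icc.2 h0.le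
  exact closure_minimal (fun p hp => E.bound_of_witness hp.1 (hp.2.le.trans h1)
    (hjoin p hp.1.le (hp.2.le.trans h1)) (hw p hp.1.le hp.2)) E.isClosed_bound hmem

/-- The volume of short connections is subexponential at the last subcritical parameter. -/
theorem vol_subexp {ps : ℝ} (hs : FQ.Sub E.nb ps) {η : ℝ} (hη : 0 < η) :
    ∃ K : ℝ, ∀ n : ℕ, E.vol ps n ≤ K * Real.exp (η * n) := by
  obtain ⟨h0, h1, hw⟩ := hs
  set q := Real.exp (-η)
  have hq : 0 < q := Real.exp_pos _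
  have hq1 : q < 1 := Real.exp_lt_one_iff.2 (by linarith)
  have hpq : ps * q < ps := by nlinarith
  have hpq0 : 0 ≤ ps * q := by positivity
  obtain ⟨S, hS⟩ := susceptibility E.hl E.hinv hpq0 (hpq.le.trans h1) (hw _ hpq0 hpq)
  refine ⟨(Fintype.card O : ℝ) * S, fun n => ?_⟩
  have h2 : q ^ n * E.vol ps n ≤ (Fintype.card O : ℝ) * S := by
    calc q ^ n * E.vol ps n
        = ∑ o : O, ∑ y ∈ E.ball ((1 : Γ), o) n, q ^ n * E.tau ps n ((1 : Γ), o) y := by
          simp only [vol, mul_sum]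
      _ ≤ ∑ _o : O, S := sum_le_sum fun o _ => le_trans (sum_le_sum fun y _ =>
            (FQ.thin_tauW _ h0.le h1 hq.le hq1.le _ y n).trans
              (FQ.tauW_le_tauIn _ hpq0 (hpq.le.trans h1) _ y n)) (hS _ _ _)
      _ = (Fintype.card O : ℝ) * S := by simp
  have e : Real.exp (η * n) = (q ^ n)⁻¹ := by
    rw [← Real.exp_nat_mul, ← Real.exp_neg]
    congr 1
    ring
  rw [e, ← div_eq_mul_inv, le_div_iff₀ (pow_pos hq n), mul_comm]
  exact h2

/-- The short balls cost a small power of the level. -/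
theorem exists_short {ps : ℝ} (hs : FQ.Sub E.nb ps) (C : ℕ) {δ : ℝ} (hδ : 0 < δ) :
    ∃ M : ℝ, 0 ≤ M ∧ ∀ L : ℕ, 1 ≤ L →
      ((C * (Nat.log 2 L + 1) : ℕ) + 1 : ℝ) * E.vol ps (C * (Nat.log 2 L + 1)) ≤
        M * (L : ℝ) ^ δ :=
  FQ.log_range_le (fun n => E.vol_nonneg hs.1.le hs.2.1 n) (fun _ hη => E.vol_subexp hs hη) C hδ

end Env

end Vale.Agent.P165.TR
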