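import Vale.Agent.P165.TR.Basic
import Vale.Agent.P165.FQ.Entrance
import Vale.Agent.P165.TA.CutArith

/-!
# Cuts along a segment of the tree

Seen from `x`, the points projecting to a far point of the segment towards a root are reached through
the gates of all edges in between, whose total is bounded by the tail; cutting a fixed number of times
makes their mass any power of the tail over the distance.
-/

namespace Vale.Agent.P165.TR

open TL

variable {X : Type} {T : SimpleGraph X}

/-- The edge number `i` of the segment from `a` to `b`. -/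
noncomputable def seg (T : SimpleGraph X) (a b : X) (i : ℕ) : X × X :=
  (pt T a b i, pt T a b (i + 1))

theorem seg_adj (hT : T.IsTree) {a b : X} {i : ℕ} (hi : i < T.dist a b) :
    T.Adj (seg T a b i).1 (seg T a b i).2 :=
  adj_pt hT hi

theorem seg_left (hT : T.IsTree) {a b : X} {i : ℕ} (hi : i < T.dist a b) :
    a ∉ sd T (seg T a b i) := by
  rw [mem_sd, seg, (dist_pt hT hi).1, (dist_pt hT hi.le).1]
  omega

theorem seg_right (hT : T.IsTree) {a b : X} {i : ℕ} (hi : i < T.dist a b) :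
    b ∈ sd T (seg T a b i) := by
  rw [mem_sd, seg, T.dist_comm (u := b), T.dist_comm (u := b), (dist_pt hT hi).2,
    (dist_pt hT hi.le).2]
  omega

/-- Geodesics with a common start cross the same edges. -/
theorem seg_of_gp (hT : T.IsTree) {a b q : X} {i : ℕ} (h : i < gp T a q b) :
    q ∈ sd T (seg T a b i) := by
  obtain ⟨h1, -, h3, -⟩ := gp_spec hT a q b
  rw [seg, ← h3 i h.le, ← h3 (i + 1) h]
  exact seg_right hT (h.trans_le h1)

/-- Seen from inside a half tree, all points outside are in one direction. -/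
theorem gp_across (hT : T.IsTree) {e : X × X} (he : T.Adj e.1 e.2) {y r a a' : X}
    (hy : y ∈ sd T e) (hr : r ∈ sd T e) (ha : a ∉ sd T e) (ha' : a' ∉ sd T e) :
    gp T y a r = gp T y a' r := by
  have h1 := (gp_spec hT y a r).2.2.2.2
  have h2 := (gp_spec hT y a' r).2.2.2.2
  have h3 := dist_across hT he hy ha
  have h4 := dist_across hT he hy ha'
  have h5 := dist_across hT he hr ha
  have h6 := dist_across hT he hr ha'
  rw [T.dist_comm (u := a) (v := r)] at h1
  rw [T.dist_comm (u := a') (v := r)] at h2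
  omega

namespace Env

open Finset
open Vale.Agent.P165.FQ (tauW)

variable {Γ O ι : Type} [Group Γ] [Fintype ι] (E : Env Γ O ι X)

/-- An anchor just outside a half tree entered at `z`. -/
theorem exists_anchor {e : X × X} (he : E.T.Adj e.1 e.2) {z : Γ × O} (h : E.Gate e z) :
    ∃ ψ, E.Joined ψ E.blk z ∧ ∀ q ∈ sd E.T e, q ∉ sd E.T (E.mv ψ E.b₁) := by
  obtain ⟨-, x, hadj, hx⟩ := h
  obtain ⟨i, hi⟩ := E.avoid_at x e.2 e.2
  refine ⟨x.1 * E.τ i, E.τ_path i x z (Or.inr hadj.symm), fun q hq hmem => ?_⟩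
  have hU : q ∈ sd E.T (E.mv x.1 (E.U i)) := by
    rw [E.mv_mul, E.mem_mv_iff] at hmem
    rw [E.mem_mv_iff]
    have h2 := E.τ_maps i _ ((E.mem_mv_iff (E.τ i) E.b₁ _).1 hmem)
    rwa [E.act_act_inv] at h2
  have hback := mem_sd_of_gp E.isTree (e := e.swap) ((notMem_sd_iff E.isTree he).1 hx) (hi q hU).1
  exact (notMem_sd_iff E.isTree he).2 hback hq

variable {E} [DecidableEq Γ] [DecidableEq O] {p : ℝ} {K : ℕ} {B : ℝ}

/-- The tail from a gate, for the points at one distance from a segment through the edge. -/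
theorem gate_tail (h0 : 0 < p) (hT : E.TailLe p K B) {e : X × X} (he : E.T.Adj e.1 e.2)
    {z : Γ × O} (hz : E.Gate e z) {a r : X} (ha : a ∉ sd E.T e) (hr : r ∈ sd E.T e) (d : ℕ)
    (S Y : Finset (Γ × O)) (hS : ∀ v ∈ S, E.pos v ∈ sd E.T e)
    (hY : ∀ y ∈ Y, E.pos y ∈ sd E.T e ∧ gp E.T (E.pos y) a r = d) :
    ∑ y ∈ Y, tauW E.nb S p z y K ≤ B / p ^ E.blk := by
  obtain ⟨ψ, hj, hψ⟩ := E.exists_anchor he hz
  rw [le_div_iff₀' (pow_pos h0 _)]
  refine hT ψ E.blk z hj r d S Y (fun v hv hb => hψ _ (hS v hv) ?_) fun y hy => ⟨hψ _ (hY y hy).1, ?_⟩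
  · exact E.subset_mv E.sd_b₀ hb
  · rw [gp_across E.isTree he (hY y hy).1 hr (fun h => hψ _ h (E.b₁_head ψ)) ha]
    exact (hY y hy).2

/-- The gates of a long stretch of the segment have bounded total. -/
theorem gates_le (h0 : 0 < p) (hT : E.TailLe p K B) {a r : X} {j : ℕ}
    (hj : j < E.T.dist a r) {z : Γ × O} (hz : E.Gate (seg E.T a r j) z) (S Z : Finset (Γ × O))
    (hS : ∀ v ∈ S, E.pos v ∈ sd E.T (seg E.T a r j))
    (hZ : ∀ w ∈ Z, E.pos w ∈ sd E.T (seg E.T a r j) ∧
      ∃ i, i < E.T.dist a r ∧ E.Gate (seg E.T a r i) w) :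
    ∑ w ∈ Z, tauW E.nb S p z w K ≤ ((E.D : ℝ) + 1) * (B / p ^ E.blk) := by
  classical
  have hmap : ∀ w ∈ Z, gp E.T (E.pos w) a r ∈ range (E.D + 1) := by
    intro w hw
    obtain ⟨-, i, hi, hg⟩ := hZ w hw
    have hn := E.gate_near (seg_adj E.isTree hi) hg
    have h2 := dist_across E.isTree (seg_adj E.isTree hi) hg.1 (seg_left E.isTree hi)
    have h3 := (gp_spec E.isTree (E.pos w) a r).2.2.2.2
    have h4 := E.isTree.connected.dist_triangle (u := E.pos w) (v := (seg E.T a r i).2) (w := r)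
    have h5 := dist_pt E.isTree (u := a) (v := r) (i := i + 1) hi
    have h6 := (dist_pt E.isTree (u := a) (v := r) (i := i) hi.le).1
    simp only [seg] at hn h2 h4
    rw [E.T.dist_comm (u := pt E.T a r i) (v := a)] at h2
    rw [mem_range]
    omega
  rw [← sum_fiberwise_of_maps_to hmap]
  refine (sum_le_card_nsmul _ _ _ fun d _ => gate_tail h0 hT (seg_adj E.isTree hj) hz
    (seg_left E.isTree hj) (seg_right E.isTree hj) d S _ hS fun w hw =>
      ⟨(hZ w (mem_filter.1 hw).1).1, (mem_filter.1 hw).2⟩).trans_eq ?_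
  rw [card_range, nsmul_eq_mul, Nat.cast_add, Nat.cast_one]

/-- The points of one class far from `x` are light. -/
theorem row_far [Fintype O] (h0 : 0 < p) (h1 : p ≤ 1) (hB : 0 ≤ B) (hT : E.TailLe p K B) (k : ℕ)
    (x : Γ × O) (r : X) {u v : ℕ} (hu : 2 ^ k * (4 * E.D + 8) + 1 ≤ u) (F : Finset (Γ × O))
    (hF : ∀ y ∈ F, gp E.T (E.pos x) (E.pos y) r = u ∧ gp E.T (E.pos y) (E.pos x) r = v) :
    ∑ y ∈ F, E.tau p K x y ≤ E.own p K *
      ((8 * ((E.D : ℝ) * (E.D + 1)) * 2 ^ k) ^ k *
        (B / p ^ E.blk / (u - 1 : ℕ)) ^ k * (B / p ^ E.blk)) := by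
  classical
  have hown := E.own_nonneg h0.le h1 K
  rcases F.eq_empty_or_nonempty with rfl | ⟨y₀, hy₀⟩
  · rw [sum_empty]; positivity
  have hur : u ≤ E.T.dist (E.pos x) r :=
    (hF y₀ hy₀).1 ▸ (gp_spec E.isTree (E.pos x) (E.pos y₀) r).2.1
  set a := E.pos x
  set e := seg E.T a r with he
  set Wd := E.ball x K
  set T := B / p ^ E.blk
  have hT0 : 0 ≤ T := div_nonneg hB (pow_nonneg h0.le _)
  set R : ℕ → Finset (Γ × O) := fun j => Wd.filter fun w => E.pos w ∈ sd E.T (e j)
  set M₀ : (Γ × O) × ℕ → ℝ := fun q => ∑ y ∈ F, tauW E.nb (R q.2) p q.1 y K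
  have hyin : ∀ j, j < u → ∀ y ∈ F, E.pos y ∈ sd E.T (e j) := fun j hj y hy =>
    seg_of_gp E.isTree (by rw [(hF y hy).1]; exact hj)
  have hstep : ∀ (j : ℕ) (z : Γ × O) (S : Finset (Γ × O)), S ⊆ Wd → j < u →
      E.pos z ∉ sd E.T (e j) → ∑ y ∈ F, tauW E.nb S p z y K ≤
        ∑ w ∈ S.filter (E.Gate (e j)), tauW E.nb S p z w K * M₀ (w, j) := by
    intro j z S hS hj hz
    simp only [M₀, mul_sum]
    rw [sum_comm]
    exact sum_le_sum fun y hy => Vale.Agent.P165.FQ.tauW_last_entrance E.hl S (R j)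
      (E.pre (e j)) _ h0.le h1 hz (fun x' w hadj hx' hw hwS => mem_filter.2 ⟨hwS, hw, x', hadj, hx'⟩)
      (fun w hwS hw => mem_filter.2 ⟨hS hwS, hw⟩) (hyin j hj y hy) K
  let P : (Γ × O) × ℕ → Prop := fun q => q.2 < u ∧ E.Gate (e q.2) q.1
  have hcuts := TA.cuts_decay (S := {q // P q}) (fun s => u - (s.1.2 + 1)) (fun s => M₀ s.1)
    (T := T) (CT := 8 * ((E.D : ℝ) * (E.D + 1))) (N₀ := 4 * E.D + 8) (by omega) hT0 (by positivity)
    ?_ ?_ k
  rotate_left
  · rintro ⟨⟨z, j⟩, hj, hz⟩
    exact gate_tail h0 hT (seg_adj E.isTree (hj.trans_le hur)) hz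
      (seg_left E.isTree (hj.trans_le hur)) (seg_right E.isTree (hj.trans_le hur)) v (R j) F
      (fun w hw => (mem_filter.1 hw).2) fun y hy => ⟨hyin j hj y hy, (hF y hy).2⟩
  · rintro ⟨⟨z, j⟩, hj, hz⟩ hN
    simp only at hj hz hN ⊢
    set n := u - (j + 1)
    set I := Ioc (j + n / 4) (j + n / 2) with hI
    set Q := ((R j) ×ˢ I).filter fun q => E.Gate (e q.2) q.1
    have hPQ : ∀ q ∈ Q, P q := fun q hq => by
      obtain ⟨hq1, hq2⟩ := mem_filter.1 hq
      have := mem_Ioc.1 (mem_product.1 hq1).2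
      exact ⟨by omega, hq2⟩
    refine ⟨Q.subtype P, fun s => 8 * tauW E.nb (R j) p z s.1.1 K, fun s _ => ?_, ?_, ?_, ?_⟩
    · exact mul_nonneg (by norm_num) (FQ.tauW_nonneg _ h0.le h1 _ _ _)
    · rw [sum_subtype_of_mem (fun q => 8 * tauW E.nb (R j) p z q.1 K) hPQ, ← mul_sum, sum_filter,
        sum_product]
      refine le_trans (mul_le_mul_of_nonneg_left ?_ (by norm_num : (0 : ℝ) ≤ 8))
        (le_of_eq (show (8 : ℝ) * ((E.D : ℝ) * ((E.D + 1) * T)) = _ by ring))
      set Z := (R j).filter fun w => ∃ i ∈ I, E.Gate (e i) w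
      refine le_trans (b := ∑ w ∈ Z, (E.D : ℝ) * tauW E.nb (R j) p z w K) ?_ ?_
      · refine le_of_le_of_eq ?_ (sum_filter _ _).symm
        refine sum_le_sum fun w _ => ?_
        dsimp only
        rw [← sum_filter, sum_const, nsmul_eq_mul]
        split_ifs with hw
        · refine mul_le_mul_of_nonneg_right (Nat.cast_le.2 ?_) (FQ.tauW_nonneg _ h0.le h1 _ _ _)
          refine (card_le_card (t := Ico (E.T.dist a (E.pos w) - E.D) (E.T.dist a (E.pos w)))
            fun i hi => ?_).trans (by rw [Nat.card_Ico]; omega)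
          obtain ⟨hiI, hg⟩ := mem_filter.1 hi
          have hid : i < E.T.dist a r := by
            have := mem_Ioc.1 hiI
            omega
          have hn := E.gate_near (seg_adj E.isTree hid) hg
          have h2 := dist_across E.isTree (seg_adj E.isTree hid) hg.1 (seg_left E.isTree hid)
          have h6 := (dist_pt E.isTree (u := a) (v := r) (i := i) hid.le).1
          simp only [seg] at hn h2
          rw [E.T.dist_comm (u := pt E.T a r i) (v := a), E.T.dist_comm (u := E.pos w) (v := a)]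
            at h2
          rw [mem_Ico]
          omega
        · rw [card_eq_zero.2 (filter_eq_empty_iff.2 fun i hi hg => hw ⟨i, hi, hg⟩)]
          simp
      · rw [← mul_sum]
        refine mul_le_mul_of_nonneg_left (gates_le h0 hT (hj.trans_le hur) hz (R j) Z
          (fun w hw => (mem_filter.1 hw).2) fun w hw => ?_) (Nat.cast_nonneg _)
        obtain ⟨hw1, i, hi, hg⟩ := mem_filter.1 hw
        refine ⟨(mem_filter.1 hw1).2, i, ?_, hg⟩
        have := mem_Ioc.1 hi
        omega
    · intro s hs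
      have := mem_Ioc.1 (mem_product.1 (mem_filter.1 (mem_subtype.1 hs)).1).2
      show n ≤ 2 * (u - (s.1.2 + 1))
      omega
    · rw [sum_subtype_of_mem (fun q => 8 * tauW E.nb (R j) p z q.1 K * M₀ q) hPQ, sum_filter,
        sum_product_right]
      have hone : ∀ i ∈ I, M₀ (z, j) ≤
          ∑ w ∈ R j, if E.Gate (e i) w then tauW E.nb (R j) p z w K * M₀ (w, i) else 0 := by
        intro i hi
        have hi' := mem_Ioc.1 hi
        rw [← sum_filter]
        refine hstep i z (R j) (filter_subset _ _) (by omega) fun hzi => ?_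
        have hjd : j < E.T.dist a r := hj.trans_le hur
        have hid : i < E.T.dist a r := by omega
        have hn := E.gate_near (seg_adj E.isTree hjd) hz
        have h2 := dist_across E.isTree (seg_adj E.isTree hjd) hz.1 (seg_left E.isTree hjd)
        have h3 := dist_across E.isTree (seg_adj E.isTree hid) hzi (seg_left E.isTree hid)
        have h5 := (dist_pt E.isTree (u := a) (v := r) (i := i) hid.le).1
        have h6 := (dist_pt E.isTree (u := a) (v := r) (i := j) hjd.le).1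
        simp only [seg] at hn h2 h3
        rw [E.T.dist_comm (u := pt E.T a r i) (v := a)] at h3
        rw [E.T.dist_comm (u := pt E.T a r j) (v := a)] at h2
        omega
      refine le_trans (b := (8 : ℝ) * ∑ i ∈ I,
        ∑ w ∈ R j, if E.Gate (e i) w then tauW E.nb (R j) p z w K * M₀ (w, i) else 0) ?_ ?_
      · refine le_trans ?_ (mul_le_mul_of_nonneg_left (sum_le_sum hone) (by norm_num))
        rw [sum_const, nsmul_eq_mul, ← mul_assoc, hI, Nat.card_Ioc]
        refine mul_le_mul_of_nonneg_right ?_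
          (sum_nonneg fun y _ => FQ.tauW_nonneg _ h0.le h1 _ _ _)
        have : n ≤ 8 * (j + n / 2 - (j + n / 4)) := by omega
        exact_mod_cast this
      · simp only [mul_sum, mul_ite, mul_zero, mul_assoc]
        exact le_rfl
  have hu1 : (0 : ℕ) < u := by omega
  have hx0 : a ∉ sd E.T (e 0) := seg_left E.isTree (hu1.trans_le hur)
  refine (hstep 0 x Wd subset_rfl hu1 hx0).trans ?_
  refine (sum_le_sum (g := fun w => tauW E.nb Wd p x w K *
    ((8 * ((E.D : ℝ) * (E.D + 1)) * 2 ^ k) ^ k * (T / (u - 1 : ℕ)) ^ k * T)) fun w hw =>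
    mul_le_mul_of_nonneg_left
    (hcuts ⟨(w, 0), hu1, (mem_filter.1 hw).2⟩ (Nat.le_sub_of_add_le hu))
    (FQ.tauW_nonneg _ h0.le h1 _ _ _)).trans ?_
  rw [← sum_mul]
  refine mul_le_mul_of_nonneg_right (E.sum_fib_le_own h0.le h1 _ K x fun w hw => ?_) (by positivity)
  obtain ⟨hw1, x', hadj, hx'⟩ := (mem_filter.1 hw).2
  refine ⟨x', Or.inr hadj, ?_⟩
  dsimp only at hw1 hadj hx'
  show E.T.dist (E.pos x') a + E.T.dist a (E.pos w) = E.T.dist (E.pos x') (E.pos w)
  have he0 := seg_adj E.isTree (hu1.trans_le hur)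
  have e1 : (e 0).1 = a := pt_zero E.isTree a r
  have h2 := dist_across E.isTree he0 hw1 hx'
  have h3 := dist_across E.isTree he0 hw1 hx0
  rw [← he] at h2 h3
  rw [e1] at h2 h3
  rw [E.T.dist_self, E.T.dist_comm (u := E.pos w) (v := a)] at h3
  rw [E.T.dist_comm (u := E.pos x') (v := a), E.T.dist_comm (u := E.pos x') (v := E.pos w)]
  omega

end Env

end Vale.Agent.P165.TR
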