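import Vale.Agent.P165.TR.Own
import Vale.Agent.P165.TR.Rows
import Vale.Agent.P165.TA.Schur

/-!
# The small form of short connections

For each pair of distances to the branching point of the geodesics towards a fixed root, Schur's test
bounds the kernel by the far rows and the near columns; there are polynomially many pairs.
-/

namespace Vale.Agent.P165.TR.Env

open Finset TL

variable {Γ O ι X : Type} [Group Γ] [Fintype ι] (E : Env Γ O ι X) [DecidableEq Γ] [DecidableEq O]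

open Classical in
/-- The distance classes of the pairs seen from a root. -/
noncomputable def classKer (p : ℝ) (K J : ℕ) (r : X) (q : ℕ × ℕ) (x y : Γ × O) : ℝ :=
  if gp E.T (E.pos x) (E.pos y) r = q.1 ∧ gp E.T (E.pos y) (E.pos x) r = q.2 ∧ J < q.1 + q.2
  then E.tau p K x y else 0

theorem classKer_nonneg {p : ℝ} (h0 : 0 ≤ p) (h1 : p ≤ 1) (K J : ℕ) (r : X) (q : ℕ × ℕ)
    (x y : Γ × O) : 0 ≤ E.classKer p K J r q x y := by
  unfold classKer
  split_ifs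
  exacts [E.tau_nonneg h0 h1 K x y, le_rfl]

omit [DecidableEq Γ] [DecidableEq O] in
theorem gp_add_gp (x y : Γ × O) (r : X) :
    gp E.T (E.pos x) (E.pos y) r + gp E.T (E.pos y) (E.pos x) r =
      E.T.dist (E.pos x) (E.pos y) := by
  have h1 := (gp_spec E.isTree (E.pos x) (E.pos y) r).2.2.2.2
  have h2 := (gp_spec E.isTree (E.pos y) (E.pos x) r).2.2.2.2
  rw [E.T.dist_comm (u := E.pos y) (v := E.pos x)] at h2
  omega

/-- The pairs at distance more than `J` split into the classes. -/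
theorem tau_le_classes {p : ℝ} (h0 : 0 ≤ p) (h1 : p ≤ 1) (K J : ℕ) (r : X) (x y : Γ × O) :
    E.tau p K x y ≤ (if E.T.dist (E.pos x) (E.pos y) ≤ J then E.tau p K x y else 0) +
      ∑ q ∈ range (E.D * K + 1) ×ˢ range (E.D * K + 1), E.classKer p K J r q x y := by
  have hs := E.gp_add_gp x y r
  split_ifs with h
  · exact le_add_of_nonneg_right (sum_nonneg fun q _ => E.classKer_nonneg h0 h1 K J r q x y)
  rw [zero_add]
  by_cases hy : y ∈ E.ball x K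
  swap
  · rw [E.tau_eq_zero hy]
    exact sum_nonneg fun q _ => E.classKer_nonneg h0 h1 K J r q x y
  have hd := E.dist_ball hy
  refine le_trans (le_of_eq ?_) (single_le_sum
    (fun q _ => E.classKer_nonneg h0 h1 K J r q x y)
    (a := (gp E.T (E.pos x) (E.pos y) r, gp E.T (E.pos y) (E.pos x) r)) (mem_product.2 ⟨mem_range.2 (show gp E.T (E.pos x) (E.pos y) r < _ by omega),
      mem_range.2 (show gp E.T (E.pos y) (E.pos x) r < _ by omega)⟩))
  rw [classKer, if_pos ⟨rfl, rfl, by omega⟩]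

/-- The bound on a class by Schur's test. -/
theorem class_le {p : ℝ} (h0 : 0 ≤ p) (h1 : p ≤ 1) (K J : ℕ) (r : X) {R S w : ℝ} (hR : 0 ≤ R)
    (hS : 0 ≤ S) (hw : 0 ≤ w) (hRS : R * S ≤ w ^ 2)
    (hcol : ∀ (x : Γ × O) (F : Finset (Γ × O)), ∑ y ∈ F, E.tau p K x y ≤ S)
    (hrow : ∀ (x : Γ × O) (u v : ℕ) (F : Finset (Γ × O)), J < 2 * u →
      (∀ y ∈ F, gp E.T (E.pos x) (E.pos y) r = u ∧ gp E.T (E.pos y) (E.pos x) r = v) →
        ∑ y ∈ F, E.tau p K x y ≤ R)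
    (q : ℕ × ℕ) (F : Finset (Γ × O)) (f : Γ × O → ℝ) :
    ∑ x ∈ F, ∑ y ∈ F, f x * f y * E.classKer p K J r q x y ≤ w * ∑ x ∈ F, f x ^ 2 := by
  classical
  obtain ⟨u, v⟩ := q
  set σ : ℝ := ∑ x ∈ F, f x ^ 2
  have hσ : 0 ≤ σ := sum_nonneg fun x _ => sq_nonneg _
  by_cases hJ : J < u + v
  swap
  · refine le_of_eq_of_le ?_ (mul_nonneg hw hσ)
    exact sum_eq_zero fun x _ => sum_eq_zero fun y _ => by simp [classKer, hJ]
  have hrowC : ∀ x, ∑ y ∈ F, E.classKer p K J r (u, v) x y ≤ S ∧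
      (J < 2 * u → ∑ y ∈ F, E.classKer p K J r (u, v) x y ≤ R) := fun x => by
    simp only [classKer]
    rw [← sum_filter]
    exact ⟨hcol x _, fun hu => hrow x u v _ hu fun y hy =>
      ⟨(mem_filter.1 hy).2.1, (mem_filter.1 hy).2.2.1⟩⟩
  have hcolC : ∀ y, ∑ x ∈ F, E.classKer p K J r (u, v) x y ≤ S ∧
      (J < 2 * v → ∑ x ∈ F, E.classKer p K J r (u, v) x y ≤ R) := fun y => by
    simp only [classKer]
    rw [← sum_filter, sum_congr rfl fun x _ => E.tau_comm h0 h1 K x y]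
    exact ⟨hcol y _, fun hv => hrow y v u _ hv fun x hx =>
      ⟨(mem_filter.1 hx).2.2.1, (mem_filter.1 hx).2.1⟩⟩
  have hfin : ∀ R' S' : ℝ, R' * S' = R * S → 0 ≤ R' → 0 ≤ S' →
      (∀ x ∈ F, ∑ y ∈ F, E.classKer p K J r (u, v) x y ≤ R') →
      (∀ y ∈ F, ∑ x ∈ F, E.classKer p K J r (u, v) x y ≤ S') →
      ∑ x ∈ F, ∑ y ∈ F, f x * f y * E.classKer p K J r (u, v) x y ≤ w * σ := by
    intro R' S' h hR' hS' hr hs
    refine (TA.schur_le F F _ f f hR' hS' (fun x _ y _ => E.classKer_nonneg h0 h1 K J r _ x y)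
      hr hs).trans ?_
    rw [mul_assoc, Real.mul_self_sqrt hσ, h]
    exact mul_le_mul_of_nonneg_right (Real.sqrt_le_iff.2 ⟨hw, hRS⟩) hσ
  rcases le_total v u with hvu | hvu
  · exact hfin R S rfl hR hS (fun x _ => (hrowC x).2 (by omega)) fun y _ => (hcolC y).1
  · exact hfin S R (mul_comm _ _) hS hR (fun x _ => (hrowC x).1) fun y _ => (hcolC y).2 (by omega)

/-- The near part and the classes. -/
theorem form_le {p : ℝ} (h0 : 0 ≤ p) (h1 : p ≤ 1) (K J : ℕ) {R S R₀ w : ℝ} (hR : 0 ≤ R)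
    (hS : 0 ≤ S) (hR₀ : 0 ≤ R₀) (hw : 0 ≤ w) (hRS : R * S ≤ w ^ 2)
    (hcol : ∀ (x : Γ × O) (F : Finset (Γ × O)), ∑ y ∈ F, E.tau p K x y ≤ S)
    (hnear : ∀ (x : Γ × O) (F : Finset (Γ × O)),
      (∀ y ∈ F, E.T.dist (E.pos x) (E.pos y) ≤ J) → ∑ y ∈ F, E.tau p K x y ≤ R₀)
    (hrow : ∀ (r : X) (x : Γ × O) (u v : ℕ) (F : Finset (Γ × O)), J < 2 * u →
      (∀ y ∈ F, gp E.T (E.pos x) (E.pos y) r = u ∧ gp E.T (E.pos y) (E.pos x) r = v) →
        ∑ y ∈ F, E.tau p K x y ≤ R)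
    (F : Finset (Γ × O)) (f : Γ × O → ℝ) (hf : ∀ x, 0 ≤ f x) :
    ∑ x ∈ F, ∑ y ∈ F, f x * f y * E.tau p K x y ≤
      (R₀ + ((E.D * K + 1 : ℕ) : ℝ) ^ 2 * w) * ∑ x ∈ F, f x ^ 2 := by
  classical
  rcases F.eq_empty_or_nonempty with rfl | ⟨x₀, -⟩
  · simp
  set r := E.pos x₀
  set P := range (E.D * K + 1) ×ˢ range (E.D * K + 1)
  set σ : ℝ := ∑ x ∈ F, f x ^ 2
  have hσ : 0 ≤ σ := sum_nonneg fun x _ => sq_nonneg _
  have hshort : ∑ x ∈ F, ∑ y ∈ F, f x * f y *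
      (if E.T.dist (E.pos x) (E.pos y) ≤ J then E.tau p K x y else 0) ≤ R₀ * σ := by
    refine (TA.schur_le F F _ f f hR₀ hR₀ (fun x _ y _ => ?_) (fun x _ => ?_)
      (fun y _ => ?_)).trans (le_of_eq ?_)
    · split_ifs
      exacts [E.tau_nonneg h0 h1 K x y, le_rfl]
    · rw [← sum_filter]
      exact hnear x _ fun y hy => (mem_filter.1 hy).2
    · rw [← sum_filter, sum_congr rfl fun x _ => E.tau_comm h0 h1 K x y]
      exact hnear y _ fun x hx => by rw [SimpleGraph.dist_comm]; exact (mem_filter.1 hx).2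
    · rw [Real.sqrt_mul_self hR₀, mul_assoc, Real.mul_self_sqrt hσ]
  calc ∑ x ∈ F, ∑ y ∈ F, f x * f y * E.tau p K x y
      ≤ ∑ x ∈ F, ∑ y ∈ F, (f x * f y *
            (if E.T.dist (E.pos x) (E.pos y) ≤ J then E.tau p K x y else 0) +
          ∑ q ∈ P, f x * f y * E.classKer p K J r q x y) := by
        refine sum_le_sum fun x _ => sum_le_sum fun y _ => ?_
        rw [← mul_sum, ← mul_add]
        exact mul_le_mul_of_nonneg_left (E.tau_le_classes h0 h1 K J r x y)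
          (mul_nonneg (hf x) (hf y))
    _ ≤ R₀ * σ + ∑ _q ∈ P, w * σ := by
        simp only [sum_add_distrib]
        refine add_le_add hshort ?_
        rw [sum_congr rfl fun x _ => sum_comm, sum_comm]
        exact sum_le_sum fun q _ => E.class_le h0 h1 K J r hR hS hw hRS hcol (hrow r) q F f
    _ = _ := by
        rw [sum_const, nsmul_eq_mul, card_product, card_range]
        push_cast
        ring

/-- The constants of the main bound. -/
theorem far_arith {A₀ A₁ D a : ℝ} {k : ℕ} (hk : k = 24) (ha : 1 ≤ a)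
    (h : A₀ * A₁ * (D + 1) ^ 4 ≤ a ^ 4) (hD : 0 ≤ D) :
    A₀ * a ^ 2 * (1 / a ^ 2) ^ k * (A₁ * a ^ 10) ≤ (1 / ((D + 1) * a ^ 8) ^ 2) ^ 2 := by
  subst hk
  have ha0 : (0 : ℝ) < a := by linarith
  rw [show A₀ * a ^ 2 * (1 / a ^ 2) ^ 24 * (A₁ * a ^ 10) = A₀ * A₁ * (a ^ 12 / a ^ 48) by ring,
    show a ^ 12 / a ^ 48 = 1 / a ^ 36 by field_simp, div_pow, one_pow, mul_one_div,
    div_le_div_iff₀ (by positivity) (by positivity)]
  have := mul_le_mul_of_nonneg_left h (pow_nonneg ha0.le 32)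
  linarith

variable [Fintype O]

/-- Small powers of the length give a small form of the short connections. -/
theorem small_of_closed {ps : ℝ} (h0 : 0 < ps) (h1 : ps ≤ 1) (hC : E.Closed ps) :
    E.Small ps := by
  classical
  obtain ⟨Cn, hCn, hnear⟩ := E.nearBound h0 h1
  obtain ⟨C, hC0, hcrit⟩ := hC (1 / 8) (by norm_num)
  obtain ⟨k, hk⟩ : ∃ k : ℕ, k = 24 := ⟨24, rfl⟩
  set c : ℝ := 2 * C + 1
  set T₁ : ℝ := c / ps ^ E.blk
  set A₀ : ℝ := c * T₁ * (8 * ((E.D : ℝ) * (E.D + 1)) * 2 ^ k * (4 * T₁)) ^ k with hA₀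
  set A₁ : ℝ := Cn * c ^ 2 * ((E.D : ℝ) + 1) with hA₁
  obtain ⟨m, hm⟩ := exists_nat_ge (A₀ * A₁ * ((E.D : ℝ) + 1) ^ 4 + 4 * (2 * Cn * c ^ 2 + 1))
  obtain ⟨a, ha, ham⟩ : ∃ a : ℕ, 4 * (2 ^ k * (4 * E.D + 8) + 1) ≤ a ∧ m ≤ a :=
    ⟨_, le_max_left _ m, le_max_right _ m⟩
  have ha1 : (1 : ℝ) ≤ a := by exact_mod_cast (show 1 ≤ a by omega)
  have ha0 : (0 : ℝ) < a := by linarith
  have hma := hm.trans (show (m : ℝ) ≤ a by exact_mod_cast ham)
  have hc1 : 1 ≤ c := le_add_of_nonneg_left (by positivity)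
  have hB1 : 1 ≤ c * a := one_le_mul_of_one_le_of_one_le hc1 ha1
  have hpow : C * (((a ^ 8 : ℕ) : ℝ) + 1) ^ (1 / 8 : ℝ) ≤ c * a := by
    refine le_trans (mul_le_mul_of_nonneg_left ?_ hC0)
      (show C * (2 * (a : ℝ)) ≤ c * a by nlinarith [show c = 2 * C + 1 from rfl])
    refine (Real.rpow_le_rpow (by positivity)
      (?_ : _ ≤ (2 * (a : ℝ)) ^ 8) (by norm_num)).trans (le_of_eq ?_)
    · rw [mul_pow, Nat.cast_pow]
      linarith [one_le_pow₀ (n := 8) ha1]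
    · rw [show (1 / 8 : ℝ) = ((8 : ℕ) : ℝ)⁻¹ by norm_num,
        Real.pow_rpow_inv_natCast (by positivity) (by norm_num)]
  have hown : E.own ps (a ^ 8) ≤ c * a := (hcrit _).1.trans hpow
  have hT : E.TailLe ps (a ^ 8) (c * a) := fun ψ ℓ z hz w d S Y hS hY =>
    ((hcrit _).2 ψ ℓ z hz w d S Y hS hY).trans hpow
  have hball : ∀ (x : Γ × O) (J : ℕ) (F : Finset (Γ × O)),
      (∀ y ∈ F, E.T.dist (E.pos x) (E.pos y) ≤ J) →
        ∑ y ∈ F, E.tau ps (a ^ 8) x y ≤ Cn * ((J : ℝ) + 1) * (c * a * (c * a)) := fun x J F hF =>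
    (hnear _ _ hB1 hT x J F hF).trans (mul_le_mul_of_nonneg_left
      (mul_le_mul_of_nonneg_right hown (by linarith)) (by positivity))
  have hrow : ∀ (r : X) (x : Γ × O) (u v : ℕ) (F : Finset (Γ × O)), a ^ 3 < 2 * u →
      (∀ y ∈ F, gp E.T (E.pos x) (E.pos y) r = u ∧ gp E.T (E.pos y) (E.pos x) r = v) →
        ∑ y ∈ F, E.tau ps (a ^ 8) x y ≤ A₀ * (a : ℝ) ^ 2 * (1 / (a : ℝ) ^ 2) ^ k := by
    intro r x u v F hu hF
    have ha3 : a ≤ a ^ 3 := Nat.le_self_pow (by norm_num) a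
    refine (E.row_far h0 h1 (zero_le_one.trans hB1) hT k x r (by omega) F hF).trans ?_
    have hu2 : (a : ℝ) ^ 3 / 4 ≤ ((u - 1 : ℕ) : ℝ) := by
      rw [div_le_iff₀ (by norm_num)]
      exact_mod_cast (show a ^ 3 ≤ (u - 1) * 4 by omega)
    rw [show c * (a : ℝ) / ps ^ E.blk = T₁ * a from mul_div_right_comm _ _ _]
    have hfrac : T₁ * a / ((u - 1 : ℕ) : ℝ) ≤ 4 * T₁ * (1 / (a : ℝ) ^ 2) := by
      refine (div_le_div_of_nonneg_left (by positivity) (by positivity) hu2).trans (le_of_eq ?_)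
      field_simp
    refine (mul_le_mul hown (mul_le_mul_of_nonneg_right (mul_le_mul_of_nonneg_left
      (pow_le_pow_left₀ (by positivity) hfrac k) (by positivity)) (by positivity))
      (by positivity) (by linarith)).trans (le_of_eq ?_)
    rw [hA₀, mul_pow (4 * T₁), mul_pow _ (4 * T₁)]
    ring
  have hcol : ∀ (x : Γ × O) (F : Finset (Γ × O)),
      ∑ y ∈ F, E.tau ps (a ^ 8) x y ≤ A₁ * (a : ℝ) ^ 10 := by
    intro x F
    rw [← sum_filter_of_ne (p := fun y => y ∈ E.ball x (a ^ 8))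
      fun y _ hne => by_contra fun h => hne (E.tau_eq_zero h)]
    refine (hball x (E.D * a ^ 8) _ fun y hy => E.dist_ball (mem_filter.1 hy).2).trans ?_
    rw [hA₁, Nat.cast_mul, Nat.cast_pow]
    calc Cn * ((E.D : ℝ) * (a : ℝ) ^ 8 + 1) * (c * a * (c * a))
        ≤ Cn * (((E.D : ℝ) + 1) * (a : ℝ) ^ 8) * (c * a * (c * a)) := by
          gcongr
          linarith [one_le_pow₀ (n := 8) ha1]
      _ = _ := by ring
  have hnonneg : (0 : ℝ) ≤ A₀ * A₁ * ((E.D : ℝ) + 1) ^ 4 := by positivity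
  refine ⟨a ^ 8, Nat.one_le_pow _ _ (by omega), fun F f hf => ?_⟩
  refine (E.form_le h0.le h1 (a ^ 8) (a ^ 3) (by positivity) (by positivity) (by positivity)
    (w := 1 / (((E.D : ℝ) + 1) * (a : ℝ) ^ 8) ^ 2) (by positivity)
    (far_arith hk ha1 ?_ (Nat.cast_nonneg _)) hcol (fun x F hF => hball x _ F hF) hrow F f
    hf).trans ?_
  · exact le_trans (by nlinarith) (le_self_pow₀ ha1 (by norm_num))
  refine mul_le_mul_of_nonneg_right ?_ (sum_nonneg fun x _ => sq_nonneg _)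
  push_cast
  have hP : ((E.D : ℝ) * (a : ℝ) ^ 8 + 1) ^ 2 * (1 / (((E.D : ℝ) + 1) * (a : ℝ) ^ 8) ^ 2) ≤ 1 := by
    rw [mul_one_div, div_le_one (by positivity)]
    refine pow_le_pow_left₀ (by positivity) ?_ 2
    linarith [one_le_pow₀ (n := 8) ha1]
  have h4 : 4 * (2 * Cn * c ^ 2 + 1) ≤ (a : ℝ) := by linarith
  have h3 : (1 : ℝ) ≤ (a : ℝ) ^ 3 := one_le_pow₀ ha1
  calc Cn * ((a : ℝ) ^ 3 + 1) * (c * a * (c * a)) +
        ((E.D : ℝ) * (a : ℝ) ^ 8 + 1) ^ 2 * (1 / (((E.D : ℝ) + 1) * (a : ℝ) ^ 8) ^ 2)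
      ≤ Cn * (2 * (a : ℝ) ^ 3) * (c * a * (c * a)) + (a : ℝ) ^ 5 := by
        refine add_le_add ?_ (hP.trans (one_le_pow₀ ha1))
        gcongr
        linarith
    _ = (2 * Cn * c ^ 2 + 1) * (a : ℝ) ^ 5 := by ring
    _ ≤ (a : ℝ) / 4 * (a : ℝ) ^ 5 := by gcongr; linarith
    _ ≤ (a : ℝ) / 4 * (a : ℝ) ^ 7 :=
        mul_le_mul_of_nonneg_left (pow_le_pow_right₀ ha1 (by norm_num)) (by positivity)
    _ = _ := by ring

end Vale.Agent.P165.TR.Env
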