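import Vale.Agent.P165.TR.Basic
import Vale.Agent.P165.SG.Classes
import Vale.Agent.P165.SG.Lox

/-!
# Frames from two elements with four different ends

Powers `g`, `h` of the two elements play ping-pong on four shadows seen from a median `t` of three
of their orbit points, and the frames are short products of them.
-/

namespace Vale.Agent.P165.TR

open Finset FF TL

variable {Γ X : Type} [Group Γ] {T : SimpleGraph X}

theorem dist_pt_gp (hT : T.IsTree) {t P q : X} {i : ℕ} (hi : i ≤ T.dist t P) :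
    T.dist q (pt T t P i) + 2 * min i (gp T t P q) = i + T.dist t q := by
  obtain ⟨h1, -⟩ := dist_pt hT hi
  obtain ⟨g1, -, -, -, g5⟩ := gp_spec hT t (pt T t P i) q
  obtain ⟨a1, -, -, a4, -⟩ := gp_spec hT t (pt T t P i) P
  have hii : i ≤ gp T t (pt T t P i) P := a4 i h1.ge hi (pt_pt hT le_rfl hi)
  have m1 := gp_min hT t (pt T t P i) P q
  have m2 := gp_min hT t P (pt T t P i) q
  rw [gp_comm hT t P (pt T t P i)] at m2
  rw [T.dist_comm (u := pt T t P i)] at g5
  rw [h1] at g1 g5 a1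
  omega

/-- The edge at depth `R` on the way from `t` to `P`. -/
noncomputable def shE (T : SimpleGraph X) (t P : X) (R : ℕ) : X × X :=
  (pt T t P (R - 1), pt T t P R)

theorem adj_shE (hT : T.IsTree) {t P : X} {R : ℕ} (h1 : 1 ≤ R) (hR : R ≤ T.dist t P) :
    T.Adj (shE T t P R).1 (shE T t P R).2 := by
  have h := adj_pt hT (u := t) (v := P) (i := R - 1) (by omega)
  rwa [Nat.sub_add_cancel h1] at h

/-- Beyond that edge lie the points whose common part with `P` has length at least `R`. -/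
theorem mem_shE (hT : T.IsTree) {t P q : X} {R : ℕ} (h1 : 1 ≤ R) (hR : R ≤ T.dist t P) :
    q ∈ sd T (shE T t P R) ↔ R ≤ gp T t P q := by
  have a := dist_pt_gp hT (q := q) (show R - 1 ≤ T.dist t P by omega)
  have b := dist_pt_gp hT (q := q) hR
  simp only [mem_sd, shE]
  omega

theorem gp_self_right (hT : T.IsTree) (t P : X) : gp T t P t = 0 := by
  have := (gp_spec hT t P t).2.1
  rw [T.dist_self] at this
  omega

/-- A change of the base changes common parts of orbits by at most three times its distance. -/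
theorem gp_base (hT : T.IsTree) (act : Γ →* (T ≃g T)) (o t : X) (a b : Γ) :
    gp T t (act a t) (act b t) ≤ gp T o (act a o) (act b o) + 3 * T.dist o t := by
  have h1 := (gp_spec hT t (act a t) (act b t)).2.2.2.2
  have h2 := (gp_spec hT o (act a o) (act b o)).2.2.2.2
  have e1 : T.dist t (act a t) ≤ T.dist o (act a o) + 2 * T.dist o t := SG.dsp_change hT act o t a
  have e2 : T.dist t (act b t) ≤ T.dist o (act b o) + 2 * T.dist o t := SG.dsp_change hT act o t b
  have e3 := hT.connected.dist_triangle (u := act a o) (v := act a t) (w := act b o)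
  have e4 := hT.connected.dist_triangle (u := act a t) (v := act b t) (w := act b o)
  rw [dist_map hT hT] at e3 e4
  rw [T.dist_comm (u := t) (v := o)] at e4
  omega

/-- Elements playing ping-pong on four shadows, three of them in different directions. -/
structure Quad (T : SimpleGraph X) (act : Γ →* (T ≃g T)) where
  make ::
  /-- The base. -/
  t : X
  /-- The two elements and their inverses. -/
  c : Fin 4 → Γ
  /-- The depth of the shadows. -/
  R : ℕ
  inv_c : ∀ i, c (![1, 0, 3, 2] i) = (c i)⁻¹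
  one_le : 1 ≤ R
  long : ∀ i, 2 * R ≤ T.dist t (act (c i) t)
  sep : ∀ i j, i ≠ j → gp T t (act (c i) t) (act (c j) t) < R
  avoid : ∀ u w, ∃ i : Fin 3, ∀ q, R ≤ gp T t (act (c i.castSucc) t) q →
    gp T t q u = 0 ∧ gp T t q w = 0

/-- Common parts of forward and backward orbits of an escaping element are bounded. -/
theorem sh_inv_le (hT : T.IsTree) (act : Γ →* (T ≃g T)) (o : X) {g : Γ}
    (hg : ∀ n : ℕ, n ≤ T.dist o (act (g ^ n) o)) (M : ℕ) :
    SG.sh act o (g ^ M) (g ^ M)⁻¹ ≤ SG.dsp act o g := by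
  have hlox : SG.dsp act o g < SG.dsp act o (g * g) := by
    by_contra h
    have h1 := SG.dsp_pow_le hT act o g (not_lt.1 h) (SG.dsp act o g + 1)
    have h2 : SG.dsp act o g + 1 ≤ SG.dsp act o (g ^ (SG.dsp act o g + 1)) := hg _
    omega
  rcases M with - | j
  · refine le_trans ?_ (Nat.zero_le _)
    refine (gp_spec hT o _ _).1.trans ?_
    rw [pow_zero, SG.f_one, T.dist_self]
  have e := SG.sh_eq hT act o (g ^ (j + 1)) (g ^ (j + 1))⁻¹
  rw [← mul_inv_rev, SG.dsp_inv hT, SG.dsp_inv hT, ← pow_add] at e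
  have a := SG.dsp_pow hT act o g hlox j
  have b := SG.dsp_pow hT act o g hlox (j + 1 + j)
  rw [show j + 1 + j + 1 = j + 1 + (j + 1) by omega, Nat.add_mul, Nat.add_mul, Nat.one_mul] at b
  omega

theorem sym_four {f : Fin 4 → Fin 4 → ℕ} {C : ℕ} (hs : ∀ i j, f i j = f j i) (h01 : f 0 1 ≤ C)
    (h02 : f 0 2 ≤ C) (h03 : f 0 3 ≤ C) (h12 : f 1 2 ≤ C) (h13 : f 1 3 ≤ C) (h23 : f 2 3 ≤ C) :
    ∀ i j, i ≠ j → f i j ≤ C := by
  intro i j hij
  fin_cases i <;> fin_cases j <;>
    first | exact absurd rfl hij | assumption | exact (hs _ _).trans_le (by assumption)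

/-- Three points with short common parts seen from `o` have a median near `o`. -/
theorem exists_median (hT : T.IsTree) (o : X) (P : Fin 3 → X) {C : ℕ}
    (hsep : ∀ i j, i ≠ j → gp T o (P i) (P j) ≤ C) :
    ∃ m, (∀ i j : Fin 3, i ≠ j → gp T m (P i) (P j) = 0) ∧ T.dist o m ≤ C := by
  set m := pt T (P 0) (P 1) (gp T (P 0) (P 1) (P 2)) with hm
  obtain ⟨g1, g2, g3, -, -⟩ := gp_spec hT (P 0) (P 1) (P 2)
  have b01 := dist_pt hT g1
  have b12 := gp_between hT (P 0) (P 1) (P 2)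
  have b02 := dist_pt hT g2
  rw [← g3 _ le_rfl, ← hm] at b02
  rw [← hm] at b01 b12
  have key : ∀ a b : X, T.dist a m + T.dist m b = T.dist a b →
      gp T m a b = 0 ∧ gp T m b a = 0 := by
    intro a b hab
    have h1 := (gp_spec hT m a b).2.2.2.2
    rw [T.dist_comm (u := m) (v := a)] at h1
    exact ⟨by omega, by rw [gp_comm hT]; omega⟩
  have k01 := key (P 0) (P 1) (by omega)
  have k02 := key (P 0) (P 2) (by omega)
  have k12 := key (P 1) (P 2) b12
  have hzero : ∀ i j : Fin 3, i ≠ j → gp T m (P i) (P j) = 0 := by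
    intro i j hij
    fin_cases i <;> fin_cases j <;> first
      | exact absurd rfl hij | exact k01.1 | exact k01.2 | exact k02.1 | exact k02.2
      | exact k12.1 | exact k12.2
  refine ⟨m, hzero, ?_⟩
  have one : ∀ i j : Fin 3, i ≠ j → gp T m (P i) o = 0 ∨ gp T m (P j) o = 0 := by
    intro i j hij
    have := gp_min hT m (P i) o (P j)
    rw [hzero i j hij, gp_comm hT m o (P j)] at this
    omega
  obtain ⟨i, j, hij, hi, hj⟩ :
      ∃ i j : Fin 3, i ≠ j ∧ gp T m (P i) o = 0 ∧ gp T m (P j) o = 0 := by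
    rcases one 0 1 (by decide) with h0 | h1
    · rcases one 1 2 (by decide) with h1 | h2
      exacts [⟨0, 1, by decide, h0, h1⟩, ⟨0, 2, by decide, h0, h2⟩]
    · rcases one 0 2 (by decide) with h0 | h2
      exacts [⟨1, 0, by decide, h1, h0⟩, ⟨1, 2, by decide, h1, h2⟩]
  have hs := hsep i j hij
  have e1 := (gp_spec hT m (P i) o).2.2.2.2
  have e2 := (gp_spec hT m (P j) o).2.2.2.2
  have e3 := (gp_spec hT m (P i) (P j)).2.2.2.2
  have e4 := (gp_spec hT o (P i) (P j)).2.2.2.2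
  rw [hzero i j hij] at e3
  rw [T.dist_comm (u := o) (v := P i), T.dist_comm (u := o) (v := P j)] at e4
  rw [T.dist_comm (u := o) (v := m)]
  omega

/-- One of three different directions avoids any two points. -/
theorem exists_branch (hT : T.IsTree) {m : X} {P : Fin 3 → X}
    (hzero : ∀ i j : Fin 3, i ≠ j → gp T m (P i) (P j) = 0) (u w : X) :
    ∃ i, ∀ q, 1 ≤ gp T m (P i) q → gp T m q u = 0 ∧ gp T m q w = 0 := by
  have one : ∀ (x : X) (i j : Fin 3), i ≠ j → gp T m (P i) x = 0 ∨ gp T m (P j) x = 0 := by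
    intro x i j hij
    have := gp_min hT m (P i) x (P j)
    rw [hzero i j hij, gp_comm hT m x (P j)] at this
    omega
  obtain ⟨i, hu, hw⟩ : ∃ i, gp T m (P i) u = 0 ∧ gp T m (P i) w = 0 := by
    by_contra hno
    push Not at hno
    have u01 := one u 0 1 (by decide)
    have u02 := one u 0 2 (by decide)
    have u12 := one u 1 2 (by decide)
    have w01 := one w 0 1 (by decide)
    have w02 := one w 0 2 (by decide)
    have w12 := one w 1 2 (by decide)
    have h0 := hno 0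
    have h1 := hno 1
    have h2 := hno 2
    tauto
  refine ⟨i, fun q hq => ⟨?_, ?_⟩⟩
  · have := gp_min hT m (P i) q u
    omega
  · have := gp_min hT m (P i) q w
    omega

theorem exists_quad (hT : T.IsTree) (act : Γ →* (T ≃g T)) (o : X) (h4 : SG.FourEnds T act o) :
    Nonempty (Quad T act) := by
  obtain ⟨g, h, K, hsp, hdiv⟩ := h4
  set C := K + SG.dsp act o g + SG.dsp act o h with hC
  set R := 4 * C + 1 with hR
  set M := 2 * R + 6 * C + 3 with hM
  set c : Fin 4 → Γ := ![g ^ M, (g ^ M)⁻¹, h ^ M, (h ^ M)⁻¹] with hc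
  have hlong : ∀ i, M ≤ T.dist o (act (c i) o) := by
    intro i
    show M ≤ SG.dsp act o (c i)
    fin_cases i <;> simp [hc, SG.dsp_inv hT] <;> first | exact (hsp M).1 | exact (hsp M).2
  have hd : ∀ a b : Γ, (a, b) ∈ [(g, h), (g, h⁻¹), (g⁻¹, h), (g⁻¹, h⁻¹)] →
      SG.sh act o (a ^ M) (b ^ M) ≤ C := by
    intro a b hab
    have h1 := hdiv _ hab M M
    have h2 := (gp_spec hT o (act (a ^ M) o) (act (b ^ M) o)).2.2.2.2
    simp only [SG.sh] at *
    omega
  have hsep : ∀ i j, i ≠ j → SG.sh act o (c i) (c j) ≤ C := by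
    have q2 := hd g h (by simp)
    have q3 := hd g h⁻¹ (by simp)
    have q4 := hd g⁻¹ h (by simp)
    have q5 := hd g⁻¹ h⁻¹ (by simp)
    rw [inv_pow] at q3 q4
    rw [inv_pow, inv_pow] at q5
    exact sym_four (fun i j => SG.sh_comm hT act o (c i) (c j))
      ((sh_inv_le hT act o (fun n => (hsp n).1) M).trans (by omega)) q2 q3 q4 q5
      ((sh_inv_le hT act o (fun n => (hsp n).2) M).trans (by omega))
  -- the median of three orbit points
  set P : Fin 3 → X := fun i => act (c i.castSucc) o with hP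
  obtain ⟨m, hzero, hnear⟩ := exists_median hT o P (C := C) fun i j hij =>
    hsep _ _ fun e => hij (Fin.castSucc_injective _ e)
  have hfar : ∀ i, M ≤ T.dist m (act (c i) m) + 2 * C := fun i => by
    have h1 : T.dist o (act (c i) o) ≤ T.dist m (act (c i) m) + 2 * T.dist m o :=
      SG.dsp_change hT act m o (c i)
    have := hlong i
    rw [T.dist_comm (u := m) (v := o)] at h1
    omega
  refine ⟨Quad.make m c R ?_ (by omega) (fun i => by have := hfar i; omega) ?_ ?_⟩
  · intro i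
    fin_cases i <;> simp [hc]
  · intro i j hij
    have := gp_base hT act o m (c i) (c j)
    have h1 : gp T o (act (c i) o) (act (c j) o) ≤ C := hsep i j hij
    omega
  · have hdir : ∀ (i : Fin 3) q, R ≤ gp T m (act (c i.castSucc) m) q →
        1 ≤ gp T m (P i) q := fun i q hq => by
      have h1 := (gp_spec hT m (P i) (act (c i.castSucc) m)).2.2.2.2
      have h2 : T.dist (P i) (act (c i.castSucc) m) = T.dist o m := dist_map hT hT _ _ _
      have h3 := hfar i.castSucc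
      have h4 := gp_min hT m (P i) (act (c i.castSucc) m) q
      omega
    intro u w
    obtain ⟨i, hi⟩ := exists_branch hT hzero u w
    exact ⟨i, fun q hq => hi q (hdir i q hq)⟩

namespace Quad

variable {act : Γ →* (T ≃g T)} (Q : Quad T act) (hT : T.IsTree)

/-- The shadow of a letter. -/
def In (i : Fin 4) (q : X) : Prop := Q.R ≤ gp T Q.t (act (Q.c i) Q.t) q

/-- Its edge. -/
noncomputable def edge (i : Fin 4) : X × X := shE T Q.t (act (Q.c i) Q.t) Q.R

theorem R_le (i : Fin 4) : Q.R ≤ T.dist Q.t (act (Q.c i) Q.t) := by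
  have := Q.long i
  omega

include hT

theorem mem_edge {i : Fin 4} {q : X} : q ∈ sd T (Q.edge i) ↔ Q.In i q :=
  mem_shE hT Q.one_le (Q.R_le i)

theorem adj_edge (i : Fin 4) : T.Adj (Q.edge i).1 (Q.edge i).2 :=
  adj_shE hT Q.one_le (Q.R_le i)

theorem notIn_t (i : Fin 4) : ¬Q.In i Q.t := by
  have := Q.one_le
  rw [In, gp_self_right hT]
  omega

theorem eq_of_in {i j : Fin 4} {q : X} (h1 : Q.In i q) (h2 : Q.In j q) : i = j := by
  by_contra hne
  have := Q.sep i j hne
  have := gp_min hT Q.t (act (Q.c i) Q.t) q (act (Q.c j) Q.t)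
  rw [gp_comm hT Q.t q (act (Q.c j) Q.t)] at this
  unfold In at h1 h2
  omega

theorem depth {i : Fin 4} {q : X} (h : Q.In i q) : Q.R ≤ T.dist Q.t q :=
  le_trans h (gp_spec hT _ _ _).2.1

/-- A letter moves the complement of the opposite shadow into its own, and away from the base. -/
theorem maps (i : Fin 4) {q : X} (h : ¬Q.In (![1, 0, 3, 2] i) q) :
    Q.In i (act (Q.c i) q) ∧ T.dist Q.t q + 2 ≤ T.dist Q.t (act (Q.c i) q) := by
  have hlt : gp T Q.t (act (Q.c i)⁻¹ Q.t) q < Q.R := by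
    rw [In, Q.inv_c, not_le] at h
    exact h
  have e : act (Q.c i) (act (Q.c i)⁻¹ Q.t) = Q.t := by
    rw [← SG.f_mul, mul_inv_cancel, SG.f_one]
  have d1 : T.dist Q.t (act (Q.c i) q) = T.dist (act (Q.c i)⁻¹ Q.t) q := by
    conv_lhs => rw [← e]
    exact dist_map hT hT _ _ _
  have d2 : T.dist Q.t (act (Q.c i)⁻¹ Q.t) = T.dist Q.t (act (Q.c i) Q.t) :=
    SG.dsp_inv hT act Q.t (Q.c i)
  have h1 := (gp_spec hT Q.t (act (Q.c i)⁻¹ Q.t) q).2.2.2.2
  have h2 := (gp_spec hT Q.t (act (Q.c i) Q.t) (act (Q.c i) q)).2.2.2.2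
  rw [dist_map hT hT] at h2
  have h3 := Q.long i
  exact ⟨show Q.R ≤ _ by omega, by omega⟩

theorem mapsInto {i j : Fin 4} (hj : j ≠ ![1, 0, 3, 2] i) {q : X} (h : Q.In j q) :
    Q.In i (act (Q.c i) q) :=
  (Q.maps hT i fun h' => hj (Q.eq_of_in hT h h')).1

/-- Powers of a letter keep its shadow. -/
theorem pow_in {i : Fin 4} (hi : i ≠ ![1, 0, 3, 2] i) : ∀ n : ℕ,
    Q.In i (act (Q.c i ^ (n + 1)) Q.t) ∧
      ∀ q, Q.In i q → T.dist Q.t q + 2 * n ≤ T.dist Q.t (act (Q.c i ^ n) q) ∧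
        Q.In i (act (Q.c i ^ n) q) := by
  intro n
  induction n with
  | zero =>
    refine ⟨?_, fun q hq => ?_⟩
    · rw [zero_add, pow_one]
      exact (Q.maps hT i (Q.notIn_t hT _)).1
    · rw [pow_zero, SG.f_one]
      exact ⟨by omega, hq⟩
  | succ n ih =>
    refine ⟨?_, fun q hq => ?_⟩
    · rw [pow_succ', SG.f_mul]
      exact Q.mapsInto hT hi ih.1
    · obtain ⟨h1, h2⟩ := ih.2 q hq
      rw [pow_succ', SG.f_mul]
      obtain ⟨h3, h4⟩ := Q.maps hT i fun h' => hi (Q.eq_of_in hT h2 h')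
      exact ⟨by omega, h3⟩

end Quad

variable {O ι : Type} [Fintype O] [Fintype ι] {G : SimpleGraph (Γ × O)} {nb : Γ × O → ι → Γ × O}

theorem exists_lip (hl : Labelling G nb) (hinv : Inv G) (hT : T.IsTree)
    (act : Γ →* (T ≃g T)) (t : X) :
    ∃ D : ℕ, ∀ x y, G.Adj x y → T.dist (act x.1 t) (act y.1 t) ≤ D := by
  refine ⟨∑ o : O, ∑ j : ι, T.dist t (act (nb ((1 : Γ), o) j).1 t), fun x y h => ?_⟩
  have h' := (hinv x.1⁻¹ x y).2 h
  have e : tr x.1⁻¹ x = ((1 : Γ), x.2) := by simp [tr]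
  rw [e] at h'
  obtain ⟨j, hj⟩ := (hl.adj _ _).1 h'
  have e2 : (nb ((1 : Γ), x.2) j).1 = x.1⁻¹ * y.1 := by rw [hj]; rfl
  have e3 : T.dist (act x.1 t) (act y.1 t) = T.dist t (act (x.1⁻¹ * y.1) t) :=
    SG.dist_dsp hT act t x.1 y.1
  rw [e3, ← e2]
  exact (single_le_sum (f := fun j => T.dist t (act (nb ((1 : Γ), x.2) j).1 t))
    (fun _ _ => Nat.zero_le _) (mem_univ j)).trans
      (single_le_sum (f := fun o => ∑ j : ι, T.dist t (act (nb ((1 : Γ), o) j).1 t))
        (fun _ _ => Nat.zero_le _) (mem_univ x.2))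

omit [Fintype O] [Fintype ι] in
/-- Positions along a walk stay near its start. -/
theorem near_start (hT : T.IsTree) {act : Γ →* (T ≃g T)} {t : X} {D : ℕ}
    (hD : ∀ x y, G.Adj x y → T.dist (act x.1 t) (act y.1 t) ≤ D) {a b : Γ × O} (w : G.Walk a b) :
    ∀ v ∈ w.support, T.dist (act a.1 t) (act v.1 t) ≤ D * w.length := by
  induction w with
  | nil =>
    intro v hv
    rw [SimpleGraph.Walk.support_nil, List.mem_singleton] at hv
    simp [hv]
  | @cons u x _ hux w ih =>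
    intro v hv
    rw [SimpleGraph.Walk.support_cons, List.mem_cons] at hv
    rcases hv with rfl | hv
    · simp
    · refine (hT.connected.dist_triangle (v := act x.1 t)).trans ?_
      rw [SimpleGraph.Walk.length_cons, mul_add, mul_one, add_comm]
      exact add_le_add (ih v hv) (hD _ _ hux)

omit [Fintype O] [Fintype ι] in
theorem exists_translate (hinv : Inv G) (γ : Γ) {a b : Γ × O} (w : G.Walk a b) :
    ∃ w' : G.Walk (tr γ a) (tr γ b), w'.length = w.length ∧
      ∀ v ∈ w'.support, ∃ u ∈ w.support, v = tr γ u := by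
  induction w with
  | nil => exact ⟨.nil, rfl, fun v hv => ⟨_, List.mem_singleton_self _, by simpa using hv⟩⟩
  | @cons u x _ hux w ih =>
    obtain ⟨w', hl', hs⟩ := ih
    refine ⟨.cons ((hinv γ u x).2 hux) w', by simp [hl'], fun v hv => ?_⟩
    rw [SimpleGraph.Walk.support_cons, List.mem_cons] at hv
    rcases hv with rfl | hv
    · exact ⟨u, SimpleGraph.Walk.start_mem_support _, rfl⟩
    · obtain ⟨z, hz, rfl⟩ := hs v hv
      exact ⟨z, by simp [hz], rfl⟩

omit [Fintype O] [Fintype ι] in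
theorem exists_translate' (hinv : Inv G) (γ : Γ) {α β : Γ} {o o' : O}
    (w : G.Walk (α, o) (β, o')) :
    ∃ w' : G.Walk (γ * α, o) (γ * β, o'), w'.length = w.length ∧
      ∀ v ∈ w'.support, ∃ u ∈ w.support, v = tr γ u :=
  exists_translate hinv γ w

omit [Fintype ι] in
/-- Short walks with bounded excursion for finitely many steps. -/
theorem exists_hop (hinv : Inv G) (hconn : G.Connected) (hT : T.IsTree) (act : Γ →* (T ≃g T))
    (t : X) (o₁ : O) {D : ℕ} (hD : ∀ x y, G.Adj x y → T.dist (act x.1 t) (act y.1 t) ≤ D)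
    (S : List Γ) : ∃ L : ℕ, 1 ≤ L ∧ ∀ e ∈ S, ∀ (γ : Γ) (o : O),
      ∃ w : G.Walk (γ, o) (γ * e, o₁), w.length ≤ L ∧
        ∀ v ∈ w.support, T.dist (act γ t) (act v.1 t) ≤ D * L := by
  refine ⟨1 + (S.map fun e => ∑ o : O, G.dist ((1 : Γ), o) (e, o₁)).sum, by omega,
    fun e he γ o => ?_⟩
  obtain ⟨w₀, hw₀⟩ := hconn.exists_walk_length_eq_dist ((1 : Γ), o) (e, o₁)
  obtain ⟨w₁, hw₁, -⟩ := exists_translate' hinv γ w₀
  have heq : (γ * 1, o) = (γ, o) := by rw [mul_one]
  let w : G.Walk (γ, o) (γ * e, o₁) := w₁.copy heq rfl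
  have hlen : w.length ≤ 1 + (S.map fun e => ∑ o : O, G.dist ((1 : Γ), o) (e, o₁)).sum := by
    have h1 := single_le_sum (f := fun o => G.dist ((1 : Γ), o) (e, o₁))
      (fun _ _ => Nat.zero_le _) (mem_univ o)
    have h2 := List.le_sum_of_mem
      (List.mem_map.2 ⟨e, he, rfl⟩ :
        (∑ o : O, G.dist ((1 : Γ), o) (e, o₁)) ∈ S.map fun e => ∑ o : O, G.dist ((1 : Γ), o) (e, o₁))
    simp only [w, SimpleGraph.Walk.length_copy, hw₁]
    omega
  exact ⟨w, hlen, fun v hv => (near_start hT hD w v hv).trans (Nat.mul_le_mul_left _ hlen)⟩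

/-- Two elements with four different ends give frames for every invariant connected graph. -/
theorem exists_env (hl : Labelling G nb) (hinv : Inv G) (hconn : G.Connected) (hT : T.IsTree)
    (act : Γ →* (T ≃g T)) (o : X) (h4 : SG.FourEnds T act o) :
    ∃ E : Env Γ O ι X, E.G = G ∧ E.nb = nb := by
  classical
  obtain ⟨Q⟩ := exists_quad hT act o h4
  obtain ⟨-, o₁⟩ := (hconn.nonempty).some
  obtain ⟨D, hD⟩ := exists_lip hl hinv hT act Q.t
  obtain ⟨L, hL1, hop⟩ := exists_hop hinv hconn hT act Q.t o₁ hD [1, Q.c 0, Q.c 1, Q.c 2]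
  set R₀ := D * L with hR₀
  set k := R₀ + D + Q.R + 1 with hk
  set blk := (L + 1) * (k + 3) with hblk
  set b₁ := Q.edge 3 with hb₁
  set b₀ := mvE T act (Q.c 3 ^ k) b₁ with hb₀
  have hmv : ∀ (γ : Γ) (e : X × X) (q : X), act γ q ∈ sd T (mvE T act γ e) ↔ q ∈ sd T e :=
    fun γ e q => map_mem_sd hT (act γ) e q
  have hinvact : ∀ (γ : Γ) (q : X), act γ (act γ⁻¹ q) = q := fun γ q => by
    rw [← SG.f_mul, mul_inv_cancel, SG.f_one]
  have hpre : ∀ (γ : Γ) (e : X × X) (q : X),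
      q ∈ sd T (mvE T act γ e) ↔ act γ⁻¹ q ∈ sd T e := fun γ e q => by
    rw [← hmv γ e, hinvact]
  have op3 : (3 : Fin 4) ≠ ![1, 0, 3, 2] (3 : Fin 4) := by decide
  have op2 : (2 : Fin 4) ≠ ![1, 0, 3, 2] (2 : Fin 4) := by decide
  have hsub : sd T b₀ ⊆ sd T b₁ := fun q hq => by
    rw [hb₀, hpre, hb₁, Q.mem_edge hT] at hq
    rw [hb₁, Q.mem_edge hT, ← hinvact (Q.c 3 ^ k) q]
    exact ((Q.pow_in hT op3 k).2 _ hq).2
  have hmargin : ∀ q r, q ∉ sd T b₁ → T.dist q r ≤ R₀ + D → r ∉ sd T b₀ := by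
    intro q r hq hqr hr
    have hr₁ := hsub hr
    rw [hb₀, hpre, hb₁, Q.mem_edge hT] at hr
    obtain ⟨h1, -⟩ := (Q.pow_in hT op3 k).2 _ hr
    rw [hinvact] at h1
    rw [hb₁, Q.mem_edge hT, Quad.In] at hq hr₁
    have h2 := gp_min hT Q.t (act (Q.c 3) Q.t) r q
    obtain ⟨-, h4', -, -, h3⟩ := gp_spec hT Q.t r q
    rw [T.dist_comm (u := r)] at h3
    omega
  have hsafe : ∀ (ψ : Γ) (x : X) (p : X), p ∉ sd T (mvE T act ψ b₁) →
      T.dist p x ≤ R₀ + D → x ∉ sd T (mvE T act ψ b₀) := by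
    intro ψ x p hp hpx
    rw [hpre] at hp ⊢
    exact hmargin _ _ hp (by rw [dist_map hT hT]; exact hpx)
  -- steps of the backward frames
  set τ : Fin 3 → Γ := ![Q.c 0, Q.c 1, Q.c 2 * Q.c 0] with hτ
  set σ : Fin 3 → Γ := fun i => Q.c i.castSucc * Q.c 2 ^ (k + 1) with hσ
  have castNe : ∀ i : Fin 3, (2 : Fin 4) ≠ ![1, 0, 3, 2] i.castSucc := by decide
  have hσmaps : ∀ i q, q ∉ sd T b₀ → act (σ i) q ∈ sd T (Q.edge i.castSucc) := by
    intro i q hq
    rw [hb₀, hpre, hb₁, Q.mem_edge hT] at hq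
    have e : Q.c 2 ^ (k + 1) = Q.c 2 * (Q.c 3 ^ k)⁻¹ := by
      rw [pow_succ', show Q.c 3 = (Q.c 2)⁻¹ from Q.inv_c 2, inv_pow, inv_inv]
    rw [Q.mem_edge hT, hσ, SG.f_mul, e, SG.f_mul]
    exact Q.mapsInto hT (castNe i) (Q.maps hT 2 hq).1
  have hτmaps : ∀ i q, q ∈ sd T b₁ → act (τ i) q ∈ sd T (Q.edge i.castSucc) := by
    intro i q hq
    rw [hb₁, Q.mem_edge hT] at hq
    rw [Q.mem_edge hT]
    fin_cases i
    · exact Q.mapsInto hT (j := 3) (by decide) hq
    · exact Q.mapsInto hT (j := 3) (by decide) hq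
    · show Q.In 2 (act (Q.c 2 * Q.c 0) q)
      rw [SG.f_mul]
      exact Q.mapsInto hT (j := 0) (by decide) (Q.mapsInto hT (j := 3) (by decide) hq)
  have hline : ∀ (γ : Γ) (n : ℕ) (o : O), ∃ w : G.Walk (γ, o) (γ * Q.c 2 ^ n, o₁),
      w.length ≤ L * (n + 1) ∧
        ∀ v ∈ w.support, ∃ j, T.dist (act (γ * Q.c 2 ^ j) Q.t) (act v.1 Q.t) ≤ R₀ := by
    intro γ n
    induction n with
    | zero =>
      intro o
      obtain ⟨w, hw, hv⟩ := hop 1 (by simp) γ o
      refine ⟨w.copy rfl (by rw [pow_zero]), by simpa using hw, fun v hv' => ⟨0, ?_⟩⟩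
      rw [pow_zero, mul_one]
      exact hv v (by simpa using hv')
    | succ n ih =>
      intro o
      obtain ⟨w, hw, hv⟩ := ih o
      obtain ⟨w', hw', hv'⟩ := hop (Q.c 2) (by simp) (γ * Q.c 2 ^ n) o₁
      refine ⟨(w.append w').copy rfl (by rw [pow_succ, mul_assoc]), ?_, fun v hv'' => ?_⟩
      · rw [SimpleGraph.Walk.length_copy, SimpleGraph.Walk.length_append, mul_add L (n + 1) 1]
        omega
      · rw [SimpleGraph.Walk.support_copy, SimpleGraph.Walk.mem_support_append_iff] at hv''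
        rcases hv'' with h | h
        · exact hv v h
        · exact ⟨n, hv' v h⟩
  have hσpath : ∀ i o, ∃ w : G.Walk ((1 : Γ), o) (σ i, o₁), w.length ≤ blk ∧ ∀ v ∈ w.support,
      ∃ q, (q = Q.t ∨ q ∈ sd T (Q.edge i.castSucc)) ∧ T.dist q (act v.1 Q.t) ≤ R₀ := by
    intro i o
    have hmem : Q.c i.castSucc ∈ [1, Q.c 0, Q.c 1, Q.c 2] := by fin_cases i <;> simp
    obtain ⟨w, hw, hv⟩ := hop (Q.c i.castSucc) hmem 1 o
    obtain ⟨w', hw', hv'⟩ := hline (Q.c i.castSucc) (k + 1) o₁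
    refine ⟨(w.copy rfl (by rw [one_mul])).append w', ?_, fun v h => ?_⟩
    · rw [SimpleGraph.Walk.length_append, SimpleGraph.Walk.length_copy, hblk]
      calc w.length + w'.length ≤ L + L * (k + 1 + 1) := by omega
        _ ≤ (L + 1) * (k + 3) := by ring_nf; omega
    · rw [SimpleGraph.Walk.mem_support_append_iff, SimpleGraph.Walk.support_copy] at h
      rcases h with h | h
      · refine ⟨Q.t, Or.inl rfl, ?_⟩
        have := hv v h
        rwa [SG.f_one] at this
      · obtain ⟨j, hj⟩ := hv' v h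
        refine ⟨_, Or.inr ?_, hj⟩
        rw [Q.mem_edge hT, SG.f_mul]
        rcases j with - | j
        · rw [pow_zero, SG.f_one]
          exact (Q.maps hT _ (Q.notIn_t hT _)).1
        · exact Q.mapsInto hT (castNe i) (Q.pow_in hT op2 j).1
  have hτpath : ∀ i z z', (z' = z ∨ G.Adj z' z) →
      Joined₀ G T act Q.t b₀ o₁ (z.1 * τ i) blk z' := by
    intro i z z' hz
    -- images of the base are outside the larger half tree
    have back : ∀ (γ δ : Γ) (j : Fin 4), j ≠ 3 → Q.In j (act δ⁻¹ Q.t) →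
        act γ Q.t ∉ sd T (mvE T act (γ * δ) b₁) := by
      intro γ δ j hj hin
      rw [hpre, hb₁, Q.mem_edge hT, mul_inv_rev, SG.f_mul, ← SG.f_mul act γ⁻¹ γ,
        inv_mul_cancel, SG.f_one]
      exact fun h => hj (Q.eq_of_in hT hin h)
    have inv0 : Q.In 1 (act (Q.c 0)⁻¹ Q.t) := by
      rw [← show Q.c 1 = (Q.c 0)⁻¹ from Q.inv_c 0]
      exact (Q.maps hT 1 (Q.notIn_t hT _)).1
    have inv1 : Q.In 0 (act (Q.c 1)⁻¹ Q.t) := by
      rw [← show Q.c 0 = (Q.c 1)⁻¹ from Q.inv_c 1]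
      exact (Q.maps hT 0 (Q.notIn_t hT _)).1
    have inv20 : Q.In 1 (act (Q.c 2 * Q.c 0)⁻¹ Q.t) := by
      rw [mul_inv_rev, ← show Q.c 1 = (Q.c 0)⁻¹ from Q.inv_c 0,
        ← show Q.c 3 = (Q.c 2)⁻¹ from Q.inv_c 2, SG.f_mul]
      exact Q.mapsInto hT (j := 3) (by decide) (Q.maps hT 3 (Q.notIn_t hT _)).1
    have step : ∃ w : G.Walk z' z, w.length ≤ 1 ∧
        ∀ v ∈ w.support, T.dist (act z.1 Q.t) (act v.1 Q.t) ≤ R₀ + D := by
      rcases hz with rfl | hadj
      · exact ⟨.nil, by simp, fun v hv => by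
          rw [SimpleGraph.Walk.support_nil, List.mem_singleton] at hv; simp [hv]⟩
      · refine ⟨hadj.toWalk, by simp, fun v hv => ?_⟩
        simp at hv
        rcases hv with rfl | rfl
        · have := hD _ _ hadj.symm
          omega
        · simp
    obtain ⟨w₀, hw₀, hv₀⟩ := step
    have single : ∀ (e : Γ) (j : Fin 4), e ∈ [1, Q.c 0, Q.c 1, Q.c 2] → j ≠ 3 →
        Q.In j (act e⁻¹ Q.t) → Joined₀ G T act Q.t b₀ o₁ (z.1 * e) blk z' := by
      intro e j he hj hin
      obtain ⟨w, hw, hv⟩ := hop e he z.1 z.2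
      refine ⟨w₀.append w, ?_, fun v h => ?_⟩
      · rw [SimpleGraph.Walk.length_append, hblk]
        calc w₀.length + w.length ≤ 1 + L := by omega
          _ ≤ (L + 1) * (k + 3) := by ring_nf; omega
      · refine hsafe _ _ _ (back z.1 e j hj hin) ?_
        rcases SimpleGraph.Walk.mem_support_append_iff _ _ |>.1 h with h | h
        · exact hv₀ v h
        · have := hv v h
          omega
    fin_cases i
    · exact single (Q.c 0) 1 (by simp) (by decide) inv0
    · exact single (Q.c 1) 0 (by simp) (by decide) inv1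
    · show Joined₀ G T act Q.t b₀ o₁ (z.1 * (Q.c 2 * Q.c 0)) blk z'
      obtain ⟨w, hw, hv⟩ := hop (Q.c 2) (by simp) z.1 z.2
      obtain ⟨w', hw', hv'⟩ := hop (Q.c 0) (by simp) (z.1 * Q.c 2) o₁
      refine ⟨(w₀.append (w.append w')).copy rfl (by rw [mul_assoc]), ?_, fun v h => ?_⟩
      · simp only [SimpleGraph.Walk.length_copy, SimpleGraph.Walk.length_append, hblk]
        calc w₀.length + (w.length + w'.length) ≤ 1 + (L + L) := by omega
          _ ≤ (L + 1) * (k + 3) := by ring_nf; omega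
      · rw [SimpleGraph.Walk.support_copy, SimpleGraph.Walk.mem_support_append_iff,
          SimpleGraph.Walk.mem_support_append_iff] at h
        rcases h with h | h | h
        · exact hsafe _ _ _ (back z.1 _ 1 (by decide) inv20) (hv₀ v h)
        · exact hsafe _ _ _ (back z.1 _ 1 (by decide) inv20) (by have := hv v h; omega)
        · have hb := back (z.1 * Q.c 2) (Q.c 0) 1 (by decide) inv0
          rw [mul_assoc] at hb
          exact hsafe _ _ _ hb (by have := hv' v h; omega)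
  have hdeep : ∀ (m : ℕ), ∃ P : Finset Γ, P.card = 2 ^ m ∧
      (∀ ψ ∈ P, (∀ q ∈ sd T (mvE T act ψ b₁), (Q.In 0 q ∨ Q.In 2 q) ∧ m < T.dist Q.t q) ∧
        ∀ o : O, ∃ w : G.Walk ((1 : Γ), o) (ψ, o₁), w.length ≤ L * (m + 1) ∧ ∀ v ∈ w.support,
          ∃ q, q ∉ sd T (mvE T act ψ b₁) ∧ T.dist q (act v.1 Q.t) ≤ R₀) ∧
      (P : Set Γ).Pairwise fun ψ ψ' =>
        Disjoint (sd T (mvE T act ψ b₁)) (sd T (mvE T act ψ' b₁)) := by
    intro m
    induction m with
    | zero =>
      have h0 : ∀ q ∈ sd T (mvE T act (Q.c 0) b₁), Q.In 0 q := fun q hq => by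
        rw [hpre, hb₁, Q.mem_edge hT] at hq
        rw [← hinvact (Q.c 0) q]
        exact Q.mapsInto hT (j := 3) (by decide) hq
      refine ⟨{Q.c 0}, by simp, fun ψ hψ => ?_, by simp⟩
      rw [mem_singleton] at hψ
      subst hψ
      refine ⟨fun q hq => ⟨Or.inl (h0 q hq), ?_⟩, fun o => ?_⟩
      · have := Q.depth hT (h0 q hq)
        have := Q.one_le
        omega
      · obtain ⟨w, hw, hv⟩ := hop (Q.c 0) (by simp) 1 o
        refine ⟨w.copy rfl (by rw [one_mul]), by simpa using hw, fun v h => ⟨Q.t, ?_, ?_⟩⟩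
        · exact fun h' => Q.notIn_t hT 0 (h0 _ h')
        · have := hv v (by simpa using h)
          rwa [SG.f_one] at this
    | succ m ih =>
      obtain ⟨P, hcard, hP, hdis⟩ := ih
      have hstep : ∀ a : Fin 4, (a = 0 ∨ a = 2) → ∀ ψ ∈ P,
          (∀ q ∈ sd T (mvE T act (Q.c a * ψ) b₁), Q.In a q ∧ m + 1 < T.dist Q.t q) ∧
          ∀ o : O, ∃ w : G.Walk ((1 : Γ), o) (Q.c a * ψ, o₁), w.length ≤ L * (m + 1 + 1) ∧
            ∀ v ∈ w.support, ∃ q, q ∉ sd T (mvE T act (Q.c a * ψ) b₁) ∧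
              T.dist q (act v.1 Q.t) ≤ R₀ := by
        intro a ha ψ hψ
        have hin : ∀ q ∈ sd T (mvE T act (Q.c a * ψ) b₁),
            Q.In a q ∧ m + 1 < T.dist Q.t q := by
          intro q hq
          rw [hpre, mul_inv_rev, SG.f_mul, ← hpre] at hq
          obtain ⟨h1, h2⟩ := (hP ψ hψ).1 _ hq
          have hnot : ¬Q.In (![1, 0, 3, 2] a) (act (Q.c a)⁻¹ q) := by
            intro h'
            rcases h1 with h1 | h1 <;> rcases ha with rfl | rfl <;>
              exact absurd (Q.eq_of_in hT h1 h') (by decide)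
          obtain ⟨h3, h4'⟩ := Q.maps hT a hnot
          rw [hinvact] at h3 h4'
          exact ⟨h3, by omega⟩
        refine ⟨hin, fun o => ?_⟩
        have hmem : Q.c a ∈ [1, Q.c 0, Q.c 1, Q.c 2] := by rcases ha with rfl | rfl <;> simp
        obtain ⟨w, hw, hv⟩ := hop (Q.c a) hmem 1 o
        obtain ⟨w', hw', hv'⟩ := (hP ψ hψ).2 o₁
        obtain ⟨w'', hw'', hv''⟩ := exists_translate' hinv (Q.c a) w'
        refine ⟨(w.copy rfl (by rw [one_mul, mul_one])).append w'', ?_, fun v h => ?_⟩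
        · simp only [SimpleGraph.Walk.length_append, SimpleGraph.Walk.length_copy,
            hw'', mul_add L (m + 1) 1]
          omega
        · rw [SimpleGraph.Walk.mem_support_append_iff, SimpleGraph.Walk.support_copy] at h
          rcases h with h | h
          · refine ⟨Q.t, fun h' => Q.notIn_t hT a (hin _ h').1, ?_⟩
            have := hv v h
            rwa [SG.f_one] at this
          · obtain ⟨u, hu, rfl⟩ := hv'' v h
            obtain ⟨q, hq, hd⟩ := hv' u hu
            refine ⟨act (Q.c a) q, ?_, ?_⟩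
            · rw [hpre, mul_inv_rev, SG.f_mul, ← hpre, ← SG.f_mul, inv_mul_cancel, SG.f_one]
              exact hq
            · show T.dist _ (act (Q.c a * u.1) Q.t) ≤ R₀
              rw [SG.f_mul, dist_map hT hT]
              exact hd
      have hcross : ∀ ψ ∈ P, ∀ ψ' ∈ P, Disjoint (sd T (mvE T act (Q.c 0 * ψ) b₁))
          (sd T (mvE T act (Q.c 2 * ψ') b₁)) := fun ψ hψ ψ' hψ' =>
        Set.disjoint_left.2 fun q h1 h2 => absurd (Q.eq_of_in hT
          ((hstep 0 (Or.inl rfl) ψ hψ).1 q h1).1 ((hstep 2 (Or.inr rfl) ψ' hψ').1 q h2).1)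
          (by decide)
      have hne : ∀ ψ ∈ P, ∀ ψ' ∈ P, Q.c 0 * ψ ≠ Q.c 2 * ψ' := fun ψ hψ ψ' hψ' e => by
        have hh : act (Q.c 0 * ψ) b₁.2 ∈ sd T (mvE T act (Q.c 0 * ψ) b₁) :=
          (hmv _ _ _).2 (head_mem_sd (Q.adj_edge hT 3))
        have := hcross ψ hψ ψ' hψ'
        rw [← e] at this
        exact Set.disjoint_left.1 this hh hh
      refine ⟨P.image (Q.c 0 * ·) ∪ P.image (Q.c 2 * ·), ?_, fun ψ hψ => ?_, ?_⟩
      · rw [card_union_of_disjoint, card_image_of_injective _ (mul_right_injective _),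
          card_image_of_injective _ (mul_right_injective _), hcard, pow_succ]
        · omega
        · rw [disjoint_left]
          intro x h1 h2
          obtain ⟨ψ, hψ, rfl⟩ := mem_image.1 h1
          obtain ⟨ψ', hψ', e⟩ := mem_image.1 h2
          exact hne ψ hψ ψ' hψ' e.symm
      · rcases mem_union.1 hψ with h | h <;> obtain ⟨φ, hφ, rfl⟩ := mem_image.1 h
        · obtain ⟨h1, h2⟩ := hstep 0 (Or.inl rfl) φ hφ
          exact ⟨fun q hq => ⟨Or.inl (h1 q hq).1, (h1 q hq).2⟩, h2⟩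
        · obtain ⟨h1, h2⟩ := hstep 2 (Or.inr rfl) φ hφ
          exact ⟨fun q hq => ⟨Or.inr (h1 q hq).1, (h1 q hq).2⟩, h2⟩
      · intro x hx y hy hxy
        have same : ∀ (γ : Γ) (φ φ' : Γ), φ ∈ P → φ' ∈ P → γ * φ ≠ γ * φ' →
            Disjoint (sd T (mvE T act (γ * φ) b₁)) (sd T (mvE T act (γ * φ') b₁)) := by
          intro γ φ φ' hφ hφ' hn
          refine Set.disjoint_left.2 fun q h1 h2 => ?_
          rw [hpre, mul_inv_rev, SG.f_mul, ← hpre] at h1 h2
          exact Set.disjoint_left.1 (hdis hφ hφ' fun e => hn (by rw [e])) h1 h2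
        rcases mem_union.1 (mem_coe.1 hx) with h | h <;>
          rcases mem_union.1 (mem_coe.1 hy) with h' | h' <;>
          obtain ⟨φ, hφ, rfl⟩ := mem_image.1 h <;> obtain ⟨φ', hφ', rfl⟩ := mem_image.1 h'
        · exact same _ _ _ hφ hφ' hxy
        · exact hcross φ hφ φ' hφ'
        · exact (hcross φ' hφ' φ hφ).symm
        · exact same _ _ _ hφ hφ' hxy
  refine ⟨Env.make G nb hl hinv hconn o₁ T hT act Q.t D hD b₀ b₁ (fun i => Q.edge i.castSucc)
    σ τ blk R₀ ?_ ?_ (Q.adj_edge hT 3) (fun i => Q.adj_edge hT _) hsub hmargin ?_ ?_ ?_ ?_ ?_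
    hσmaps hτmaps hσpath hτpath ?_, rfl, rfl⟩
  · rw [hblk]
    exact Nat.mul_pos (by omega) (by omega)
  · exact (act (Q.c 3 ^ k)).map_rel_iff'.2 (Q.adj_edge hT 3)
  · rw [hb₁, Q.mem_edge hT]
    exact Q.notIn_t hT 3
  · intro i
    rw [Q.mem_edge hT]
    exact Q.notIn_t hT _
  · intro i
    refine Set.disjoint_left.2 fun q h1 h2 => ?_
    rw [Q.mem_edge hT] at h1
    rw [hb₁, Q.mem_edge hT] at h2
    exact (show ∀ j : Fin 3, j.castSucc ≠ (3 : Fin 4) by decide) i (Q.eq_of_in hT h1 h2)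
  · intro i j hij
    refine Set.disjoint_left.2 fun q h1 h2 => ?_
    rw [Q.mem_edge hT] at h1 h2
    exact hij (Fin.castSucc_injective _ (Q.eq_of_in hT h1 h2))
  · intro u w
    obtain ⟨i, hi⟩ := Q.avoid u w
    exact ⟨i, fun q hq => hi q ((Q.mem_edge hT).1 hq)⟩
  · intro m o
    obtain ⟨P, hcard, hP, hdis⟩ := hdeep m
    refine ⟨P, hcard, fun ψ hψ => ⟨?_, fun q hq h => ?_⟩, hdis⟩
    · obtain ⟨w, hw, hv⟩ := (hP ψ hψ).2 o
      refine ⟨w, hw.trans (Nat.mul_le_mul_right _ ?_), fun v h => ?_⟩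
      · rw [hblk]
        calc L ≤ (L + 1) * 1 := by omega
          _ ≤ (L + 1) * (k + 3) := Nat.mul_le_mul_left _ (by omega)
      · obtain ⟨q, hq, hd⟩ := hv v h
        exact hsafe ψ _ q hq (by omega)
    · have := ((hP ψ hψ).1 q h).2
      omega

end Vale.Agent.P165.TR
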