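import Vale.Agent.P165.TL.Tree

/-!
# Half trees

`sd T e` is the half tree beyond the directed edge `e`, and `gp T x u w` is also the distance of `x`
to the geodesic from `u` to `w`.
-/

namespace Vale.Agent.P165.TR

open TL SimpleGraph

variable {X : Type} {T : SimpleGraph X}

/-- The vertices beyond a directed edge. -/
def sd (T : SimpleGraph X) (e : X × X) : Set X := {q | T.dist q e.2 < T.dist q e.1}

theorem mem_sd {e : X × X} {q : X} : q ∈ sd T e ↔ T.dist q e.2 < T.dist q e.1 := Iff.rfl

theorem adj_dist (hT : T.IsTree) {a b : X} (h : T.Adj a b) (q : X) :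
    T.dist q a = T.dist q b + 1 ∨ T.dist q b = T.dist q a + 1 := by
  obtain ⟨h1, h2, -, -, h5⟩ := gp_spec hT a q b
  have hab : T.dist a b = 1 := dist_eq_one_iff_adj.2 h
  rw [T.dist_comm (u := q) (v := a)]
  omega

/-- The two sides of an edge are complementary. -/
theorem notMem_sd_iff (hT : T.IsTree) {e : X × X} (he : T.Adj e.1 e.2) {q : X} :
    q ∉ sd T e ↔ q ∈ sd T e.swap := by
  simp only [mem_sd, Prod.fst_swap, Prod.snd_swap]
  rcases adj_dist hT he q with h | h <;> omega

theorem head_mem_sd {e : X × X} (he : T.Adj e.1 e.2) : e.2 ∈ sd T e := by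
  rw [mem_sd, T.dist_self, dist_eq_one_iff_adj.2 he.symm]
  omega

theorem tail_notMem_sd {e : X × X} : e.1 ∉ sd T e := by
  simp [mem_sd]

/-- A geodesic between the two sides passes through the edge. -/
theorem dist_across (hT : T.IsTree) {e : X × X} (he : T.Adj e.1 e.2) {q r : X} (hq : q ∈ sd T e)
    (hr : r ∉ sd T e) : T.dist q r = T.dist q e.2 + 1 + T.dist e.1 r := by
  rw [mem_sd] at hq hr
  have h4 : T.dist q e.1 = T.dist q e.2 + 1 := by rcases adj_dist hT he q with h | h <;> omega
  have h5 : T.dist r e.2 = T.dist r e.1 + 1 := by rcases adj_dist hT he r with h | h <;> omega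
  have h1 := (gp_spec hT e.1 q r).2.2.2.2
  have hg : gp T e.1 q r = 0 := by
    have g1 := (gp_spec hT e.1 q e.2)
    have g2 := (gp_spec hT e.1 r e.2)
    have g3 := gp_min hT e.1 e.2 q r
    have hab : T.dist e.1 e.2 = 1 := dist_eq_one_iff_adj.2 he
    rw [T.dist_comm (u := e.1) (v := q)] at g1
    rw [T.dist_comm (u := e.1) (v := r)] at g2
    rw [gp_comm hT e.1 e.2 q] at g3
    have g4 := gp_comm hT e.1 r e.2
    omega
  rw [T.dist_comm (u := e.1) (v := q)] at h1
  omega

/-- Both ends of an edge separating two points lie between them, the tail nearer to the point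
outside. -/
theorem edge_eq_pt (hT : T.IsTree) {e : X × X} (he : T.Adj e.1 e.2) {q r : X} (hq : q ∈ sd T e)
    (hr : r ∉ sd T e) : e.2 = pt T q r (T.dist q e.2) ∧ e.1 = pt T q r (T.dist q e.2 + 1) ∧
      T.dist q e.2 < T.dist q r := by
  have h := dist_across hT he hq hr
  have h21 : T.dist e.2 e.1 = 1 := dist_eq_one_iff_adj.2 he.symm
  have h1 : T.dist q e.1 = T.dist q e.2 + 1 := by
    rw [mem_sd] at hq
    rcases adj_dist hT he q with h | h <;> omega
  have t1 := hT.connected.dist_triangle (u := q) (v := e.2) (w := r)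
  have t2 := hT.connected.dist_triangle (u := e.2) (v := e.1) (w := r)
  have p2 : pt T q r (T.dist q e.2) = e.2 := eq_pt_of_between hT (x := e.2) (by omega)
  have p1 : pt T q r (T.dist q e.1) = e.1 := eq_pt_of_between hT (x := e.1) (by omega)
  exact ⟨p2.symm, by rw [← h1, p1], by omega⟩

/-- A point seen from `x` in another direction than the tail is beyond the edge when `x` is. -/
theorem mem_sd_of_gp (hT : T.IsTree) {e : X × X} {x q : X} (hx : x ∈ sd T e)
    (h : gp T x q e.1 = 0) : q ∈ sd T e := by
  have h1 := (gp_spec hT x q e.1).2.2.2.2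
  have h2 := hT.connected.dist_triangle (u := q) (v := x) (w := e.2)
  rw [mem_sd] at hx ⊢
  rw [h, T.dist_comm (u := x) (v := q)] at h1
  omega

/-- A branch leaving the geodesic `[u, w]` behind at `x` adds up the distances to it. -/
theorem gp_branch (hT : T.IsTree) {x u w q : X} (hu : gp T x q u = 0) (hw : gp T x q w = 0) :
    gp T q u w = T.dist x q + gp T x u w := by
  have h1 := (gp_spec hT x q u).2.2.2.2
  have h2 := (gp_spec hT x q w).2.2.2.2
  have h3 := (gp_spec hT x u w).2.2.2.2
  have h4 := (gp_spec hT q u w).2.2.2.2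
  omega

/-- An automorphism moves half trees. -/
theorem map_mem_sd (hT : T.IsTree) (f : T ≃g T) (e : X × X) (q : X) :
    f q ∈ sd T (f e.1, f e.2) ↔ q ∈ sd T e := by
  simp [mem_sd, dist_map hT hT f]

theorem gp_map (hT : T.IsTree) (f : T ≃g T) (x u w : X) : gp T (f x) (f u) (f w) = gp T x u w := by
  have h1 := (gp_spec hT (f x) (f u) (f w)).2.2.2.2
  have h2 := (gp_spec hT x u w).2.2.2.2
  rw [dist_map hT hT f, dist_map hT hT f, dist_map hT hT f] at h1
  omega

end Vale.Agent.P165.TR
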