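import Mathlib.GroupTheory.HNNExtension
import Vale.Agent.P165.SG.Classes
import Vale.Agent.P165.TL.Tree

/-!
# Four ends on the tree of an HNN extension

The vertices are the right cosets of the base group, that is the lists of the normal words, and the
parent of a list is its tail. If both associated subgroups are proper, the stable letter and one of
its conjugates escape in four directions.
-/

namespace Vale.Agent.P165.TR.HNN

open HNNExtension HNNExtension.NormalWord SimpleGraph

variable {G : Type} [Group G] {A B : Subgroup G} (φ : A ≃* B) (d : TransversalPair G A B)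

/-- The letters of the normal word of `x`. -/
noncomputable def word (x : HNNExtension G A B φ) : List (ℤˣ × G) :=
  (x • (empty : NormalWord d)).toList

/-- The vertices of the tree. -/
def Vert : Type := {l : List (ℤˣ × G) // ∃ x, word φ d x = l}

/-- The vertex of `x`. -/
noncomputable def vert (x : HNNExtension G A B φ) : Vert φ d := ⟨word φ d x, x, rfl⟩

/-- Each list is joined to its tail. -/
def tree : SimpleGraph (Vert φ d) := SimpleGraph.fromRel fun a b => a.1.tail = b.1

theorem word_of_mul (g : G) (x : HNNExtension G A B φ) : word φ d (of g * x) = word φ d x := by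
  rw [word, mul_smul, of_smul_eq_smul, group_smul_toList]
  rfl

theorem word_prod (w : NormalWord d) : word φ d (w.prod φ) = w.toList := by
  rw [word, prod_smul_empty]

theorem word_one : word φ d 1 = [] := by
  rw [word, one_smul]
  rfl

/-- Two elements with the same list are in the same coset. -/
theorem coset_of_word {x y : HNNExtension G A B φ} (h : word φ d x = word φ d y) :
    ∃ g : G, y = of g * x := by
  set wx : NormalWord d := x • empty
  set wy : NormalWord d := y • empty
  refine ⟨wy.head * wx.head⁻¹, ?_⟩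
  have hx : wx.prod φ = x := by simp [wx]
  have hy : wy.prod φ = y := by simp [wy]
  have hl : wx.toList = wy.toList := h
  rw [← hx, ← hy, ← prod_group_smul]
  congr 1
  rw [NormalWord.ext (w := (wy.head * wx.head⁻¹) • wx) (w' := wy) (by simp) hl]

/-- A stable letter adds or removes one letter. -/
theorem word_step (u : ℤˣ) (x : HNNExtension G A B φ) :
    ((word φ d x).tail = word φ d (t ^ (u : ℤ) * x) ∧ word φ d x ≠ []) ∨
      ∃ a, word φ d (t ^ (u : ℤ) * x) = a :: word φ d x := by
  classical
  set w : NormalWord d := x • empty with hw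
  have e : word φ d (t ^ (u : ℤ) * x) = (unitsSMul φ u w).toList := by
    rw [word, mul_smul, t_pow_smul_eq_unitsSMul]
  rw [e, show word φ d x = w.toList from rfl]
  by_cases hc : Cancels u w
  · refine Or.inl ?_
    rw [unitsSMul, dif_pos hc]
    clear_value w
    clear hw e
    induction w using consRecOn with
    | ofGroup g => exact absurd hc.2 (by simp)
    | cons g u' w' h1 h2 _ =>
      simp [unitsSMulWithCancel]
  · refine Or.inr ?_
    rw [unitsSMul, dif_neg hc]
    simp only [cons_toList, group_smul_toList]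
    exact ⟨_, rfl⟩

/-- A list with at least one letter comes from a stable letter applied to its tail. -/
theorem exists_step {a : Vert φ d} (ha : a.1 ≠ []) :
    ∃ (u : ℤˣ) (x : HNNExtension G A B φ),
      word φ d x = a.1.tail ∧ word φ d (t ^ (u : ℤ) * x) = a.1 := by
  obtain ⟨l, x₀, rfl⟩ := a
  set w : NormalWord d := x₀ • empty with hw
  have hx : w.prod φ = x₀ := by simp [w]
  have hl : word φ d x₀ = w.toList := rfl
  clear_value w
  clear hw
  subst hx
  induction w using consRecOn with
  | ofGroup g => simp [hl] at ha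
  | cons g u w h1 h2 _ =>
    refine ⟨u, w.prod φ, ?_, ?_⟩
    · show _ = (word φ d _).tail
      rw [hl, word_prod, cons_toList, List.tail_cons]
    · show _ = word φ d _
      rw [prod_cons, word_of_mul]

theorem adj_iff {a b : Vert φ d} : (tree φ d).Adj a b ↔
    ∃ (u : ℤˣ) (g : G) (x : HNNExtension G A B φ),
      word φ d x = a.1 ∧ word φ d (t ^ (u : ℤ) * (of g * x)) = b.1 := by
  rw [tree, SimpleGraph.fromRel_adj]
  constructor
  · rintro ⟨hne, h | h⟩
    · have ha : a.1 ≠ [] := fun e => hne (Subtype.ext (by rw [← h, e]; rfl))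
      obtain ⟨u, x, h1, h2⟩ := exists_step φ d ha
      refine ⟨-u, 1, t ^ (u : ℤ) * x, h2, ?_⟩
      rw [map_one, one_mul, ← mul_assoc, Units.val_neg, zpow_neg, inv_mul_cancel, one_mul, h1, h]
    · have hb : b.1 ≠ [] := fun e => hne (Subtype.ext (by rw [← h, e]; rfl))
      obtain ⟨u, x, h1, h2⟩ := exists_step φ d hb
      exact ⟨u, 1, x, by rw [h1, h], by rw [map_one, one_mul, h2]⟩
  · rintro ⟨u, g, x, hx, hb⟩
    rcases word_step φ d u (of g * x) with ⟨h1, h2⟩ | ⟨c, h1⟩
    · rw [word_of_mul, hx] at h1 h2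
      rw [hb] at h1
      refine ⟨fun e => ?_, Or.inl h1⟩
      have := congrArg List.length h1
      rw [← e, List.length_tail] at this
      have := List.length_pos_iff.2 h2
      omega
    · rw [word_of_mul, hx, hb] at h1
      refine ⟨fun e => ?_, Or.inr (by rw [h1]; rfl)⟩
      have := congrArg List.length h1
      rw [← e, List.length_cons] at this
      omega

theorem exists_walk_root : ∀ (n : ℕ) (a : Vert φ d), a.1.length = n →
    ∃ w : (tree φ d).Walk a (vert φ d 1), w.length = n
  | 0, a, h => by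
    have : a = vert φ d 1 :=
      Subtype.ext ((List.eq_nil_of_length_eq_zero h).trans (word_one φ d).symm)
    subst this
    exact ⟨.nil, rfl⟩
  | n + 1, a, h => by
    obtain ⟨u, x, h1, h2⟩ := exists_step φ d (a := a) (by intro e; simp [e] at h)
    obtain ⟨w, hw⟩ := exists_walk_root n (vert φ d x) (by
      show (word φ d x).length = n
      rw [h1, List.length_tail]; omega)
    have hadj : (tree φ d).Adj a (vert φ d x) :=
      ((adj_iff φ d).2 ⟨u, 1, x, rfl, by rw [map_one, one_mul, h2]⟩).symm
    exact ⟨.cons hadj w, by rw [Walk.length_cons, hw]⟩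

theorem reach_root (a : Vert φ d) : (tree φ d).Reachable a (vert φ d 1) :=
  let ⟨w, _⟩ := exists_walk_root φ d _ a rfl
  ⟨w⟩

theorem isTree_tree : (tree φ d).IsTree := by
  have : Nonempty (Vert φ d) := ⟨vert φ d 1⟩
  refine ⟨⟨fun a b => (reach_root φ d a).trans (reach_root φ d b).symm⟩, ?_⟩
  rw [isAcyclic_iff_forall_adj_isBridge]
  intro a b hab
  rw [isBridge_iff]
  -- one orientation suffices
  suffices key : ∀ a b : Vert φ d, a.1.tail = b.1 → a ≠ b →
      ¬((tree φ d).deleteEdges {s(a, b)}).Reachable a b by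
    rw [tree, SimpleGraph.fromRel_adj] at hab
    rcases hab with ⟨hne, h | h⟩
    · exact key a b h hne
    · intro hr
      refine key b a h (Ne.symm hne) ?_
      rw [Sym2.eq_swap]
      exact hr.symm
  intro a b h hne hr
  obtain ⟨w⟩ := hr
  suffices hs : ∀ (c c' : Vert φ d) (w : ((tree φ d).deleteEdges {s(a, b)}).Walk c c'),
      a.1 <:+ c.1 → a.1 <:+ c'.1 by
    have h2 := (hs a b w (List.suffix_refl _)).length_le
    rw [← h, List.length_tail] at h2
    have : a.1.length ≠ 0 := fun e => hne (Subtype.ext (by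
      rw [← h, List.eq_nil_of_length_eq_zero e]; rfl))
    omega
  intro c c' w
  induction w with
  | nil => exact id
  | @cons x y _ hadj w ih =>
    intro hx
    refine ih ?_
    obtain ⟨hadj, hnot⟩ := SimpleGraph.deleteEdges_adj.1 hadj
    rw [tree, SimpleGraph.fromRel_adj] at hadj
    rcases hadj with ⟨hxy, hy | hy⟩
    · rcases hxl : x.1 with _ | ⟨e, l⟩
      · exact absurd (Subtype.ext (by rw [← hy, hxl]; rfl)) hxy
      · rw [hxl, List.suffix_cons_iff] at hx
        rw [← hy, hxl, List.tail_cons]
        rcases hx with hx | hx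
        · have hax : a = x := Subtype.ext (hx.trans hxl.symm)
          have hby : b = y := Subtype.ext (by rw [← h, ← hy, hax])
          exact absurd (by rw [hax, hby]; rfl) hnot
        · exact hx
    · rcases hyl : y.1 with _ | ⟨e, l⟩
      · exact absurd (Subtype.ext (by rw [← hy, hyl]; rfl)) hxy
      · rw [← hy, hyl, List.tail_cons] at hx
        exact hx.trans (List.suffix_cons e l)

theorem length_le_of_walk {a b : Vert φ d} (w : (tree φ d).Walk a b) :
    a.1.length ≤ b.1.length + w.length := by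
  induction w with
  | nil => simp
  | @cons x y _ hadj w ih =>
    rw [tree, SimpleGraph.fromRel_adj] at hadj
    rw [Walk.length_cons]
    rcases hadj.2 with h | h <;> have := congrArg List.length h <;>
      rw [List.length_tail] at this <;> omega

theorem dist_root (a : Vert φ d) : (tree φ d).dist a (vert φ d 1) = a.1.length := by
  refine le_antisymm ?_ ?_
  · obtain ⟨w, hw⟩ := exists_walk_root φ d _ a rfl
    exact (SimpleGraph.dist_le w).trans hw.le
  · obtain ⟨w, hw⟩ := (reach_root φ d a).exists_walk_length_eq_dist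
    have := length_le_of_walk φ d w
    rw [show (vert φ d 1).1 = [] from word_one φ d, hw] at this
    simpa using this

/-- Right translation of the cosets. -/
noncomputable def move (γ : HNNExtension G A B φ) (a : Vert φ d) : Vert φ d :=
  vert φ d (a.2.choose * γ⁻¹)

theorem move_vert (γ x : HNNExtension G A B φ) :
    move φ d γ (vert φ d x) = vert φ d (x * γ⁻¹) := by
  obtain ⟨g, hg⟩ := coset_of_word φ d ((vert φ d x).2.choose_spec.symm)
  refine Subtype.ext ?_
  show word φ d (_ * γ⁻¹) = word φ d (x * γ⁻¹)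
  rw [hg, mul_assoc, word_of_mul]

theorem move_mul (γ δ : HNNExtension G A B φ) (a : Vert φ d) :
    move φ d (γ * δ) a = move φ d γ (move φ d δ a) := by
  obtain ⟨l, x, rfl⟩ := a
  show move φ d _ (vert φ d x) = move φ d γ (move φ d δ (vert φ d x))
  rw [move_vert, move_vert, move_vert, mul_inv_rev, mul_assoc]

theorem move_one (a : Vert φ d) : move φ d 1 a = a := by
  obtain ⟨l, x, rfl⟩ := a
  show move φ d _ (vert φ d x) = vert φ d x
  rw [move_vert, inv_one, mul_one]

theorem move_adj (γ : HNNExtension G A B φ) {a b : Vert φ d} (h : (tree φ d).Adj a b) :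
    (tree φ d).Adj (move φ d γ a) (move φ d γ b) := by
  obtain ⟨u, g, x, hx, hb⟩ := (adj_iff φ d).1 h
  have ha : a = vert φ d x := Subtype.ext hx.symm
  have hb : b = vert φ d (t ^ (u : ℤ) * (of g * x)) := Subtype.ext hb.symm
  subst ha hb
  rw [move_vert, move_vert]
  exact (adj_iff φ d).2 ⟨u, g, x * γ⁻¹, rfl, by rw [mul_assoc, mul_assoc]; rfl⟩

/-- The action on the tree. -/
noncomputable def act : HNNExtension G A B φ →* (tree φ d ≃g tree φ d) where
  toFun γ :=
    { toFun := move φ d γ
      invFun := move φ d γ⁻¹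
      left_inv := fun a => by rw [← move_mul, inv_mul_cancel, move_one]
      right_inv := fun a => by rw [← move_mul, mul_inv_cancel, move_one]
      map_rel_iff' := fun {a b} => ⟨fun h => by
          have h2 := move_adj φ d γ⁻¹ h
          simpa [← move_mul, move_one] using h2, move_adj φ d γ⟩ }
  map_one' := RelIso.ext (move_one φ d)
  map_mul' γ δ := RelIso.ext (move_mul φ d γ δ)

theorem dist_act_root (γ : HNNExtension G A B φ) :
    (tree φ d).dist (vert φ d 1) (act φ d γ (vert φ d 1)) = (word φ d γ⁻¹).length := by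
  show (tree φ d).dist _ (move φ d γ _) = _
  rw [move_vert, one_mul, SimpleGraph.dist_comm, dist_root]
  rfl

theorem dist_act_act (γ δ : HNNExtension G A B φ) :
    (tree φ d).dist (act φ d γ (vert φ d 1)) (act φ d δ (vert φ d 1)) =
      (word φ d (δ⁻¹ * γ)).length := by
  have e : γ = δ * (δ⁻¹ * γ) := (mul_inv_cancel_left δ γ).symm
  have hm : ∀ c, act φ d (δ * c) (vert φ d 1) = act φ d δ (act φ d c (vert φ d 1)) := fun c => by
    rw [map_mul]; rfl
  nth_rewrite 1 [e]
  rw [hm, TL.dist_map (isTree_tree φ d) (isTree_tree φ d) (act φ d δ)]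
  show (tree φ d).dist (move φ d _ _) _ = _
  rw [move_vert, one_mul, dist_root]
  show (word φ d (δ⁻¹ * γ)⁻¹).length = _
  have h1 := dist_act_root φ d (δ⁻¹ * γ)
  have h2 : (tree φ d).dist (vert φ d 1) (act φ d (δ⁻¹ * γ) (vert φ d 1)) =
      (tree φ d).dist (act φ d (δ⁻¹ * γ)⁻¹ (vert φ d 1)) (vert φ d 1) := by
    conv_rhs => rw [← TL.dist_map (isTree_tree φ d) (isTree_tree φ d) (act φ d (δ⁻¹ * γ))]
    congr 1
    show _ = move φ d _ (move φ d _ _)
    rw [← move_mul, mul_inv_cancel, move_one]
  rw [h1] at h2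
  have h3 := dist_act_root φ d (δ⁻¹ * γ)⁻¹
  rw [inv_inv, SimpleGraph.dist_comm] at h3
  omega

/-- Reduced words have as many letters as stable letters. -/
theorem word_reduced (w : ReducedWord G A B) : (word φ d (w.prod φ)).length = w.toList.length := by
  obtain ⟨w', h1, h2, -⟩ := ReducedWord.exists_normalWord_prod_eq φ d w
  rw [← h1, word_prod, ← List.length_map (f := Prod.fst), h2, List.length_map]

theorem pow_letters (u : ℤˣ) (n : ℕ) :
    (((List.replicate n (u, (1 : G))).map fun x : ℤˣ × G =>
      (t : HNNExtension G A B φ) ^ (x.1 : ℤ) * of x.2).prod) = (t ^ (u : ℤ)) ^ n := by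
  simp

/-- The pieces of the escaping orbits. -/
theorem word_pair {c : G} (hc : c ∉ A ∧ c ∉ B) (u v : ℤˣ) (k n : ℕ) :
    (word φ d (of c * (t ^ (u : ℤ)) ^ k * of c⁻¹ * (t ^ (v : ℤ)) ^ n)).length = k + n := by
  have hcs : ∀ s : ℤˣ, c⁻¹ ∉ toSubgroup A B s := fun s => by
    rcases Int.units_eq_one_or s with rfl | rfl <;> simp [hc]
  have hrep : ∀ (s : ℤˣ) (m : ℕ), (List.replicate m (s, (1 : G))).IsChain
      fun a b => a.2 ∈ toSubgroup A B a.1 → a.1 = b.1 := fun s m =>
    List.isChain_replicate_of_rel m fun _ => rfl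
  rcases k with _ | k
  · let w : ReducedWord G A B := ⟨1, List.replicate n (v, 1), hrep v n⟩
    have e : of c * (t ^ (u : ℤ)) ^ 0 * of c⁻¹ * (t ^ (v : ℤ)) ^ n = w.prod φ := by
      rw [ReducedWord.prod, pow_letters]
      simp [w]
    rw [e, word_reduced]
    simp [w]
  · let w : ReducedWord G A B := ⟨c, List.replicate k (u, 1) ++ (u, c⁻¹) :: List.replicate n (v, 1),
      List.isChain_append.2 ⟨hrep u k, List.isChain_cons.2 ⟨fun y _ h => absurd h (hcs u), hrep v n⟩,
        fun x hx y hy => by
          obtain rfl := List.eq_of_mem_replicate (List.mem_of_getLast? hx)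
          simp only [List.head?_cons, Option.mem_def, Option.some.injEq] at hy
          subst hy
          exact fun _ => rfl⟩⟩
    have e : of c * (t ^ (u : ℤ)) ^ (k + 1) * of c⁻¹ * (t ^ (v : ℤ)) ^ n = w.prod φ := by
      simp only [ReducedWord.prod, w, List.map_append, List.prod_append, List.map_cons,
        List.prod_cons, pow_letters, pow_succ, mul_assoc]
    rw [e, word_reduced]
    simp [w]
    omega

/-- A group mapped onto an HNN extension with proper associated subgroups acts on a tree with four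
ends. -/
theorem fourEnds_hnn (hA : A ≠ ⊤) (hB : B ≠ ⊤) {Γ : Type} [Group Γ]
    (π : Γ →* HNNExtension G A B φ) (hπ : Function.Surjective π) :
    ∃ (W : Type) (T : SimpleGraph W) (f : Γ →* (T ≃g T)) (o : W),
      T.IsTree ∧ SG.FourEnds T f o := by
  obtain ⟨d⟩ := TransversalPair.nonempty G A B
  obtain ⟨c, hc⟩ : ∃ c : G, c ∉ A ∧ c ∉ B := by
    by_contra hno
    push Not at hno
    obtain ⟨a, ha⟩ : ∃ a, a ∉ A := by
      by_contra h; push Not at h; exact hA ((Subgroup.eq_top_iff' A).2 h)
    obtain ⟨b, hb⟩ : ∃ b, b ∉ B := by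
      by_contra h; push Not at h; exact hB ((Subgroup.eq_top_iff' B).2 h)
    have haB := hno a ha
    have hbA : b ∈ A := by by_contra h; exact hb (hno b h)
    exact hb ((B.mul_mem_cancel_left haB).1 (hno (a * b) fun h =>
      ha ((A.mul_mem_cancel_right hbA).1 h)))
  refine ⟨Vert φ d, tree φ d, (act φ d).comp π, vert φ d 1, isTree_tree φ d, ?_⟩
  obtain ⟨g, hg⟩ := hπ t
  obtain ⟨h, hh⟩ := hπ (of c * t * (of c)⁻¹)
  have hg' : ∀ n : ℕ, π (g ^ n) = (t ^ ((1 : ℤˣ) : ℤ)) ^ n := fun n => by simp [hg]
  have hgi : ∀ n : ℕ, π (g⁻¹ ^ n) = (t ^ ((-1 : ℤˣ) : ℤ)) ^ n := fun n => by simp [hg]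
  have hh' : ∀ n : ℕ, π (h ^ n) = of c * (t ^ ((1 : ℤˣ) : ℤ)) ^ n * of c⁻¹ := fun n => by
    simp [hh, conj_pow]
  have hhi : ∀ n : ℕ, π (h⁻¹ ^ n) = of c * (t ^ ((-1 : ℤˣ) : ℤ)) ^ n * of c⁻¹ := fun n => by
    rw [inv_pow, map_inv, hh']
    simp [mul_assoc]
  have hinv : ∀ (s : ℤˣ) (n : ℕ),
      (((t : HNNExtension G A B φ) ^ (s : ℤ)) ^ n)⁻¹ = (t ^ ((-s : ℤˣ) : ℤ)) ^ n := fun s n => by
    simp
  have l1 : ∀ (s : ℤˣ) (n : ℕ), (word φ d ((t ^ (s : ℤ)) ^ n)).length = n := fun s n => by
    simpa using word_pair φ d hc 1 s 0 n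
  have l2 : ∀ (s : ℤˣ) (n : ℕ), (word φ d (of c * (t ^ (s : ℤ)) ^ n * of c⁻¹)).length = n :=
    fun s n => by simpa using word_pair φ d hc s 1 n 0
  have hcinv : ∀ (s : ℤˣ) (n : ℕ),
      (of c * ((t : HNNExtension G A B φ) ^ (s : ℤ)) ^ n * of c⁻¹)⁻¹ =
        of c * (t ^ ((-s : ℤˣ) : ℤ)) ^ n * of c⁻¹ := fun s n => by
    rw [mul_inv_rev, mul_inv_rev, hinv, map_inv, inv_inv, mul_assoc]
  refine ⟨g, h, 0, fun n => ?_, fun a ha n k => ?_⟩
  · simp only [MonoidHom.comp_apply, dist_act_root, hg', hh', hinv, hcinv, l1, l2, le_refl,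
      and_self]
  · simp only [List.mem_cons, List.not_mem_nil, or_false] at ha
    rcases ha with rfl | rfl | rfl | rfl <;>
      simp only [MonoidHom.comp_apply, dist_act_root, dist_act_act, hg', hgi, hh', hhi, hinv, hcinv,
        l1, l2, word_pair φ d hc] <;>
      omega

end Vale.Agent.P165.TR.HNN
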