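import Vale.Agent.P165.TR.Codes
import Vale.Agent.P165.TR.Glue

/-!
# Joining connections to half trees

A connection of the anchor into a half tree is continued from its gate in the frame that looks away
from the tail of the half tree. A finite family of targets is carried into the half tree, and the
chances of the family, truncated at any level, are kept up to the chance of the first connection.
-/

namespace Vale.Agent.P165.TR.Env

open Finset FF TL
open Vale.Agent.P165.FP (hit OnBlock)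
open Vale.Agent.P165.FQ (hitN exists_walk_le hitN_nonneg hitN_map hitN_move hitN_mono)

variable {Γ O ι X : Type} [Group Γ] [Fintype ι] (E : Env Γ O ι X)

theorem mv_inv_mv (γ : Γ) (e : X × X) : E.mv γ⁻¹ (E.mv γ e) = e := by
  rw [← E.mv_mul, inv_mul_cancel, E.mv_one]

theorem mv_injective (γ : Γ) : Function.Injective (E.mv γ) := fun e e' h => by
  rw [← E.mv_inv_mv γ e, h, E.mv_inv_mv]

theorem notMem_b₀ {q : X} (h : q ∉ sd E.T E.b₁) : q ∉ sd E.T E.b₀ := fun hq => h (E.sd_b₀ hq)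

variable [DecidableEq Γ] [DecidableEq O]

theorem mem_om {ρ : ℕ} {v : Γ × O} :
    v ∈ E.om ρ ↔ v ∈ E.ball E.a₁ ρ ∧ E.pos v ∉ sd E.T E.b₀ := by
  simp only [om, mem_filter]

theorem a₁_mem_om (ρ : ℕ) : E.a₁ ∈ E.om ρ := by
  refine E.mem_om.2 ⟨E.self_mem_ball _ ρ, ?_⟩
  rw [a₁, E.pos_one]
  exact E.notMem_b₀ E.t₀_b₁

theorem psiN_nonneg (ρ n : ℕ) {p : ℝ} (h0 : 0 ≤ p) (h1 : p ≤ 1) (e : X × X) :
    0 ≤ E.PsiN ρ n p e :=
  hitN_nonneg _ h0 h1 _ _ _

/-- A half tree reached inside a ball has its head at bounded distance. -/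
theorem dist_head_le {n : ℕ} {a : Γ × O} {S : Finset (Γ × O)} (hS : S ⊆ E.ball a n) {e : X × X}
    (he : E.T.Adj e.1 e.2) (ha : E.pos a ∉ sd E.T e) {p : ℝ} {k : ℕ}
    (hpos : 0 < hitN E.nb S p a (E.pre e) k) : E.T.dist (E.pos a) e.2 ≤ E.D * n := by
  by_cases hex : ∃ y ∈ S, y ∈ E.pre e
  · obtain ⟨y, hy, hye⟩ := hex
    have h1 := dist_across E.isTree he hye ha
    have h2 := E.dist_ball (hS hy)
    have h3 : E.T.dist e.1 e.2 = 1 := SimpleGraph.dist_eq_one_iff_adj.2 he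
    have h4 := E.isTree.connected.dist_triangle (u := E.pos a) (v := e.1) (w := e.2)
    rw [E.T.dist_comm (u := E.pos y) (v := E.pos a), E.T.dist_comm (u := e.1) (v := E.pos a)] at h1
    omega
  · refine absurd hpos (not_lt.2 (le_of_eq ?_))
    push Not at hex
    unfold hitN
    refine (avg_congr _ _ fun η hη => if_neg ?_).trans (by simp [avg])
    rintro ⟨t, ht, w, -⟩
    cases hw : w.reverse with
    | nil => exact ha ht
    | cons hadj _ =>
      exact hex t (inE_mem (hη (mem_coe.1 ((SimpleGraph.fromEdgeSet_adj _).1 hadj).1))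
        (Sym2.mem_mk_left _ _)) ht

/-- A connection into a half tree selects a gate, and from there every target is reached through a
frame that looks into the half tree. -/
theorem exists_join {p : ℝ} (h0 : 0 ≤ p) (h1 : p ≤ 1) (ρ ρ' : ℕ) {v : X × X} (hv : E.Strict v) :
    ∃ (Z : Finset (Γ × O)) (γ : Γ × O → Γ) (q : Γ × O → ℝ), (∀ z, 0 ≤ q z) ∧
      E.Psi ρ p v ≤ ∑ z ∈ Z, q z ∧
      (∀ z ∈ Z, ∀ r, r ∉ sd E.T E.b₀ → E.act (γ z) r ∈ sd E.T v) ∧
      ∀ (e : X × X) (ℓ : ℕ), p ^ E.blk * ∑ z ∈ Z, q z * E.PsiN ρ' ℓ p (E.mv (γ z)⁻¹ e) ≤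
        E.PsiN (ρ + E.blk + ρ') ((inE E.nb (E.om ρ)).card + E.blk + ℓ) p e := by
  classical
  set R := ρ + E.blk + ρ'
  choose i hi using fun z : Γ × O => E.avoid_at z v.1 v.1
  have hU : ∀ z : Γ × O, E.pos z ∈ sd E.T v → ∀ r ∈ sd E.T (E.mv z.1 (E.U (i z))),
      r ∈ sd E.T v := fun z hz r hr => mem_sd_of_gp E.isTree hz (hi z r hr).1
  set γ : Γ × O → Γ := fun z => z.1 * E.σ (i z) with hγ
  have hin : ∀ z : Γ × O, E.pos z ∈ sd E.T v → ∀ r, r ∉ sd E.T E.b₀ →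
      E.act (γ z) r ∈ sd E.T v := fun z hz r hr => hU z hz _ (by
    rw [hγ, E.act_mul, E.mem_mv]
    exact E.σ_maps _ r hr)
  set Z := (E.om ρ).filter (E.Gate v)
  have hpath : ∀ z : Γ × O, ∃ w : E.G.Walk z (γ z, E.o₁), w.length ≤ E.blk ∧
      ∀ x ∈ w.support, ∃ r, (r = E.pos z ∨ r ∈ sd E.T (E.mv z.1 (E.U (i z)))) ∧
        E.T.dist r (E.pos x) ≤ E.R₀ := by
    intro z
    obtain ⟨w, hw, hs⟩ := E.σ_path (i z) z.2
    have e1 : (trIso E.hinv z.1).toHom ((1 : Γ), z.2) = z := by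
      show tr z.1 _ = z
      simp [tr]
    have e2 : (trIso E.hinv z.1).toHom (E.σ (i z), E.o₁) = (γ z, E.o₁) := rfl
    refine ⟨((w.map (trIso E.hinv z.1).toHom).copy e1 e2), ?_, fun x hx => ?_⟩
    · exact ((SimpleGraph.Walk.length_copy _ _ _).trans (SimpleGraph.Walk.length_map _ _)).trans_le hw
    have hx2 := (congrArg (x ∈ ·) ((SimpleGraph.Walk.support_copy _ _ _).trans
      (SimpleGraph.Walk.support_map _ w))).mp hx
    obtain ⟨u, hu, rfl⟩ := List.mem_map.1 hx2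
    obtain ⟨r, hr, hd⟩ := hs u hu
    refine ⟨E.act z.1 r, ?_, ?_⟩
    · refine hr.imp (fun h => by rw [h]; rfl) fun h => (E.mem_mv _ _ _).2 h
    · show E.T.dist _ (E.pos (tr z.1 u)) ≤ _
      rw [E.pos_tr, E.dist_act]
      exact hd
  choose w hw hnear using hpath
  have hb1 : ∀ {r : X}, r ∈ sd E.T v → r ∉ sd E.T E.b₁ := fun hr hr' =>
    Set.disjoint_left.1 hv.2.2 hr hr'
  have hball : ∀ z ∈ Z, ∀ x ∈ (w z).support, x ∈ E.ball E.a₁ (ρ + E.blk) := fun z hz x hx =>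
    E.ball_subset (E.mem_om.1 (mem_filter.1 hz).1).1 le_rfl
      (E.covers_ball E.blk z _ (w z) (hw z) x hx)
  have hsupp : ∀ z ∈ Z, ∀ x ∈ (w z).support, x ∈ E.om R := by
    intro z hz x hx
    refine E.mem_om.2 ⟨E.ball_mono _ (Nat.le_add_right _ ρ') (hball z hz x hx), ?_⟩
    obtain ⟨r, hr, hd⟩ := hnear z x hx
    have hrv : r ∈ sd E.T v := by
      rcases hr with rfl | hr
      · exact (mem_filter.1 hz).2.1
      · exact hU z (mem_filter.1 hz).2.1 r hr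
    exact E.margin _ _ (hb1 hrv) (hd.trans (Nat.le_add_right _ _))
  let B : Γ × O → Finset (Sym2 (Γ × O)) := fun z => (w z).edges.toFinset
  let S2 : Γ × O → Finset (Γ × O) := fun z => (E.om ρ').image (tr (γ z))
  have hS2 : ∀ z ∈ Z, S2 z ⊆ E.om R ∧ ∀ x ∈ S2 z, x ∈ E.pre v := by
    intro z hz
    have hmem : ∀ x ∈ S2 z, x ∈ E.om R ∧ x ∈ E.pre v := by
      intro x hx
      obtain ⟨y, hy, rfl⟩ := mem_image.1 hx
      have hpv : E.pos (tr (γ z) y) ∈ sd E.T v := by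
        rw [E.pos_tr]
        exact hin z (mem_filter.1 hz).2.1 _ (E.mem_om.1 hy).2
      refine ⟨E.mem_om.2 ⟨?_, E.notMem_b₀ (hb1 hpv)⟩, hpv⟩
      have e : tr (γ z) E.a₁ = (γ z, E.o₁) := by simp [tr, a₁]
      have h2 : tr (γ z) y ∈ E.ball (γ z, E.o₁) ρ' := by
        rw [← e, ← E.image_ball]
        exact mem_image_of_mem _ (E.mem_om.1 hy).1
      exact E.ball_subset (hball z hz _ (w z).end_mem_support) le_rfl h2
    exact ⟨fun x hx => (hmem x hx).1, fun x hx => (hmem x hx).2⟩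
  have hB : ∀ z ∈ Z, B z ⊆ inE E.nb (E.om R) ∧ (B z).card ≤ E.blk ∧
      ∀ x, OnBlock B z x → cl (B z) x (γ z, E.o₁) := by
    intro z hz
    have htoB : ∀ x ∈ (w z).support, cl (B z) x (γ z, E.o₁) := fun x hx => by
      have hmem : ∀ e ∈ ((w z).dropUntil x hx).edges,
          e ∈ (SimpleGraph.fromEdgeSet ((B z : Finset _) : Set (Sym2 (Γ × O)))).edgeSet := by
        intro e he
        have he' := (w z).edges_dropUntil_subset_edges hx he
        rw [SimpleGraph.edgeSet_fromEdgeSet]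
        exact ⟨List.mem_toFinset.2 he',
          E.G.not_isDiag_of_mem_edgeSet ((w z).edges_subset_edgeSet he')⟩
      exact ⟨((w z).dropUntil x hx).transfer _ hmem⟩
    refine ⟨fun e he => (inE_iff E.hl).2 ⟨(w z).edges_subset_edgeSet (List.mem_toFinset.1 he),
      fun x hx => hsupp z hz x
        (SimpleGraph.Walk.mem_support_of_mem_edges (List.mem_toFinset.1 he) hx)⟩,
      ((w z).edges.toFinset_card_le).trans ((w z).length_edges.le.trans (hw z)), ?_⟩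
    rintro x (rfl | ⟨e, he, hx⟩)
    · exact htoB _ (w x).start_mem_support
    · exact htoB x (SimpleGraph.Walk.mem_support_of_mem_edges (List.mem_toFinset.1 he) hx)
  obtain ⟨q, hq0, hq, hqT⟩ := glue_weights E.hl (E.om_mono (by omega : ρ ≤ R)) h0 h1 Z
    (E.not_mem_pre_anchor hv) (fun x y hxy hx hy hys => mem_filter.2 ⟨hys, hy, x, hxy, hx⟩)
    B (fun z => (γ z, E.o₁)) E.blk hB S2 hS2
  refine ⟨Z, γ, q, hq0, hq, fun z hz => hin z (mem_filter.1 hz).2.1, fun e ℓ => ?_⟩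
  refine le_of_eq_of_le ?_ (hqT (E.pre e) ℓ)
  congr 1
  refine sum_congr rfl fun z _ => congrArg (q z * ·) ?_
  have hmap := hitN_map E.hl (trIso E.hinv (γ z)) (E.om ρ') p E.a₁ (E.pre e) ℓ
  have e1 : trIso E.hinv (γ z) E.a₁ = (γ z, E.o₁) := by
    show tr _ _ = _
    simp [tr, a₁]
  have e2 : (trIso E.hinv (γ z)) ⁻¹' E.pre e = E.pre (E.mv (γ z)⁻¹ e) := Set.ext fun x => by
    show E.pos (tr (γ z) x) ∈ sd E.T e ↔ E.pos x ∈ sd E.T (E.mv (γ z)⁻¹ e)
    rw [E.pos_tr, E.mem_mv_iff (γ z)⁻¹, inv_inv]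
  rw [e1, e2] at hmap
  exact hmap.symm

/-- A family of targets is carried into a half tree. -/
theorem exists_step {p : ℝ} (h0 : 0 ≤ p) (h1 : p ≤ 1) (ρ ρ' ℓ : ℕ) {v : X × X} (hv : E.Strict v)
    (F : Finset (X × X)) (hF : ∀ e ∈ F, E.Strict e) :
    ∃ S : Finset (X × X), (∀ e ∈ S, E.Strict e ∧ sd E.T e ⊆ sd E.T v) ∧ ∀ t : ℝ, 0 ≤ t →
      ∑ w ∈ F, min (p ^ E.blk * E.Psi ρ p v * E.PsiN ρ' ℓ p w) t ≤ ∑ e ∈ S,
        min (E.PsiN (ρ + E.blk + ρ') ((inE E.nb (E.om ρ)).card + E.blk + ℓ) p e) t := by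
  classical
  obtain ⟨Z, γ, q, hq0, hq, hin, hqT⟩ := E.exists_join h0 h1 ρ ρ' hv
  set S := (Z ×ˢ F).image fun x => E.mv (γ x.1) x.2 with hS
  refine ⟨S, fun e he => ?_, fun t ht => ?_⟩
  · obtain ⟨⟨z, w⟩, hx, rfl⟩ := mem_image.1 he
    obtain ⟨hz, hw⟩ := mem_product.1 hx
    have hsub : sd E.T (E.mv (γ z) w) ⊆ sd E.T v := fun r hr => by
      rw [E.mem_mv_iff] at hr
      have := hin z hz _ (E.notMem_b₀ (Set.disjoint_left.1 (hF w hw).2.2 hr))
      rwa [E.act_act_inv] at this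
    exact ⟨⟨E.adj_mv (hF w hw).1, fun h => hv.2.1 (hsub h), hv.2.2.mono_left hsub⟩, hsub⟩
  set f : X × X → ℝ := fun e => E.PsiN ρ' ℓ p e
  set P := p ^ E.blk * E.Psi ρ p v
  have hP : 0 ≤ P := mul_nonneg (pow_nonneg h0 _) (FP.hit_nonneg _ h0 h1 _ _)
  have hf : ∀ e, 0 ≤ f e := fun e => E.psiN_nonneg _ _ h0 h1 e
  set Q := ∑ z ∈ Z, q z
  have hQ : 0 ≤ Q := sum_nonneg fun z _ => hq0 z
  rcases hQ.eq_or_lt with hQ0 | hQpos
  · have hP0 : P = 0 := le_antisymm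
      (mul_nonpos_of_nonneg_of_nonpos (pow_nonneg h0 _) (hq.trans hQ0.ge)) hP
    refine le_of_eq_of_le (sum_eq_zero fun w _ => ?_) (sum_nonneg fun e _ => ?_)
    · rw [hP0, zero_mul, min_eq_left ht]
    · exact le_min (E.psiN_nonneg _ _ h0 h1 e) ht
  have hpt : ∀ e, ∑ z ∈ Z, q z / Q * min (P * f (E.mv (γ z)⁻¹ e)) t ≤
      min (E.PsiN (ρ + E.blk + ρ') ((inE E.nb (E.om ρ)).card + E.blk + ℓ) p e) t := by
    intro e
    refine le_min ((sum_le_sum (g := fun z => p ^ E.blk * (q z * f (E.mv (γ z)⁻¹ e)))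
      fun z _ => ?_).trans (le_of_eq_of_le ?_ (hqT e ℓ))) ?_
    · refine (mul_le_mul_of_nonneg_left (min_le_left _ _)
        (div_nonneg (hq0 z) hQ)).trans ?_
      calc q z / Q * (P * f (E.mv (γ z)⁻¹ e))
          ≤ q z / Q * (p ^ E.blk * Q * f (E.mv (γ z)⁻¹ e)) :=
            mul_le_mul_of_nonneg_left (mul_le_mul_of_nonneg_right
              (mul_le_mul_of_nonneg_left hq (pow_nonneg h0 _)) (hf _)) (div_nonneg (hq0 z) hQ)
        _ = p ^ E.blk * (q z * f (E.mv (γ z)⁻¹ e)) := by field_simp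
    · rw [mul_sum]
    · calc ∑ z ∈ Z, q z / Q * min (P * f (E.mv (γ z)⁻¹ e)) t
          ≤ ∑ z ∈ Z, q z / Q * t := sum_le_sum fun z _ =>
            mul_le_mul_of_nonneg_left (min_le_right _ _) (div_nonneg (hq0 z) hQ)
        _ = t := by rw [← sum_mul, ← sum_div, div_self hQpos.ne', one_mul]
  refine le_trans ?_ (sum_le_sum fun e _ => hpt e)
  rw [sum_comm]
  calc ∑ w ∈ F, min (P * f w) t
      = ∑ z ∈ Z, q z / Q * ∑ w ∈ F, min (P * f w) t := by
        rw [← sum_mul, ← sum_div, div_self hQpos.ne', one_mul]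
    _ ≤ _ := sum_le_sum fun z hz => ?_
  rw [mul_sum]
  calc ∑ w ∈ F, q z / Q * min (P * f w) t
      = ∑ e ∈ F.image (E.mv (γ z)), q z / Q * min (P * f (E.mv (γ z)⁻¹ e)) t := by
        rw [sum_image fun a _ b _ h => E.mv_injective (γ z) h]
        exact sum_congr rfl fun w _ => by rw [E.mv_inv_mv]
    _ ≤ ∑ e ∈ S, q z / Q * min (P * f (E.mv (γ z)⁻¹ e)) t := by
        refine sum_le_sum_of_subset_of_nonneg (fun e he => ?_) fun e _ _ =>
          mul_nonneg (div_nonneg (hq0 z) hQ) (le_min (mul_nonneg hP (hf _)) ht)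
        obtain ⟨w, hw, rfl⟩ := mem_image.1 he
        exact mem_image.2 ⟨(z, w), mem_product.2 ⟨hz, hw⟩, rfl⟩

end Vale.Agent.P165.TR.Env
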