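import Vale.Agent.P165.TR.Frames
import Vale.Agent.P165.TR.Tail
import Vale.Agent.P165.TR.Form
import Vale.Agent.P165.TR.Chains
import Vale.Agent.P165.TR.EndsOf
import Vale.Agent.P165.TL.Main

/-!
# Nonuniqueness for every group with a four-ended action on a tree
-/

namespace Vale.Agent.P165.TR

open Finset FF TL

section Env

variable {Γ O ι X : Type} [Group Γ] [Fintype ι] [DecidableEq Γ] [DecidableEq O] [Fintype O]
  (E : Env Γ O ι X)

/-- The small form at the last subcritical parameter. -/
theorem Env.small {p : ℝ} (hs : FQ.Sub E.nb p) : E.Small p :=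
  E.small_of_closed hs.1 hs.2.1
    (E.closed_of_tails hs.1 hs.2.1 (E.tails hs.1 hs.2.1 (E.dataExists hs)))

/-- A setting with frames has a nonuniqueness phase. -/
theorem Env.pc_lt_pu [Infinite Γ] : pc E.G < pu E.G := by
  have : Nonempty O := ⟨E.o₁⟩
  refine FQ.pc_lt_pu_of_small E.hl E.hinv E.conn fun p hp => ?_
  obtain ⟨n, hn, hform⟩ := E.small hp
  exact ⟨fun x => E.ball x n, n, hn, E.covers_ball n, fun g x => E.image_ball g x n, hform⟩

end Env

/-- A group with an escaping orbit is infinite. -/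
theorem infinite_of_fourEnds {Γ X : Type} [Group Γ] {T : SimpleGraph X} {act : Γ →* (T ≃g T)}
    {o : X} (h : SG.FourEnds T act o) : Infinite Γ := by
  obtain ⟨g, _, _, hg, -⟩ := h
  by_contra hfin
  rw [not_infinite_iff_finite] at hfin
  have := Fintype.ofFinite Γ
  set N := ∑ x : Γ, T.dist o (act x o)
  have h2 : T.dist o (act (g ^ (N + 1)) o) ≤ N :=
    single_le_sum (f := fun x => T.dist o (act x o)) (fun _ _ => Nat.zero_le _) (mem_univ _)
  have := (hg (N + 1)).1
  omega

/-- Every group with a four-ended action on a tree has a nonuniqueness phase. -/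
theorem nonuniquePhase_of_fourEnds
    {Γ X : Type} [Group Γ] {T : SimpleGraph X} (hT : T.IsTree) (act : Γ →* (T ≃g T)) (o : X)
    (h : SG.FourEnds T act o) : SG.NonuniquePhase Γ := by
  classical
  have : Infinite Γ := infinite_of_fourEnds h
  have key : ∀ (V : Type) (G : SimpleGraph V) (d : ℕ), G.Connected →
      (∀ v, (G.neighborSet v).encard = d) → ∀ (Φ : Γ →* (G ≃g G)),
      (∀ g v, Φ g v = v → g = 1) → ∀ R : Finset V, (∀ v, ∃ g, Φ g v ∈ R) → pc G < pu G := by
    intro V G d hc hd Φ free R cover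
    obtain ⟨O, hO, hO', G', hinv, ⟨φ⟩⟩ := exists_chart G Φ free R cover
    have hc' : G'.Connected := φ.connected_iff.1 hc
    have hd' : ∀ x, (G'.neighborSet x).encard = d := fun x => by
      obtain ⟨v, rfl⟩ := φ.surjective x
      rw [← hd v]
      exact (ENat.card_congr (φ.mapNeighborSet v)).symm
    obtain ⟨nb, hl⟩ := exists_labelling G' d hd'
    rw [pc_congr φ, pu_congr φ]
    obtain ⟨E, rfl, -⟩ := exists_env hl hinv hc' hT act o h
    exact E.pc_lt_pu
  refine ⟨key, fun Δ _ s hfin hgen ψ hψ hidx => ?_⟩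
  obtain ⟨hconn, d, hd⟩ := TL.connected_regular_mulCayley s hfin hgen
  obtain ⟨Φ, R, free, cover⟩ := exists_leftAction (SimpleGraph.mulCayley s)
    (fun _ _ _ => SimpleGraph.mulCayley_adj_mul_iff_right) ψ hψ hidx
  exact key _ _ d hconn hd Φ free R cover

end Vale.Agent.P165.TR
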