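import Vale.Agent.P165.TR.Basic
import Vale.Agent.P165.TR.LastExit

/-!
# The own fibre and the closing

A connection from `a` to its own fibre avoids a given deep half tree or leaves it for the last time
at a gate, and the rest is a tail seen from that gate. Averaging over `2 ^ m` deep half trees bounds
the own fibre by a fixed power of the tail, hence everything by small powers of the length.
-/

namespace Vale.Agent.P165.TR.Env

open Finset FF TL
open Vale.Agent.P165.FQ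

variable {Γ O ι X : Type} [Group Γ] [Fintype ι] (E : Env Γ O ι X)

/-- The half tree of a frame at `v` away from `u` avoids the one towards `u`. -/
theorem frame_subset {e : X × X} {v : Γ × O} (hv : E.pos v ∈ sd E.T e) {i : Fin 3}
    (hi : ∀ q ∈ sd E.T (E.mv v.1 (E.U i)), gp E.T (E.pos v) q e.1 = 0) :
    sd E.T (E.mv (v.1 * E.τ i) E.b₁) ⊆ sd E.T e := by
  intro q hq
  refine mem_sd_of_gp E.isTree hv (hi q ?_)
  rw [E.mem_mv_iff] at hq ⊢
  have h := E.τ_maps i _ hq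
  rwa [mul_inv_rev, ← E.act_mul, mul_inv_cancel_left] at h

/-- The base of a frame at `v` is outside its excluded half tree. -/
theorem pos_notMem_frame (v : Γ × O) (i : Fin 3) :
    E.pos v ∉ sd E.T (E.mv (v.1 * E.τ i) E.b₁) := by
  intro h
  rw [E.pos_eq, E.mem_mv_iff, mul_inv_rev, E.act_mul, E.act_inv_act] at h
  exact E.t₀_U i (by simpa [E.act_act_inv] using E.τ_maps i _ h)

theorem sd_mv_b₀ (ψ : Γ) : sd E.T (E.mv ψ E.b₀) ⊆ sd E.T (E.mv ψ E.b₁) :=
  E.subset_mv E.sd_b₀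

/-- A point of the fibre is within the Lipschitz constant. -/
theorem fib_near {a y : Γ × O} (h : E.Fib a y) : E.T.dist (E.pos a) (E.pos y) ≤ E.D := by
  obtain ⟨x, hx, hd⟩ := h
  rcases hx with rfl | hadj
  · rw [SimpleGraph.dist_self] at hd; omega
  · have := E.lip x y hadj
    change E.T.dist (E.pos x) (E.pos y) ≤ E.D at this
    omega

/-- An entrance to the first edge towards a point lies in the fibre of the start. -/
theorem fib_of_gate {a z : Γ × O} {e : X × X} (he : E.T.Adj e.1 e.2) (ha : e.1 = E.pos a)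
    (hz : E.Gate e z) : E.Fib a z ∧ e.2 = pt E.T (E.pos a) (E.pos z) 1 := by
  obtain ⟨hzs, x, hadj, hx⟩ := hz
  have hane : E.pos a ∉ sd E.T e := ha ▸ tail_notMem_sd
  have h1 := dist_across E.isTree he hzs hx
  have h2 := dist_across E.isTree he hzs hane
  rw [← ha, SimpleGraph.dist_self] at h2
  rw [ha] at h1 h2
  refine ⟨⟨x, Or.inr hadj, ?_⟩, ?_⟩
  · rw [E.T.dist_comm (u := E.pos x), E.T.dist_comm (u := E.pos a) (v := E.pos z),
      E.T.dist_comm (u := E.pos x) (v := E.pos z)]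
    omega
  · obtain ⟨h3, -, -⟩ := edge_eq_pt E.isTree he hzs hane
    rw [pt_rev E.isTree, ← show E.T.dist (E.pos z) e.2 = E.T.dist (E.pos z) (E.pos a) - 1 by omega]
    exact h3

variable [DecidableEq Γ] [DecidableEq O] [Fintype O] {p : ℝ}

omit [Fintype O] in
/-- The tail over all points near a vertex. -/
theorem tail_near {K : ℕ} {B : ℝ} (hB : E.TailLe p K B) {ψ : Γ} {ℓ : ℕ} {z : Γ × O}
    (hz : E.Joined ψ ℓ z) (w : X) (J : ℕ) (S Y : Finset (Γ × O))
    (hS : ∀ v ∈ S, E.pos v ∉ sd E.T (E.mv ψ E.b₀))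
    (hY : ∀ y ∈ Y, E.pos y ∉ sd E.T (E.mv ψ E.b₁) ∧ E.T.dist (E.pos y) w ≤ J) :
    p ^ ℓ * ∑ y ∈ Y, tauW E.nb S p z y K ≤ ((J : ℝ) + 1) * B := by
  classical
  set f : Γ × O → ℕ := fun y => gp E.T (E.pos y) (E.act ψ E.b₁.2) w
  have hf : ∀ y ∈ Y, f y ∈ range (J + 1) := fun y hy =>
    mem_range.2 (Nat.lt_succ_of_le (((gp_spec E.isTree _ _ _).2.1).trans (hY y hy).2))
  rw [← sum_fiberwise_of_maps_to hf, mul_sum]
  refine (sum_le_card_nsmul _ _ B fun d _ => ?_).trans (le_of_eq (by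
    rw [card_range, nsmul_eq_mul, Nat.cast_succ]))
  refine hB ψ ℓ z hz w d S _ hS fun y hy => ?_
  obtain ⟨hy1, hy2⟩ := mem_filter.1 hy
  exact ⟨(hY y hy1).1, hy2⟩

/-- The points near the start. -/
theorem nearBound (hp : 0 < p) (hp1 : p ≤ 1) : E.NearBound p := by
  classical
  refine ⟨1 + (p ^ E.blk)⁻¹, by positivity, fun K B hB hT a J F hF => ?_⟩
  have h0 := hp.le
  set S := E.ball a K
  set t := E.pos a
  set F₀ := F.filter fun y => E.pos y = t
  set F₁ := F.filter fun y => ¬ E.pos y = t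
  set edge : Γ × O → X × X := fun y => (t, pt E.T t (E.pos y) 1) with hedge
  have hown := E.own_nonneg h0 hp1 K
  have h0F : ∑ y ∈ F₀, E.tau p K a y ≤ ((J : ℝ) + 1) * (E.own p K * B) := by
    refine (E.sum_fib_le_own h0 hp1 F₀ K a fun y hy => ⟨y, Or.inl rfl, ?_⟩).trans ?_
    · rw [(mem_filter.1 hy).2]; simp [t]
    · refine (le_mul_of_one_le_right hown hB).trans (le_mul_of_one_le_left (by positivity) ?_)
      linarith [(Nat.cast_nonneg J : (0 : ℝ) ≤ J)]
  set Es := F₁.image edge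
  have hadjE : ∀ y ∈ F₁, E.T.Adj (edge y).1 (edge y).2 := fun y hy => by
    have hne : E.T.dist t (E.pos y) ≠ 0 := fun h =>
      (mem_filter.1 hy).2 ((E.isTree.connected.dist_eq_zero_iff).1 h).symm
    have h := adj_pt E.isTree (u := t) (v := E.pos y) (i := 0) (by omega)
    rwa [pt_zero E.isTree] at h
  have hmemE : ∀ y ∈ F₁, E.pos y ∈ sd E.T (edge y) := fun y hy => by
    have hne : E.T.dist t (E.pos y) ≠ 0 := fun h =>
      (mem_filter.1 hy).2 ((E.isTree.connected.dist_eq_zero_iff).1 h).symm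
    have h := (dist_pt E.isTree (u := t) (v := E.pos y) (i := 1) (by omega)).2
    rw [mem_sd]
    simp only [edge]
    rw [E.T.dist_comm (u := E.pos y), E.T.dist_comm (u := E.pos y), h]
    omega
  -- one edge
  have hone : ∀ e ∈ Es, ∑ y ∈ F₁.filter (fun y => edge y = e), E.tau p K a y
      ≤ (∑ z ∈ S.filter (E.Gate e), E.tau p K a z) * ((p ^ E.blk)⁻¹ * (((J : ℝ) + 1) * B)) := by
    intro e he
    obtain ⟨y₀, hy₀, rfl⟩ := mem_image.1 he
    set e := edge y₀
    set Z := S.filter (E.Gate e)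
    set S' := S.filter fun v => E.pos v ∈ sd E.T e
    set Y := F₁.filter fun y => edge y = e
    have heq : ∀ y ∈ Y, E.pos y ∈ sd E.T e := fun y hy => by
      obtain ⟨h1, h2⟩ := mem_filter.1 hy
      exact h2 ▸ hmemE y h1
    have hae : a ∉ E.pre e := (tail_notMem_sd (T := E.T) (e := e) : E.pos a ∉ sd E.T e)
    have hsplit : ∀ y ∈ Y, E.tau p K a y ≤
        ∑ z ∈ Z, E.tau p K a z * tauW E.nb S' p z y K := fun y hy =>
      tauW_last_entrance E.hl S S' (E.pre e) Z h0 hp1 hae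
        (fun x z hadj hx hz hzS => mem_filter.2 ⟨hzS, hz, x, hadj, hx⟩)
        (fun v hv hv' => mem_filter.2 ⟨hv, hv'⟩) (heq y hy) K
    refine (sum_le_sum hsplit).trans ?_
    rw [sum_comm, sum_mul]
    refine sum_le_sum fun z hz => ?_
    rw [← mul_sum]
    refine mul_le_mul_of_nonneg_left ?_ (E.tau_nonneg h0 hp1 K a z)
    obtain ⟨-, -, x, hadj, hx⟩ := mem_filter.1 hz
    have hx' : E.pos x ∈ sd E.T e.swap := (notMem_sd_iff E.isTree (hadjE y₀ hy₀)).1 hx
    obtain ⟨i, hi⟩ := E.avoid_at x e.swap.1 e.swap.1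
    have hsub := E.frame_subset hx' fun q hq => (hi q hq).1
    have hout : ∀ q ∈ sd E.T e, q ∉ sd E.T (E.mv (x.1 * E.τ i) E.b₁) := fun q hq h =>
      (notMem_sd_iff E.isTree (hadjE y₀ hy₀)).2 (hsub h) hq
    rw [inv_mul_eq_div, le_div_iff₀' (pow_pos hp _)]
    refine E.tail_near hT (E.τ_path i x z (Or.inr hadj.symm)) t J S' Y
      (fun v hv h => hout _ (mem_filter.1 hv).2 (E.sd_mv_b₀ _ h))
      fun y hy => ⟨hout _ (heq y hy), ?_⟩
    rw [SimpleGraph.dist_comm]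
    exact hF y (mem_filter.1 (mem_filter.1 hy).1).1
  -- all edges
  have hEs : ∑ e ∈ Es, ∑ z ∈ S.filter (E.Gate e), E.tau p K a z ≤ E.own p K := by
    have hadj : ∀ e ∈ Es, E.T.Adj e.1 e.2 ∧ e.1 = t := fun e he => by
      obtain ⟨y, hy, rfl⟩ := mem_image.1 he
      exact ⟨hadjE y hy, rfl⟩
    rw [← sum_biUnion]
    · refine E.sum_fib_le_own h0 hp1 _ K a fun z hz => ?_
      obtain ⟨e, he, hz⟩ := mem_biUnion.1 hz
      exact (E.fib_of_gate (hadj e he).1 (hadj e he).2 (mem_filter.1 hz).2).1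
    · intro e he e' he' hne
      refine disjoint_left.2 fun z hz hz' => hne ?_
      obtain ⟨ha1, ha2⟩ := hadj e he
      obtain ⟨hb1, hb2⟩ := hadj e' he'
      exact Prod.ext (ha2.trans hb2.symm) (((E.fib_of_gate ha1 ha2 (mem_filter.1 hz).2).2).trans
        ((E.fib_of_gate hb1 hb2 (mem_filter.1 hz').2).2).symm)
  have h1F : ∑ y ∈ F₁, E.tau p K a y ≤ (p ^ E.blk)⁻¹ * (((J : ℝ) + 1) * (E.own p K * B)) := by
    rw [← sum_fiberwise_of_maps_to (g := edge) (t := Es) fun y hy => mem_image_of_mem _ hy]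
    refine (sum_le_sum hone).trans ?_
    rw [← sum_mul]
    exact (mul_le_mul_of_nonneg_right hEs (by positivity)).trans (le_of_eq (by ring))
  rw [← sum_filter_add_sum_filter_not F (fun y => E.pos y = t)]
  exact (add_le_add h0F h1F).trans (le_of_eq (by ring))

/-- The volume through the own fibre and the tail. -/
theorem exists_vol_le (hp : 0 < p) (hp1 : p ≤ 1) : ∃ C : ℝ, 0 ≤ C ∧ ∀ (K : ℕ) (B : ℝ), 1 ≤ B →
    E.TailLe p K B → E.vol p K ≤ C * ((K : ℝ) + 1) * (E.own p K * B) := by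
  obtain ⟨C, hC, hnear⟩ := E.nearBound hp hp1
  refine ⟨Fintype.card O * (C * ((E.D : ℝ) + 1)), by positivity, fun K B hB hT => ?_⟩
  refine (sum_le_card_nsmul _ _ (C * ((E.D * K : ℕ) + 1 : ℝ) * (E.own p K * B)) fun o _ =>
    hnear K B hB hT _ _ _ fun y hy => E.dist_ball hy).trans ?_
  rw [nsmul_eq_mul, card_univ]
  push_cast
  have h : (E.D : ℝ) * K + 1 ≤ ((E.D : ℝ) + 1) * ((K : ℝ) + 1) := by
    nlinarith [(Nat.cast_nonneg K : (0 : ℝ) ≤ K), (Nat.cast_nonneg E.D : (0 : ℝ) ≤ E.D)]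
  calc (Fintype.card O : ℝ) * (C * ((E.D : ℝ) * K + 1) * (E.own p K * B))
      ≤ (Fintype.card O : ℝ) * (C * (((E.D : ℝ) + 1) * ((K : ℝ) + 1)) * (E.own p K * B)) := by
        gcongr
        exact mul_nonneg (E.own_nonneg hp.le hp1 K) (zero_le_one.trans hB)
    _ = _ := by ring

/-- The own fibre is a fixed power of the tail. -/
theorem ownBound (hp : 0 < p) (hp1 : p ≤ 1) : E.OwnBound p := by
  classical
  obtain ⟨C, hC, hnear⟩ := E.nearBound hp hp1
  have h0 := hp.le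
  set N : ℝ := (Fintype.card O : ℝ) with hNdef
  set G : ℝ := ((Fintype.card ι * E.D : ℕ) : ℝ)
  set c : ℕ := E.D * E.blk + E.T.dist E.t₀ E.b₁.2 + E.D
  set q : ℝ := (p ^ E.blk)⁻¹
  set C₁ : ℝ := N * (((E.D : ℝ) + 1) * q) * (G * (C * ((c : ℝ) + 1))) + 1
  obtain ⟨a, ha⟩ := pow_unbounded_of_one_lt p⁻¹ (one_lt_two (α := ℝ))
  set s := a * E.blk
  set C₂ : ℝ := 8 * C₁ * 2 ^ (E.D + 1)
  refine ⟨2 * N * ((E.D : ℝ) + 1) * 2 ^ s * C₂ ^ (2 * s), 1 + 4 * s, by positivity,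
    fun K B hB hT => ?_⟩
  have hB0 : 0 ≤ B := zero_le_one.trans hB
  have hC₁ : 1 ≤ C₁ := le_add_of_nonneg_left (by positivity)
  have hB2 : 1 ≤ B ^ 2 := one_le_pow₀ hB
  set R : ℝ := 4 * C₁ * B ^ 2
  have hR : 1 ≤ R := by nlinarith [mul_le_mul hC₁ hB2 zero_le_one (zero_le_one.trans hC₁)]
  set n := Nat.log 2 ⌈R⌉₊
  set j := n + 1 + E.D
  set m := 2 * j
  set ℓ := E.blk * (m + 1)
  have hjR : R ≤ (2 : ℝ) ^ j := by
    have h1 : ⌈R⌉₊ < 2 ^ (n + 1) := Nat.lt_pow_succ_log_self one_lt_two _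
    have h2 : (⌈R⌉₊ : ℝ) ≤ ((2 ^ (n + 1) : ℕ) : ℝ) := Nat.cast_le.2 h1.le
    push_cast at h2
    exact (Nat.le_ceil R).trans (h2.trans (pow_le_pow_right₀ one_le_two (by omega)))
  have hj2 : (2 : ℝ) ^ j ≤ C₂ * B ^ 2 := by
    have h1 : 2 ^ n ≤ ⌈R⌉₊ := Nat.pow_log_le_self 2
      (Nat.pos_iff_ne_zero.1 (Nat.ceil_pos.2 (by linarith)))
    have h2 : ((2 ^ n : ℕ) : ℝ) ≤ (⌈R⌉₊ : ℝ) := Nat.cast_le.2 h1
    push_cast at h2
    have h3 : (2 : ℝ) ^ n ≤ 2 * R := by linarith [Nat.ceil_lt_add_one (zero_le_one.trans hR)]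
    calc (2 : ℝ) ^ j = 2 ^ n * 2 ^ (E.D + 1) := by rw [← pow_add, show n + (E.D + 1) = j by simp only [j]; omega]
      _ ≤ 2 * R * 2 ^ (E.D + 1) := mul_le_mul_of_nonneg_right h3 (by positivity)
      _ = _ := by simp only [C₂, R]; ring
  have hm1 : ((m : ℝ) + 1) ≤ 2 * 2 ^ j := by
    have h1 : j + 1 ≤ 2 ^ j := Nat.lt_two_pow_self
    have h2 : ((j + 1 : ℕ) : ℝ) ≤ ((2 ^ j : ℕ) : ℝ) := Nat.cast_le.2 h1
    push_cast [m] at h2 ⊢
    linarith
  have hown := E.own_nonneg h0 hp1 K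
  -- one type
  have htype : ∀ o : O, ∑ y ∈ (E.ball ((1 : Γ), o) K).filter (E.Fib ((1 : Γ), o)),
      E.tau p K ((1 : Γ), o) y ≤ ((E.D : ℝ) + 1) * (p ^ ℓ)⁻¹ * B
        + ((E.D : ℝ) + 1) * q * B * (G * (C * ((c : ℝ) + 1) * ((m : ℝ) + 1))) *
          (E.own p K * B) / 2 ^ m := by
    intro o
    set x : Γ × O := ((1 : Γ), o)
    have hx : E.pos x = E.t₀ := E.pos_one o
    set S := E.ball x K
    set F := S.filter (E.Fib x)
    obtain ⟨P, hPc, hP, hPd⟩ := E.deep m o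
    set e : Γ → X × X := fun ψ => E.mv ψ E.b₁
    have hFd : ∀ y ∈ F, E.T.dist (E.pos y) E.t₀ ≤ E.D := fun y hy => by
      rw [SimpleGraph.dist_comm, ← hx]
      exact E.fib_near (mem_filter.1 hy).2
    have hFe : ∀ ψ ∈ P, ∀ y ∈ F, E.pos y ∉ sd E.T (e ψ) := fun ψ hψ y hy =>
      (hP ψ hψ).2 _ (by rw [SimpleGraph.dist_comm]; have := hFd y hy; omega)
    have hstep : ∀ ψ ∈ P, ∑ y ∈ F, E.tau p K x y ≤ ((E.D : ℝ) + 1) * (p ^ ℓ)⁻¹ * B
        + ((E.D : ℝ) + 1) * q * B * ∑ z ∈ S.filter (E.Gate (e ψ)), E.tau p K x z := by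
      intro ψ hψ
      set S₀ := S.filter fun v => v ∉ E.pre (e ψ)
      have hsplit : ∀ y ∈ F, E.tau p K x y ≤ tauW E.nb S₀ p x y K
          + ∑ z ∈ S.filter (E.Gate (e ψ)), E.tau p K x z * tauW E.nb (insert z S₀) p z y K :=
        fun y hy => tauW_last_exit E.hl S (E.pre (e ψ)) _ (fun z => insert z S₀) h0 hp1
          (hFe ψ hψ y hy) (fun u z hadj hu hz hzS => mem_filter.2 ⟨hzS, hz, u, hadj, hu⟩)
          (fun z _ => ⟨mem_insert_self _ _, fun v hv hv' =>
            mem_insert_of_mem (mem_filter.2 ⟨hv, hv'⟩)⟩) K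
      refine (sum_le_sum hsplit).trans ?_
      rw [sum_add_distrib, sum_comm, mul_sum]
      refine add_le_add ?_ (sum_le_sum fun z hz => ?_)
      · rw [mul_right_comm, ← div_eq_mul_inv, le_div_iff₀' (pow_pos hp _)]
        exact E.tail_near hT (hP ψ hψ).1 E.t₀ E.D S₀ F
          (fun v hv h => (mem_filter.1 hv).2 (E.sd_mv_b₀ _ h))
          fun y hy => ⟨hFe ψ hψ y hy, hFd y hy⟩
      · obtain ⟨-, hzs, -⟩ := mem_filter.1 hz
        obtain ⟨i, hi⟩ := E.avoid_at z (e ψ).1 (e ψ).1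
        have hsub := E.frame_subset hzs fun r hr => (hi r hr).1
        rw [← mul_sum, mul_comm]
        refine mul_le_mul_of_nonneg_right ?_ (E.tau_nonneg h0 hp1 K x z)
        rw [mul_right_comm]
        simp only [q]
        rw [← div_eq_mul_inv, le_div_iff₀' (pow_pos hp _)]
        refine E.tail_near hT (E.τ_path i z z (Or.inl rfl)) E.t₀ E.D (insert z S₀) F
          (fun v hv h => ?_) fun y hy => ⟨fun h => hFe ψ hψ y hy (hsub h), hFd y hy⟩
        rcases mem_insert.1 hv with rfl | hv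
        · exact E.pos_notMem_frame v i (E.sd_mv_b₀ _ h)
        · exact (mem_filter.1 hv).2 (hsub (E.sd_mv_b₀ _ h))
    have hgates : ∑ ψ ∈ P, ∑ z ∈ S.filter (E.Gate (e ψ)), E.tau p K x z
        ≤ G * (C * ((c : ℝ) + 1) * ((m : ℝ) + 1)) * (E.own p K * B) := by
      set Es := P.image e
      have hinj : Set.InjOn e P := by
        intro ψ hψ ψ' hψ' h
        by_contra hne
        have hd := Set.disjoint_left.1 (hPd hψ hψ' hne) (head_mem_sd (E.adj_mv E.adj_b₁))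
        change e ψ = e ψ' at h
        exact hd (by rw [show mvE E.T E.act ψ' E.b₁ = e ψ from h.symm]
                     exact head_mem_sd (E.adj_mv E.adj_b₁))
      rw [← sum_image (g := e) (f := fun d => ∑ z ∈ S.filter (E.Gate d), E.tau p K x z) hinj]
      set Z := Es.biUnion fun d => S.filter (E.Gate d)
      have hadj : ∀ d ∈ Es, E.T.Adj d.1 d.2 := fun d hd => by
        obtain ⟨ψ, -, rfl⟩ := mem_image.1 hd
        exact E.adj_mv E.adj_b₁
      have hsum : ∑ d ∈ Es, ∑ z ∈ S.filter (E.Gate d), E.tau p K x z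
          ≤ G * ∑ z ∈ Z, E.tau p K x z := by
        rw [sum_comm' (t' := Z) (s' := fun z => Es.filter fun d => E.Gate d z)
          (fun d z => by simp only [Z, mem_biUnion, mem_filter]; tauto), mul_sum]
        refine sum_le_sum fun z _ => ?_
        rw [sum_const, nsmul_eq_mul]
        exact mul_le_mul_of_nonneg_right (Nat.cast_le.2 (E.gate_count z Es hadj))
          (E.tau_nonneg h0 hp1 K x z)
      refine hsum.trans ?_
      have hZ : ∀ z ∈ Z, E.T.dist (E.pos x) (E.pos z) ≤ c * (m + 1) := by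
        intro z hz
        obtain ⟨d, hd, hz⟩ := mem_biUnion.1 hz
        obtain ⟨ψ, hψ, rfl⟩ := mem_image.1 hd
        obtain ⟨w, hw, -⟩ := (hP ψ hψ).1
        have h1 : E.T.dist (E.pos x) (E.act ψ E.t₀) ≤ E.D * ℓ :=
          (E.dist_walk w).trans (Nat.mul_le_mul_left _ hw)
        have h2 := E.gate_near (E.adj_mv E.adj_b₁) (mem_filter.1 hz).2
        have h3 : E.T.dist (E.act ψ E.t₀) (e ψ).2 = E.T.dist E.t₀ E.b₁.2 := E.dist_act ψ _ _
        have h4 : E.T.dist (e ψ).2 (E.pos z) < E.D := by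
          rw [SimpleGraph.dist_comm]; exact Nat.lt_of_succ_le h2
        have h5 := E.isTree.connected.dist_triangle (u := E.pos x) (v := E.act ψ E.t₀) (w := (e ψ).2)
        have h6 := E.isTree.connected.dist_triangle (u := E.pos x) (v := (e ψ).2) (w := E.pos z)
        have h7 : E.D * ℓ + E.T.dist E.t₀ E.b₁.2 + E.D ≤ c * (m + 1) := by
          simp only [c, ℓ]; nlinarith
        omega
      have hnz := hnear K B hB hT x (c * (m + 1)) Z hZ
      have hcm : ((c * (m + 1) : ℕ) : ℝ) + 1 ≤ ((c : ℝ) + 1) * ((m : ℝ) + 1) := by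
        push_cast; nlinarith [(Nat.cast_nonneg m : (0 : ℝ) ≤ m)]
      refine (mul_le_mul_of_nonneg_left hnz (by positivity)).trans ?_
      calc G * (C * (((c * (m + 1) : ℕ) : ℝ) + 1) * (E.own p K * B))
          ≤ G * (C * (((c : ℝ) + 1) * ((m : ℝ) + 1)) * (E.own p K * B)) := by gcongr
        _ = _ := by ring
    have htot := sum_le_sum hstep
    rw [sum_const, sum_add_distrib, sum_const, ← mul_sum, nsmul_eq_mul, nsmul_eq_mul, hPc] at htot
    push_cast at htot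
    rw [← sub_le_iff_le_add', le_div_iff₀ (by positivity), sub_mul]
    nlinarith [mul_le_mul_of_nonneg_left hgates
      (show (0 : ℝ) ≤ ((E.D : ℝ) + 1) * q * B by positivity)]
  have hsum := sum_le_card_nsmul (univ : Finset O) _ _ fun o _ => htype o
  rw [nsmul_eq_mul, card_univ] at hsum
  change E.own p K ≤ _ at hsum
  have hhalf : N * (((E.D : ℝ) + 1) * q * B * (G * (C * ((c : ℝ) + 1) * ((m : ℝ) + 1))) *
      (E.own p K * B) / 2 ^ m) ≤ E.own p K / 2 := by
    rw [mul_div_assoc', div_le_iff₀ (by positivity)]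
    have h1 : 2 * (C₁ - 1) * B ^ 2 * ((m : ℝ) + 1) ≤ (2 : ℝ) ^ m := by
      have h2 : (2 : ℝ) ^ m = 2 ^ j * 2 ^ j := by simp only [m, two_mul, pow_add]
      rw [h2]
      calc 2 * (C₁ - 1) * B ^ 2 * ((m : ℝ) + 1) ≤ 2 * C₁ * B ^ 2 * (2 * 2 ^ j) := by gcongr; linarith
        _ = R * 2 ^ j := by simp only [R]; ring
        _ ≤ _ := mul_le_mul_of_nonneg_right hjR (by positivity)
    calc N * (((E.D : ℝ) + 1) * q * B * (G * (C * ((c : ℝ) + 1) * ((m : ℝ) + 1))) *
          (E.own p K * B))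
        = E.own p K / 2 * (2 * (C₁ - 1) * B ^ 2 * ((m : ℝ) + 1)) := by simp only [C₁]; ring
      _ ≤ _ := mul_le_mul_of_nonneg_left h1 (by linarith)
  have hq : (p ^ ℓ)⁻¹ ≤ 2 ^ s * (C₂ * B ^ 2) ^ (2 * s) := by
    rw [← inv_pow]
    refine (pow_le_pow_left₀ (by positivity) ha.le ℓ).trans ?_
    rw [← pow_mul, show a * ℓ = s + j * (2 * s) by simp only [ℓ, m, s]; ring, pow_add, pow_mul (2 : ℝ) j (2 * s)]
    exact mul_le_mul_of_nonneg_left (pow_le_pow_left₀ (by positivity) hj2 _) (by positivity)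
  have hN : 0 ≤ N := Nat.cast_nonneg _
  calc E.own p K ≤ 2 * N * ((E.D : ℝ) + 1) * (p ^ ℓ)⁻¹ * B := by
        rw [mul_add] at hsum; nlinarith
    _ ≤ 2 * N * ((E.D : ℝ) + 1) * (2 ^ s * (C₂ * B ^ 2) ^ (2 * s)) * B := by gcongr
    _ = _ := by rw [mul_pow, ← pow_mul, pow_add, pow_one, show 4 * s = 2 * (2 * s) by ring]; ring

/-- The tail closes at the last parameter. -/
theorem closed_of_tails {ps : ℝ} (hp : 0 < ps) (hp1 : ps ≤ 1) (ht : E.Tails ps) :
    E.Closed ps := by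
  intro ε hε
  obtain ⟨Cv, hCv, hvol⟩ := E.exists_vol_le hp hp1
  obtain ⟨Co, A, hCo, hown⟩ := E.ownBound hp hp1
  set η : ℝ := min ε 1 / (2 * ((A : ℝ) + 1))
  have hη : 0 < η := div_pos (lt_min hε one_pos) (by positivity)
  obtain ⟨Ct, hCt, htail⟩ := ht η hη
  set C₀ : ℝ := Cv * (Co * (Ct + 1) ^ A * (Ct + 1)) + 1
  set Q : ℝ := (C₀ ^ 2) ^ η
  have hC₀1 : 1 ≤ C₀ := le_add_of_nonneg_left (by positivity)
  have hQ : 1 ≤ Q := Real.one_le_rpow (one_le_pow₀ hC₀1) hη.le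
  set CB : ℝ := (Ct + 1) * Q
  refine ⟨max CB (Co * CB ^ A), le_max_of_le_left (by positivity), fun K => ?_⟩
  set V : ℝ := E.vol ps K + 1
  have hV : 1 ≤ V := le_add_of_nonneg_left (E.vol_nonneg hp.le hp1 K)
  have hV0 : 0 < V := zero_lt_one.trans_le hV
  set B : ℝ := (Ct + 1) * V ^ η
  have hVη : 1 ≤ V ^ η := Real.one_le_rpow hV hη.le
  have hB : 1 ≤ B := by nlinarith
  have hTB : E.TailLe ps K B := fun ψ ℓ z hz w d S Y hS hY => (htail K ψ ℓ z hz w d S Y hS hY).trans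
    (mul_le_mul_of_nonneg_right (by linarith) (zero_le_one.trans hVη))
  have h1 := hown K B hB hTB
  have h2 := hvol K B hB hTB
  have hK1 : (1 : ℝ) ≤ (K : ℝ) + 1 := le_add_of_nonneg_left (Nat.cast_nonneg K)
  have hA1 : η * ((A : ℝ) + 1) ≤ 1 / 2 := by
    simp only [η]
    rw [div_mul_eq_mul_div, div_le_iff₀ (by positivity)]
    nlinarith [min_le_right ε 1, (Nat.cast_nonneg A : (0 : ℝ) ≤ A)]
  -- the volume
  have hV2 : V ≤ C₀ ^ 2 * ((K : ℝ) + 1) ^ 2 := by
    have h3 : V ≤ C₀ * ((K : ℝ) + 1) * V ^ ((1 : ℝ) / 2) := by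
      have h4 : E.own ps K * B ≤ Co * (Ct + 1) ^ A * (Ct + 1) * V ^ (η * ((A : ℝ) + 1)) := by
        refine (mul_le_mul_of_nonneg_right h1 (zero_le_one.trans hB)).trans (le_of_eq ?_)
        rw [show η * ((A : ℝ) + 1) = η * A + η by ring, Real.rpow_add hV0, Real.rpow_mul hV0.le,
          Real.rpow_natCast, mul_pow]
        ring
      have h5 : V ^ (η * ((A : ℝ) + 1)) ≤ V ^ ((1 : ℝ) / 2) :=
        Real.rpow_le_rpow_of_exponent_le hV hA1
      have h6 : 1 ≤ ((K : ℝ) + 1) * V ^ ((1 : ℝ) / 2) :=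
        one_le_mul_of_one_le_of_one_le hK1 (Real.one_le_rpow hV (by norm_num))
      calc V = E.vol ps K + 1 := rfl
        _ ≤ Cv * ((K : ℝ) + 1) * (Co * (Ct + 1) ^ A * (Ct + 1) * V ^ ((1 : ℝ) / 2))
            + ((K : ℝ) + 1) * V ^ ((1 : ℝ) / 2) := add_le_add (h2.trans (mul_le_mul_of_nonneg_left
              (h4.trans (mul_le_mul_of_nonneg_left h5 (by positivity))) (by positivity))) h6
        _ = _ := by simp only [C₀]; ring
    have h7 : V ^ ((1 : ℝ) / 2) * V ^ ((1 : ℝ) / 2) = V := by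
      rw [← Real.rpow_add hV0]; norm_num
    have h8 : V ^ ((1 : ℝ) / 2) ≤ C₀ * ((K : ℝ) + 1) :=
      le_of_mul_le_mul_right (h7.trans_le h3) (Real.rpow_pos_of_pos hV0 _)
    rw [← h7, ← mul_pow, sq]
    exact mul_le_mul h8 h8 (Real.rpow_nonneg hV0.le _) (by positivity)
  have hBK : B ≤ CB * ((K : ℝ) + 1) ^ (2 * η) := by
    simp only [B, CB]
    rw [mul_assoc]
    refine mul_le_mul_of_nonneg_left ((Real.rpow_le_rpow hV0.le hV2 hη.le).trans (le_of_eq ?_))
      (by linarith)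
    rw [Real.mul_rpow (by positivity) (by positivity), ← Real.rpow_natCast ((K : ℝ) + 1) 2,
      ← Real.rpow_mul (by positivity)]
    norm_num [Q]
  have hexp : 2 * η * ((A : ℝ) + 1) ≤ ε := by
    simp only [η]
    field_simp
    exact min_le_left ε 1
  constructor
  · refine h1.trans ((mul_le_mul_of_nonneg_left (pow_le_pow_left₀ (zero_le_one.trans hB) hBK A)
      hCo).trans ?_)
    rw [mul_pow, ← mul_assoc, ← Real.rpow_natCast (((K : ℝ) + 1) ^ (2 * η)) A,
      ← Real.rpow_mul (by positivity)]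
    refine mul_le_mul (le_max_right _ _) (Real.rpow_le_rpow_of_exponent_le hK1 ?_)
      (by positivity) (le_max_of_le_left (by positivity))
    nlinarith
  · intro ψ ℓ z hz w d S Y hS hY
    refine (hTB ψ ℓ z hz w d S Y hS hY).trans (hBK.trans ?_)
    refine mul_le_mul (le_max_left _ _) (Real.rpow_le_rpow_of_exponent_le hK1 ?_)
      (by positivity) (le_max_of_le_left (by positivity))
    nlinarith [(Nat.cast_nonneg A : (0 : ℝ) ≤ A)]

end Vale.Agent.P165.TR.Env
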